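import Vale.Agent.P159.H801.Low2

/-!
P159 (helper801), sixth form of the contract, third part: the lower bound of `x` at locked states,
the contract `Ind5` for locked states, T3 for the sharp letters WITHOUT any lower bound of `x` as a
hypothesis.
-/

open Filter Topology Finset

namespace Vale.Agent.P159.H801

variable {S : ℕ → ℝ → ℝ → Prop} {x : ℕ → ℝ} {w : ℝ → ℕ} {κ B σ p p1 v1 es c1 : ℝ} {N0 : ℕ}

/-- `y → 0` along a plain chain -/
lemma Pc6.yt {e : ℝ} {N : ℕ} {n : ℕ → ℕ} {ε y : ℕ → ℝ}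
    (c : Pc6 S x w κ σ v1 c1 e N n ε y) (h : Ind6 S x w κ B σ p p1 v1 es c1 N0)
    (hes : e ≤ es) : Tendsto y atTop (𝓝 0) := by
  rw [Metric.tendsto_atTop]
  intro δ hδ
  obtain ⟨N1, hN1⟩ := h.ysm (δ / 2) (by positivity)
  obtain ⟨J, hJ⟩ := eventually_atTop.1 ((c.tend h hes).eventually (eventually_ge_atTop N1))
  refine ⟨J, fun j hj => ?_⟩
  have h1 := hN1 _ _ _ (hJ j hj) (c.iv j).hS (c.iv j).sg ((c.iv j).he.trans hes)
  rw [Real.dist_eq, sub_zero, abs_of_pos (c.iv j).hy]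
  linarith

/-- a locked state satisfies the hypotheses of the sharp relation -/
lemma Iv6.hst {e : ℝ} {N n : ℕ} {ε y : ℝ} (hs : Iv6 S σ e c1 N n ε y) (hσ0 : 0 < σ)
    (hN : N0 ≤ N) (hes : e ≤ es) (hy1 : y ≤ 1) (hL : ε ≤ y ^ (2 - 3 * σ)) :
    Hst S σ es c1 N0 n ε y :=
  ⟨hN.trans hs.hN, hs.hS, hs.sg, hs.he.trans hes,
    hL.trans (Real.rpow_le_rpow_of_exponent_ge hs.hy hy1 (by linarith)), hs.hv⟩

/-- the limit of the sharp letters along a chain -/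
lemma sharp_lim {xs ss ys : ℕ → ℝ} {q : ℝ} (hq : 1 ≤ q) (hx : Tendsto xs atTop (𝓝 0))
    (hy : Tendsto ys atTop (𝓝 0)) (hy0 : ∀ j, 0 < ys j) (hy1 : ∀ j, ys j ≤ 1)
    (hnear : ∀ j, |ss j - xs j| ≤ ys j ^ q) : Tendsto ss atTop (𝓝 0) := by
  have h1 : Tendsto (fun j => ss j - xs j) atTop (𝓝 0) := by
    refine squeeze_zero_norm (fun j => ?_) hy
    rw [Real.norm_eq_abs]
    refine (hnear j).trans ?_
    conv_rhs => rw [← Real.rpow_one (ys j)]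
    exact Real.rpow_le_rpow_of_exponent_ge (hy0 j) (hy1 j) hq
  have h2 := h1.add hx
  simpa using h2

/-- **the lower half of (★) at locked states** -/
theorem low6 {A q2 : ℝ} {Sl : ℕ → ℝ → ℝ → ℝ → Prop}
    (h : Ind6 S x w κ B σ p p1 v1 es c1 N0) (hx : Tendsto x atTop (𝓝 0))
    (h1 : 1 < (2 - 3 * σ) * p1) (h2 : 1 < (2 - 3 * σ) * v1) (hA : 0 < A)
    (hP : SLP S x w σ es c1 A q2 N0 Sl) :
    ∃ e1 : ℝ, 0 < e1 ∧ ∀ (e : ℝ) (N : ℕ), Thr6 S x κ B σ es c1 N0 e N → e ≤ e1 →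
      ∀ n ε y, Iv6 S σ e c1 N n ε y → ε ≤ y ^ (2 - 3 * σ) → -(ε ^ p) ≤ x n := by
  have hσ0 := h.σ0
  have hσ1 := h.σ1
  have hq21 := hP.q21
  have hpp := h.pp
  have hp11 := h.p11
  have hv := v1_pos6 h
  have hp1 := p1_pos6 h
  -- exponents
  obtain ⟨q, hq1, hqv, hqq⟩ : ∃ q, 1 < q ∧ q < (2 - 3 * σ) * v1 ∧ q ≤ q2 := by
    refine ⟨min q2 ((1 + (2 - 3 * σ) * v1) / 2), lt_min hq21 (by linarith), ?_, min_le_left _ _⟩
    exact (min_le_right _ _).trans_lt (by linarith)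
  have h2p : 2 * p < 1 := by
    have : (1 - σ) * p1 ≤ 1 := by
      calc (1 - σ) * p1 ≤ 1 * p1 := mul_le_mul_of_nonneg_right (by linarith) hp1.le
        _ ≤ 1 := by linarith
    linarith
  -- thresholds
  obtain ⟨f1, hf1, hup⟩ := up6 h hx
  obtain ⟨f2, hf2, hvar⟩ := y_var6 h (a := 1 / 10) (by norm_num)
  obtain ⟨f3, hf3, hlock⟩ := lock_step h hx
  obtain ⟨f4, hf4, hex⟩ := hP.ex
  obtain ⟨f5, hf5, hnr⟩ := hP.near
  obtain ⟨f6, hf6, hPe⟩ := hP.P (A / 2) (by positivity)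
  obtain ⟨f7, hf7, -, hsg⟩ := sign_small (κ := κ) (B := B) (q := q) (v := (2 - 3 * σ) * v1) (p := p)
    h.κ0 h.B0 hq1 hqv h2p
  refine ⟨min (min (min f1 f2) (min f3 f4)) (min (min f5 f6) f7), by positivity,
    fun e N t hee n0 ε0 y0 hs hL => ?_⟩
  have g1 : e ≤ f1 := hee.trans ((min_le_left _ _).trans ((min_le_left _ _).trans
    (min_le_left _ _)))
  have g2 : e ≤ f2 := hee.trans ((min_le_left _ _).trans ((min_le_left _ _).trans
    (min_le_right _ _)))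
  have g3 : e ≤ f3 := hee.trans ((min_le_left _ _).trans ((min_le_right _ _).trans
    (min_le_left _ _)))
  have g4 : e ≤ f4 := hee.trans ((min_le_left _ _).trans ((min_le_right _ _).trans
    (min_le_right _ _)))
  have g5 : e ≤ f5 := hee.trans ((min_le_right _ _).trans ((min_le_left _ _).trans
    (min_le_left _ _)))
  have g6 : e ≤ f6 := hee.trans ((min_le_right _ _).trans ((min_le_left _ _).trans
    (min_le_right _ _)))
  have g7 : e ≤ f7 := hee.trans ((min_le_right _ _).trans (min_le_right _ _))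
  have hes := t.hes
  have he1 : e ≤ 1 := hes.trans (h.es1.trans (by norm_num))
  obtain ⟨n, ε, y, hn0, hε0, hy0', c⟩ := pc6_exists h t hs
  have hy : ∀ j, 0 < y j := fun j => (c.iv j).hy
  have hye : ∀ j, y j ≤ e := fun j =>
    t.sm _ _ _ (c.iv j).hN (c.iv j).hS (c.iv j).sg ((c.iv j).he.trans hes)
  have hy1 : ∀ j, y j ≤ 1 := fun j => (hye j).trans he1
  have hlk : ∀ j, ε j ≤ y j ^ (2 - 3 * σ) := by
    intro j
    induction j with
    | zero => rw [hε0, hy0']; exact hL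
    | succ j ih =>
      have hnn := c.nn j
      rw [c.ee]
      exact hlock e N t g3 (n j) (n (j + 1)) (ε j) (y j) (y (j + 1)) (c.iv j) ih (by omega)
        (by omega) (hy _) (c.V j)
  have hH : ∀ j, Hst S σ es c1 N0 (n j) (ε j) (y j) := fun j =>
    (c.iv j).hst hσ0 t.hN hes (hy1 j) (hlk j)
  have key : ∀ j, ∃ s, Sl (n j) (ε j) (y j) s := fun j => hex _ _ _ (hH j) ((hye j).trans g4)
  choose ss hss using key
  have hnear : ∀ j, |ss j - x (n j)| ≤ y j ^ q := fun j =>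
    (hnr _ _ _ _ (hH j) ((hye j).trans g5) (hss j)).trans
      (Real.rpow_le_rpow_of_exponent_ge (hy j) (hy1 j) hqq)
  have hd : ∀ j, (n (j + 1) : ℝ) - n j = w (ε j) := by
    intro j
    rw [c.nn]; push_cast; ring
  have hfin := sign_core (κ := κ) (B := B) (q := q) (v := (2 - 3 * σ) * v1) (p := p) (p1 := p1)
    (v1 := v1) (σ := σ) (e := e) h.κ0 h.B0 hσ0 hσ1 h.p0 hq1 h1 le_rfl hv hp1 he1
    (fun Y hY hYe => hsg Y hY (hYe.trans g7))
    (fun j => x (n j)) y ε ss (fun j => (n (j + 1) : ℝ) - n j) hy hye (fun j => (c.iv j).sg) hlk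
    (fun j => by
      simp only [hd]
      exact_mod_cast h.w1 _ (c.iv j).ep ((c.iv j).he.trans hes))
    (fun j => by
      simp only [hd]
      exact h.w3 _ (c.iv j).ep ((c.iv j).he.trans hes))
    (fun j => hup e N t g1 _ _ _ (c.iv j))
    (fun j => by
      have hnn := c.nn j
      exact h.stepX _ _ _ _ (t.hN.trans (c.iv j).hN) (c.iv j).hS (c.iv j).sg
        ((c.iv j).he.trans hes) (c.iv j).hv (by omega) (by omega))
    c.V hnear
    (fun j hI => by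
      have h3 := hPe (n j) (n (j + 1)) (ε j) (ε (j + 1)) (y j) (y (j + 1)) (ss j) (ss (j + 1))
        (hH j) (hH (j + 1)) (c.nn j) ((hye _).trans g6) ((hye _).trans g6) hI (hss j)
        (hss (j + 1))
      have h4 := (abs_le.1 h3).1
      have h5 : 0 ≤ (w (ε j) : ℝ) * y j ^ 2 := by positivity
      have h6 : 0 ≤ A / 2 * ((w (ε j) : ℝ) * y j ^ 2) := mul_nonneg (by positivity) h5
      linarith)
    (fun j => by
      simp only [hd]
      have hep := (c.iv j).ep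
      exact hvar (ε j) hep ((c.iv j).he.trans g2) ((c.iv j).he.trans hes) (ε j ^ p) (w (ε j))
        (by rw [abs_of_nonneg (Real.rpow_nonneg hep.le _)]) (Nat.cast_nonneg _)
        (by have : (0 : ℝ) ≤ w (ε j) := Nat.cast_nonneg _
            linarith))
    c.ee
    (sharp_lim hq1.le (hx.comp (c.tend h hes)) (c.yt h hes) hy hy1 hnear)
  simp only [hn0, hε0] at hfin
  exact hfin

/-- locked states -/
def SL (S : ℕ → ℝ → ℝ → Prop) (σ : ℝ) (n : ℕ) (ε y : ℝ) : Prop :=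
  S n ε y ∧ ε ≤ y ^ (2 - 3 * σ)

/-- **the fifth contract for locked states** -/
theorem Ind6.toInd5 {A q2 : ℝ} {Sl : ℕ → ℝ → ℝ → ℝ → Prop}
    (h : Ind6 S x w κ B σ p p1 v1 es c1 N0) (hx : Tendsto x atTop (𝓝 0))
    (h1 : 1 < (2 - 3 * σ) * p1) (h2 : 1 < (2 - 3 * σ) * v1) (hA : 0 < A)
    (hP : SLP S x w σ es c1 A q2 N0 Sl) :
    ∃ N1, N0 ≤ N1 ∧ Ind5 (SL S σ) x w κ B σ p p1 v1 es c1 N1 := by
  obtain ⟨f1, hf1, hlow⟩ := low6 h hx h1 h2 hA hP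
  obtain ⟨f2, hf2, hlock⟩ := lock_step h hx
  obtain ⟨e, N, hee, -, t⟩ := thr6_exists h hx (a := min f1 f2) (by positivity) 0
  have hσ0 := h.σ0
  have hσ1 := h.σ1
  have he0 := t.e0
  obtain ⟨d, hd, hpow⟩ := small_pow (a := 2 - 3 * σ) (c := e) (by linarith) he0
  obtain ⟨N2, hN2⟩ := h.ysm d hd
  have hN0 : N0 ≤ max N N2 := t.hN.trans (le_max_left _ _)
  have hIv : ∀ n ε y, max N N2 ≤ n → SL S σ n ε y → y ^ (2 - σ) ≤ ε → ε ≤ es →
      Real.log (1 / y) ≤ ε ^ (-c1) → Iv6 S σ e c1 N n ε y := by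
    intro n ε y hn hS hsg hes hv
    have hy := h.y0 n ε y (hN0.trans hn) hS.1
    refine ⟨(le_max_left _ _).trans hn, hS.1, hy, hsg, ?_, hv⟩
    exact hS.2.trans (hpow y hy.le (hN2 n ε y ((le_max_right _ _).trans hn) hS.1 hsg hes))
  refine ⟨max N N2, hN0, ⟨h.κ0, h.B0, h.σ0, h.σ1, h.p0, h.pp, h.pv, h.p11, h.v11, h.es0, h.es1,
    h.c10, h.w1, h.w2, h.w3, fun n ε y hn hS => h.y0 n ε y (hN0.trans hn) hS.1, ?_, ?_, ?_, ?_⟩⟩
  · intro δ hδ
    obtain ⟨N3, hN3⟩ := h.ysm δ hδ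
    exact ⟨N3, fun n ε y hn hS => hN3 n ε y hn hS.1⟩
  · intro n ε y hn hS hsg hes hv
    exact hlow e N t (hee.trans (min_le_left _ _)) n ε y (hIv n ε y hn hS hsg hes hv) hS.2
  · intro n m ε y hn hS
    exact h.stepX n m ε y (hN0.trans hn) hS.1
  · intro n m ε y hn hS hsg hes hv hm1 hm2
    obtain ⟨y', hy1, hy2⟩ := h.stepS n m ε y (hN0.trans hn) hS.1 hsg hes hv hm1 hm2
    have hm : N0 ≤ m := hN0.trans (hn.trans (by omega))
    exact ⟨y', ⟨hy1, hlock e N t (hee.trans (min_le_right _ _)) n m ε y y'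
      (hIv n ε y hn hS hsg hes hv) hS.2 hm1 hm2 (h.y0 m _ y' hm hy1) hy2⟩, hy2⟩

/-- starting points of the locked states -/
theorem Ind6.start (h : Ind6 S x w κ B σ p p1 v1 es c1 N0) (st : Start5 S σ c1)
    (hx : Tendsto x atTop (𝓝 0)) : Start5 (SL S σ) σ c1 := by
  intro a ha N'
  obtain ⟨f1, hf1, hlk⟩ := lock_ev h hx
  obtain ⟨e, N, hee, hN', t⟩ := thr6_exists h hx (a := min a f1) (by positivity) N'
  obtain ⟨n0, ε0, y0, hn0, hε0, hS0, hsg0, hv0⟩ := st e t.e0 N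
  have hy0 := h.y0 n0 ε0 y0 (t.hN.trans hn0) hS0
  obtain ⟨n, ε, y, -, -, -, c⟩ := pc6_exists h t (n0 := n0) (ε0 := ε0) (y0 := y0)
    ⟨hn0, hS0, hy0, hsg0, hε0, hv0⟩
  obtain ⟨J, hJ⟩ := hlk e N n ε y t c (hee.trans (min_le_right _ _))
  exact ⟨n J, ε J, y J, hN'.trans (c.iv J).hN,
    (c.iv J).he.trans (hee.trans (min_le_left _ _)), ⟨(c.iv J).hS, hJ J le_rfl⟩, (c.iv J).sg,
    (c.iv J).hv⟩

/-- `Hst` for locked states -/
lemma Hst.ofSL {N1 n : ℕ} {ε y : ℝ} (hN : N0 ≤ N1) (hH : Hst (SL S σ) σ es c1 N1 n ε y) :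
    Hst S σ es c1 N0 n ε y :=
  ⟨hN.trans hH.hN, hH.hS.1, hH.sg, hH.he, hH.sh, hH.hv⟩

/-- **T3 for the sharp letters, no lower bound of `x` assumed** -/
theorem T3_of_ind6 {A q2 : ℝ} {Sl : ℕ → ℝ → ℝ → ℝ → Prop}
    (h : Ind6 S x w κ B σ p p1 v1 es c1 N0) (st : Start5 S σ c1)
    (hx : Tendsto x atTop (𝓝 0))
    (h1 : 1 < (2 - 3 * σ) * p1) (h2 : 1 < (2 - 3 * σ) * v1) (hA : 0 < A)
    (hP : SLP S x w σ es c1 A q2 N0 Sl) :
    ∃ (y ε xs : ℕ → ℝ) (c r q : ℝ) (N : ℕ), N0 ≤ N ∧ Fl x y κ c r q N ∧ 1 < r ∧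
      T3 xs y κ c r q (2 * B) A (fun n => w (ε n)) N ∧
      (∀ n, N ≤ n → |xs n - x n| ≤ y n ^ q2) ∧ (∀ n, N ≤ n → Sl n (ε n) (y n) (xs n)) ∧
      ∀ n, N ≤ n → Hst S σ es c1 N0 n (ε n) (y n) ∧ y n ≤ 1 := by
  obtain ⟨N1, hN1, h5⟩ := h.toInd5 hx h1 h2 hA hP
  have hP5 : SLP (SL S σ) x w σ es c1 A q2 N1 Sl := by
    refine ⟨hP.q21, ?_, ?_, ?_⟩
    · obtain ⟨e, he, H⟩ := hP.ex
      exact ⟨e, he, fun n ε y hH hy => H n ε y (hH.ofSL hN1) hy⟩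
    · obtain ⟨e, he, H⟩ := hP.near
      exact ⟨e, he, fun n ε y s hH hy hs => H n ε y s (hH.ofSL hN1) hy hs⟩
    · intro η hη
      obtain ⟨e, he, H⟩ := hP.P η hη
      exact ⟨e, he, fun n m ε ε' y y' s s' hH hH' => H n m ε ε' y y' s s' (hH.ofSL hN1)
        (hH'.ofSL hN1)⟩
  obtain ⟨y, ε, xs, c, r, q, N, hN, hfl, hr, hT, hnear, hSl, hHs⟩ :=
    T3_of_sl h5 (h.start st hx) hx h1 h2 hA hP5
  exact ⟨y, ε, xs, c, r, q, N, hN1.trans hN, hfl, hr, hT, hnear, hSl,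
    fun n hn => ⟨(hHs n hn).1.ofSL hN1, (hHs n hn).2⟩⟩

end Vale.Agent.P159.H801
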