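import Vale.Agent.P159.H801.Halves
import Vale.Agent.P159.H801.Low3

/-!
P159 (helper801), MASTER, first part, without the lower bound of `x`: from the two halves of the
step to the contract `Ind6`, T3 for the sharp letters.
-/

open Filter Topology Finset

namespace Vale.Agent.P159.H801

/-- the two halves of the step (no lower bound of `x`) -/
structure Halves6 (Gd : ℕ → ℝ → Prop) (YB VS : ℕ → ℝ → ℝ → Prop) (u x : ℕ → ℝ) (w : ℝ → ℕ)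
    (κ B σ sg0 c p p1 v1 es c1 : ℝ) (N0 : ℕ) : Prop where
  κ0 : 0 < κ
  B0 : 0 < B
  σ0 : 0 < σ
  σ1 : σ ≤ 1 / 4
  sg00 : 0 ≤ sg0
  c0 : 0 ≤ c
  c4 : 4 * c ≤ σ
  sgc : sg0 + 2 * c ≤ σ
  p0 : 0 < p
  pp : 2 * p < (1 - σ) * p1
  pv : p < (1 - σ) * v1
  p11 : p1 ≤ 1
  v11 : v1 ≤ 1
  es0 : 0 < es
  es1 : es ≤ 1 / 2
  c10 : 0 < c1
  w1 : ∀ ε, 0 < ε → ε ≤ es → 1 ≤ w ε
  w2 : ∀ ε ε', 0 < ε → ε / 2 ≤ ε' → ε' ≤ es → w ε' ≤ 2 * w ε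
  w3 : ∀ ε, 0 < ε → ε ≤ es → (w ε : ℝ) ≤ B * Real.log (1 / ε)
  mono : ∀ n ε ε', Gd n ε → ε ≤ ε' → Gd n ε'
  ut : Tendsto u atTop (𝓝 0)
  xt : Tendsto x atTop (𝓝 0)
  stepP : ∀ n m ε Y, N0 ≤ n → Gd n ε → YB n ε Y → Y ^ 2 ≤ ε → ε ≤ es → n + w ε ≤ m →
    m ≤ n + 4 * w ε → Gd m (max (ε / 2) (ε ^ (-sg0) * Y ^ 2))
  stepX : ∀ n m ε Y, N0 ≤ n → Gd n ε → YB n ε Y → Gd m (max (ε / 2) (ε ^ (-sg0) * Y ^ 2)) →
    Y ^ 2 ≤ ε → ε ≤ es → n + w ε ≤ m → m ≤ n + 4 * w ε → |x m - x n| ≤ ε ^ p1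
  stepV : ∀ n m ε ε' z, N0 ≤ n → MS Gd YB VS u c n ε z → z ^ (2 - σ) ≤ ε → ε ≤ es →
    Real.log (1 / z) ≤ ε ^ (-c1) → n + w ε ≤ m → m ≤ n + 4 * w ε → Gd m ε' →
    max (ε / 2) (z ^ (2 - 2 * σ)) ≤ ε' → ε' ≤ ε ^ (1 - σ) → ε' ≤ es →
    ∃ z', VS m ε' z' ∧ 0 < z' ∧ YB m ε' (ε' ^ (-c) * z') ∧ z' ≤ ε' ^ (-c) * u m ∧
      |Real.log z' - Real.log z + κ * x n * ((m : ℝ) - n)| ≤ ε ^ v1

variable {Gd : ℕ → ℝ → Prop} {YB VS : ℕ → ℝ → ℝ → Prop} {u x : ℕ → ℝ} {w : ℝ → ℕ}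
  {κ B σ sg0 c p p1 v1 es c1 : ℝ} {N0 : ℕ}

/-- the old structure contains the new one -/
theorem Halves.to6 (h : Halves Gd YB VS u x w κ B σ sg0 c p p1 v1 es c1 N0) :
    Halves6 Gd YB VS u x w κ B σ sg0 c p p1 v1 es c1 N0 where
  κ0 := h.κ0
  B0 := h.B0
  σ0 := h.σ0
  σ1 := h.σ1
  sg00 := h.sg00
  c0 := h.c0
  c4 := h.c4
  sgc := h.sgc
  p0 := h.p0
  pp := h.pp
  pv := h.pv
  p11 := h.p11
  v11 := h.v11
  es0 := h.es0
  es1 := h.es1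
  c10 := h.c10
  w1 := h.w1
  w2 := h.w2
  w3 := h.w3
  mono := h.mono
  ut := h.ut
  xt := h.xt
  stepP := h.stepP
  stepX := h.stepX
  stepV := h.stepV

/-- late states have small activity -/
lemma ms_small6 (h : Halves6 Gd YB VS u x w κ B σ sg0 c p p1 v1 es c1 N0) {δ : ℝ} (hδ : 0 < δ) :
    ∃ N, ∀ n ε z, N ≤ n → MS Gd YB VS u c n ε z → z ^ (2 - σ) ≤ ε → ε ≤ es → z ≤ δ := by
  have hσ1 := h.σ1
  have hc0 := h.c0
  set s : ℝ := 1 + (2 - σ) * c with hs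
  have hs0 : 0 < s := by
    have : 0 ≤ (2 - σ) * c := mul_nonneg (by linarith) hc0
    linarith
  obtain ⟨N, hN⟩ := eventually_atTop.1
    (h.ut.eventually (gt_mem_nhds (Real.rpow_pos_of_pos hδ s)))
  refine ⟨N, fun n ε z hn hS hz hes => ?_⟩
  by_contra hlt
  rw [not_le] at hlt
  have hz0 := hS.z0
  have hp : 0 < z ^ (2 - σ) := Real.rpow_pos_of_pos hz0 _
  have hε : 0 < ε := hp.trans_le hz
  have h1 : ε ^ (-c) ≤ z ^ (-((2 - σ) * c)) := by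
    have h2 : ε ^ (-c) ≤ (z ^ (2 - σ)) ^ (-c) :=
      Real.rpow_le_rpow_of_nonpos hp hz (by linarith)
    rw [← Real.rpow_mul hz0.le] at h2
    rwa [show (2 - σ) * -c = -((2 - σ) * c) by ring] at h2
  have hun : 0 ≤ u n := by
    by_contra hneg
    rw [not_le] at hneg
    have := mul_neg_of_pos_of_neg (Real.rpow_pos_of_pos hε (-c)) hneg
    have := hS.up
    linarith
  have h2 : z ≤ z ^ (-((2 - σ) * c)) * u n :=
    hS.up.trans (mul_le_mul_of_nonneg_right h1 hun)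
  have h3 : z ^ s ≤ u n := by
    have h4 := mul_le_mul_of_nonneg_left h2 (Real.rpow_nonneg hz0.le ((2 - σ) * c))
    have h5 : z ^ ((2 - σ) * c) * z = z ^ s := by
      rw [hs, Real.rpow_add hz0, Real.rpow_one]; ring
    have h6 : z ^ ((2 - σ) * c) * (z ^ (-((2 - σ) * c)) * u n) = u n := by
      rw [← mul_assoc, ← Real.rpow_add hz0, add_neg_cancel, Real.rpow_zero, one_mul]
    rwa [h5, h6] at h4
  have h4 := Real.rpow_le_rpow hδ.le hlt.le hs0.le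
  have h5 := hN n hn
  linarith

/-- **the two halves give the contract** -/
theorem Halves6.toInd6 (h : Halves6 Gd YB VS u x w κ B σ sg0 c p p1 v1 es c1 N0) :
    ∃ N1, N0 ≤ N1 ∧ Ind6 (MS Gd YB VS u c) x w κ B σ p p1 v1 es c1 N1 := by
  have hκ := h.κ0
  have hB := h.B0
  have hσ0 := h.σ0
  have hσ1 := h.σ1
  have hc0 := h.c0
  have hes0 := h.es0
  obtain ⟨N3, hN3⟩ := ms_small6 h (δ := es) hes0
  -- the common step
  have key : ∀ n m ε z, max N0 N3 ≤ n → MS Gd YB VS u c n ε z → z ^ (2 - σ) ≤ ε →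
      ε ≤ es → Real.log (1 / z) ≤ ε ^ (-c1) → n + w ε ≤ m → m ≤ n + 4 * w ε →
      (ε ^ (-c) * z) ^ 2 ≤ ε ∧ Gd m (max (ε / 2) (ε ^ (-sg0) * (ε ^ (-c) * z) ^ 2)) ∧
      ∃ z', MS Gd YB VS u c m (max (ε / 2) (z ^ (2 - 2 * σ))) z' ∧
        |Real.log z' - Real.log z + κ * x n * ((m : ℝ) - n)| ≤ ε ^ v1 := by
    intro n m ε z hn hS hz hes hv a1 a2
    have hn0 : N0 ≤ n := (le_max_left _ _).trans hn
    have hn3 : N3 ≤ n := (le_max_right _ _).trans hn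
    have hz0 := hS.z0
    have hε : 0 < ε := lt_of_lt_of_le (Real.rpow_pos_of_pos hz0 _) hz
    have hε1 : ε ≤ 1 := hes.trans (h.es1.trans (by norm_num))
    obtain ⟨hz1, hz2⟩ := sq_le_of_sg hσ0 hσ1 hz0 hz hε1
    have hzs := hN3 n ε z hn3 hS hz hes
    obtain ⟨b1, b2⟩ := ms_num hσ0 hσ1 h.sg00 hc0 h.c4 h.sgc hz0 hz1
      (mul_nonneg (Real.rpow_nonneg hε.le _) hz0.le) hz le_rfl
    have g1 := h.stepP n m ε _ hn0 hS.P hS.Y b1 hes a1 a2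
    have g2 : Gd m (max (ε / 2) (z ^ (2 - 2 * σ))) :=
      h.mono _ _ _ g1 (max_le_max le_rfl b2)
    have g3 : max (ε / 2) (z ^ (2 - 2 * σ)) ≤ ε ^ (1 - σ) := by
      refine max_le ?_ ?_
      · have h7 : ε ^ (1 : ℝ) ≤ ε ^ (1 - σ) :=
          Real.rpow_le_rpow_of_exponent_ge hε hε1 (by linarith)
        rw [Real.rpow_one] at h7
        linarith
      · have h6 : (z ^ 2) ^ (1 - σ) = z ^ (2 - 2 * σ) := by
          rw [← Real.rpow_natCast, ← Real.rpow_mul hz0.le]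
          congr 1
          push_cast
          ring
        rw [← h6]
        exact Real.rpow_le_rpow (by positivity) hz2 (by linarith)
    have g4 : max (ε / 2) (z ^ (2 - 2 * σ)) ≤ es := by
      refine max_le (by linarith) ?_
      calc z ^ (2 - 2 * σ) ≤ z ^ (1 : ℝ) :=
            Real.rpow_le_rpow_of_exponent_ge hz0 hz1 (by linarith)
        _ = z := Real.rpow_one _
        _ ≤ es := hzs
    obtain ⟨z', c1', c2', c3', c4', c5'⟩ := h.stepV n m ε _ z hn0 hS hz hes hv a1 a2 g2 le_rfl g3 g4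
    exact ⟨b1, g1, z', ⟨g2, c1', c2', c3', c4'⟩, c5'⟩
  refine ⟨max N0 N3, le_max_left _ _,
    { κ0 := h.κ0, B0 := h.B0, σ0 := h.σ0, σ1 := h.σ1, p0 := h.p0, pp := h.pp, pv := h.pv,
      p11 := h.p11, v11 := h.v11, es0 := h.es0, es1 := h.es1, c10 := h.c10,
      w1 := h.w1, w2 := h.w2, w3 := h.w3,
      y0 := fun n ε y _ hS => hS.z0
      ysm := fun δ hδ => ms_small6 h hδ
      stepX := ?_, stepS := ?_ }⟩
  · intro n m ε z hn hS hz hes hv a1 a2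
    obtain ⟨k1, k2, -⟩ := key n m ε z hn hS hz hes hv a1 a2
    exact h.stepX n m ε _ ((le_max_left _ _).trans hn) hS.P hS.Y k2 k1 hes a1 a2
  · intro n m ε z hn hS hz hes hv a1 a2
    exact (key n m ε z hn hS hz hes hv a1 a2).2.2

/-- **MASTER, T-part**: the halves, the start and the sharp relation give T3 -/
theorem Halves6.T3 {A q2 : ℝ} {Sl : ℕ → ℝ → ℝ → ℝ → Prop}
    (h : Halves6 Gd YB VS u x w κ B σ sg0 c p p1 v1 es c1 N0)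
    (st : Start5 (MS Gd YB VS u c) σ c1)
    (h1 : 1 < (2 - 3 * σ) * p1) (h2 : 1 < (2 - 3 * σ) * v1) (hA : 0 < A)
    (hP : SLP (MS Gd YB VS u c) x w σ es c1 A q2 N0 Sl) :
    ∃ (y ε xs : ℕ → ℝ) (c' r q : ℝ) (N : ℕ), N0 ≤ N ∧ Fl x y κ c' r q N ∧ 1 < r ∧
      T3 xs y κ c' r q (2 * B) A (fun n => w (ε n)) N ∧
      (∀ n, N ≤ n → |xs n - x n| ≤ y n ^ q2) ∧ (∀ n, N ≤ n → Sl n (ε n) (y n) (xs n)) ∧
      ∀ n, N ≤ n → Hst (MS Gd YB VS u c) σ es c1 N0 n (ε n) (y n) ∧ y n ≤ 1 := by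
  obtain ⟨N1, hN1, hI⟩ := h.toInd6
  have hP' : SLP (MS Gd YB VS u c) x w σ es c1 A q2 N1 Sl := by
    have hup : ∀ n ε y, Hst (MS Gd YB VS u c) σ es c1 N1 n ε y →
        Hst (MS Gd YB VS u c) σ es c1 N0 n ε y := fun n ε y H =>
      ⟨hN1.trans H.hN, H.hS, H.sg, H.he, H.sh, H.hv⟩
    refine ⟨hP.q21, ?_, ?_, ?_⟩
    · obtain ⟨e, he, hh⟩ := hP.ex
      exact ⟨e, he, fun n ε y H => hh n ε y (hup _ _ _ H)⟩
    · obtain ⟨e, he, hh⟩ := hP.near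
      exact ⟨e, he, fun n ε y s H => hh n ε y s (hup _ _ _ H)⟩
    · intro η hη
      obtain ⟨e, he, hh⟩ := hP.P η hη
      exact ⟨e, he, fun n m ε ε' y y' s s' H H' => hh n m ε ε' y y' s s' (hup _ _ _ H)
        (hup _ _ _ H')⟩
  obtain ⟨y, ε, xs, c', r, q, N, a1, a2, a3, a4, a5, a6, a7⟩ :=
    T3_of_ind6 hI st h.xt h1 h2 hA hP'
  refine ⟨y, ε, xs, c', r, q, N, hN1.trans a1, a2, a3, a4, a5, a6, fun n hn => ?_⟩
  obtain ⟨H, b⟩ := a7 n hn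
  exact ⟨⟨hN1.trans H.hN, H.hS, H.sg, H.he, H.sh, H.hv⟩, b⟩

end Vale.Agent.P159.H801
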