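import Vale.Agent.P159.H801.Halves

/-!
P159 (helper801), MASTER, second part: the start.  The dichotomy behind the start of the V half
(helper316's lemma, with the slow decrease `ε → ε/2` of the P half), and `Start5` of the total
state.
-/

open Filter Topology Finset

namespace Vale.Agent.P159.H801

/-- hypotheses of the dichotomy: `y0 n ε` = the zero background number on the tori of `(n, ε)`,
`Nm n ε` = the activity does not drop by a power in the window -/
structure Dich (Gd Nm : ℕ → ℝ → Prop) (YB : ℕ → ℝ → ℝ → Prop) (y0 : ℕ → ℝ → ℝ) (w : ℝ → ℕ)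
    (B b0 sg0 c g a th c1 c' C es : ℝ) (N0 : ℕ) : Prop where
  B0 : 0 < B
  b00 : 0 < b0
  sg00 : 0 ≤ sg0
  c00 : 0 ≤ c
  g0 : 0 < g
  gs : g * (1 + sg0 + 2 * c) < 2
  a0 : 0 < a
  c10 : 0 < c1
  cth : c1 < th
  c'0 : 0 < c'
  es0 : 0 < es
  es1 : es ≤ 1 / 2
  w1 : ∀ ε, 0 < ε → ε ≤ es → 1 ≤ w ε
  w3 : ∀ ε, 0 < ε → ε ≤ es → (w ε : ℝ) ≤ B * Real.log (1 / ε)
  w4 : ∀ ε, 0 < ε → ε ≤ es → b0 * Real.log (1 / ε) ≤ w ε
  mono : ∀ n ε ε', Gd n ε → ε ≤ ε' → Gd n ε'
  y00 : ∀ n ε, N0 ≤ n → 0 < ε → ε ≤ es → 0 < y0 n ε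
  yB : ∀ n ε, N0 ≤ n → 0 < ε → ε ≤ es → Gd n ε → YB n ε (ε ^ (-c) * y0 n ε)
  yt : ∀ ε, 0 < ε → ε ≤ es → ∀ᶠ n in atTop, y0 n ε ^ g ≤ ε
  yl : ∀ d, 0 < d → ∃ D, ∀ n ε, N0 ≤ n → 0 < ε → ε ≤ es →
    Real.log (1 / y0 n ε) ≤ d * (n + Real.log (1 / ε)) + D
  start : ∀ e, 0 < e → e ≤ es → ∃ n0, ∀ n, n0 ≤ n → Gd n e
  stepP : ∀ n m ε Y, N0 ≤ n → Gd n ε → YB n ε Y → Y ^ 2 ≤ ε → ε ≤ es → n + w ε ≤ m →
    m ≤ n + 4 * w ε → Gd m (max (ε / 2) (ε ^ (-sg0) * Y ^ 2))
  reg : ∀ n ε, N0 ≤ n → Gd n ε → y0 n ε ^ g ≤ ε → ε ≤ es →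
    ε ^ (-c1) < Real.log (1 / y0 n ε) →
    min (Real.log (1 / y0 n ε) - 2 * w ε) (c' * ε ^ (-th)) - C ≤
      Real.log (1 / y0 (n + w ε) (ε / 2))
  drop : ∀ n ε, N0 ≤ n → Gd n ε → y0 n ε ^ g ≤ ε → ε ≤ es →
    Real.log (1 / y0 n ε) ≤ ε ^ (-c1) → ¬ Nm n ε →
    Real.log (1 / y0 n ε) + a * w ε ≤ Real.log (1 / y0 (n + w ε) (ε / 2))

/-- thresholds -/
lemma st_small {B C c' c1 th g a : ℝ} (hB : 0 < B) (hc1 : 0 < c1) (hth : c1 < th) (hc' : 0 < c')
    (hg : 0 < g) (ha : 0 < a) :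
    ∃ e : ℝ, 0 < e ∧ ∀ ε, 0 < ε → ε ≤ e → ε ≤ 1 →
      ε ^ (-c1) / 2 ≤ min (ε ^ (-c1) - 2 * (B * Real.log (1 / ε))) (c' * ε ^ (-th)) - C ∧
      Real.log (1 / ε) + 1 ≤ g * (ε ^ (-c1) / 2) ∧
      a * (2 * B * (Real.log (1 / ε) + 1) ^ 2) ≤ ε ^ (-c1) / 2 := by
  -- smallness constants
  obtain ⟨δ, hδ0, hδ1, hδ2, hδ3, hδ4⟩ : ∃ δ : ℝ, 0 < δ ∧ δ * (2 * B) ≤ 1 / 4 ∧ δ * |C| ≤ 1 / 4 ∧
      2 * δ ≤ g / 2 ∧ 4 * δ ≤ 1 := by
    refine ⟨min (min (1 / 4 / (2 * B)) (1 / 4 / (|C| + 1))) (min (g / 4) (1 / 4)),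
      by positivity, ?_, ?_, ?_, ?_⟩
    · have := (min_le_left (min (1 / 4 / (2 * B)) (1 / 4 / (|C| + 1)))
        (min (g / 4) (1 / 4))).trans (min_le_left _ _)
      rwa [le_div_iff₀ (by positivity)] at this
    · have h1 := (min_le_left (min (1 / 4 / (2 * B)) (1 / 4 / (|C| + 1)))
        (min (g / 4) (1 / 4))).trans (min_le_right _ _)
      rw [le_div_iff₀ (by positivity)] at h1
      have h2 : 0 ≤ min (min (1 / 4 / (2 * B)) (1 / 4 / (|C| + 1))) (min (g / 4) (1 / 4)) := by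
        positivity
      nlinarith
    · have := (min_le_right (min (1 / 4 / (2 * B)) (1 / 4 / (|C| + 1)))
        (min (g / 4) (1 / 4))).trans (min_le_left _ _)
      linarith
    · have := (min_le_right (min (1 / 4 / (2 * B)) (1 / 4 / (|C| + 1)))
        (min (g / 4) (1 / 4))).trans (min_le_right _ _)
      linarith
  obtain ⟨δ', hδ'0, hδ'1⟩ : ∃ δ' : ℝ, 0 < δ' ∧ a * (2 * B * (2 * δ') ^ 2) ≤ 1 / 2 := by
    refine ⟨min 1 (1 / (16 * (a * B))), by positivity, ?_⟩
    set m : ℝ := min 1 (1 / (16 * (a * B))) with hm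
    have hm1 : m ≤ 1 := min_le_left _ _
    have hm2 : m * (16 * (a * B)) ≤ 1 := by
      have : m ≤ 1 / (16 * (a * B)) := min_le_right _ _
      rwa [le_div_iff₀ (by positivity)] at this
    have hm0 : 0 < m := by positivity
    have h3 : m ^ 2 ≤ m := by nlinarith
    have h4 : a * (2 * B * (2 * m) ^ 2) = 8 * (a * B) * m ^ 2 := by ring
    rw [h4]
    have h5 := mul_le_mul_of_nonneg_left h3 (show 0 ≤ 8 * (a * B) by positivity)
    linarith
  obtain ⟨e1, he1, h1⟩ := small_pow hc1 hδ0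
  obtain ⟨e2, he2, h2⟩ := log_small hc1 hδ0
  obtain ⟨e3, he3, h3⟩ := small_pow (a := th - c1) (by linarith) hc'
  obtain ⟨e4, he4, h4⟩ := small_pow (a := c1 / 2) (by positivity) hδ'0
  obtain ⟨e5, he5, h5⟩ := log_small (a := c1 / 2) (by positivity) hδ'0
  refine ⟨min (min e1 e2) (min e3 (min e4 e5)),
    lt_min (lt_min he1 he2) (lt_min he3 (lt_min he4 he5)), fun ε h0 hε hε1 => ?_⟩
  have k1 := h1 ε h0.le (hε.trans ((min_le_left _ _).trans (min_le_left _ _)))
  have k2 := h2 ε h0 (hε.trans ((min_le_left _ _).trans (min_le_right _ _)))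
  have k3 := h3 ε h0.le (hε.trans ((min_le_right _ _).trans (min_le_left _ _)))
  have k4 := h4 ε h0.le (hε.trans ((min_le_right _ _).trans
    ((min_le_right _ _).trans (min_le_left _ _))))
  have k5 := h5 ε h0 (hε.trans ((min_le_right _ _).trans
    ((min_le_right _ _).trans (min_le_right _ _))))
  set l : ℝ := Real.log (1 / ε) with hl
  have hl0 : 0 ≤ l := Real.log_nonneg (by rw [one_le_div h0]; exact hε1)
  set T : ℝ := ε ^ (-c1) with hT
  have hT0 : 0 < T := Real.rpow_pos_of_pos h0 _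
  have hTu : ε ^ c1 * T = 1 := by
    rw [hT, ← Real.rpow_add h0, add_neg_cancel, Real.rpow_zero]
  -- multiplication by `T`
  have hmul : ∀ s k : ℝ, ε ^ c1 * s ≤ k → s ≤ k * T := by
    intro s k hk
    have h6 := mul_le_mul_of_nonneg_right hk hT0.le
    have h7 : ε ^ c1 * s * T = s * (ε ^ c1 * T) := by ring
    rwa [h7, hTu, mul_one] at h6
  have q1 : 1 ≤ δ * T := hmul 1 δ (by rw [mul_one]; exact k1)
  have q2 : l ≤ δ * T := hmul l δ k2
  have hCT : C ≤ T / 4 := by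
    have h6 := le_abs_self C
    have h7 := mul_le_mul_of_nonneg_right q1 (abs_nonneg C)
    have h8 := mul_le_mul_of_nonneg_right hδ2 hT0.le
    nlinarith
  have hBT : 2 * (B * l) ≤ T / 4 := by
    have h7 := mul_le_mul_of_nonneg_left q2 (show 0 ≤ 2 * B by positivity)
    have h8 := mul_le_mul_of_nonneg_right hδ1 hT0.le
    nlinarith
  refine ⟨?_, ?_, ?_⟩
  · have hc'T : T ≤ c' * ε ^ (-th) := by
      have h6 : ε ^ (-th) = ε ^ (-(th - c1)) * T := by
        rw [hT, ← Real.rpow_add h0]; congr 1; ring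
      have h7 : 1 ≤ c' * ε ^ (-(th - c1)) := by
        have h8 : 0 < ε ^ (-(th - c1)) := Real.rpow_pos_of_pos h0 _
        have h9 : ε ^ (th - c1) * ε ^ (-(th - c1)) = 1 := by
          rw [← Real.rpow_add h0, add_neg_cancel, Real.rpow_zero]
        have h10 := mul_le_mul_of_nonneg_right k3 h8.le
        linarith
      rw [h6, ← mul_assoc]
      have := mul_le_mul_of_nonneg_right h7 hT0.le
      linarith
    rw [le_sub_iff_add_le]
    exact le_min (by linarith) (by linarith)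
  · have h6 : l + 1 ≤ 2 * δ * T := by linarith
    have h7 := mul_le_mul_of_nonneg_right hδ3 hT0.le
    linarith
  · -- squares
    have h6 : ε ^ c1 = ε ^ (c1 / 2) * ε ^ (c1 / 2) := by
      rw [← Real.rpow_add h0]; congr 1; ring
    have hu0 : 0 ≤ ε ^ (c1 / 2) := Real.rpow_nonneg h0.le _
    have h7 : ε ^ (c1 / 2) * (l + 1) ≤ 2 * δ' := by linarith
    have h8 : (ε ^ (c1 / 2) * (l + 1)) ^ 2 ≤ (2 * δ') ^ 2 :=
      pow_le_pow_left₀ (by positivity) h7 2
    have h9 : ε ^ c1 * (a * (2 * B * (l + 1) ^ 2)) ≤ 1 / 2 := by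
      have h10 : ε ^ c1 * (a * (2 * B * (l + 1) ^ 2)) =
          a * (2 * B * (ε ^ (c1 / 2) * (l + 1)) ^ 2) := by
        rw [h6]; ring
      rw [h10]
      refine le_trans ?_ hδ'1
      exact mul_le_mul_of_nonneg_left (mul_le_mul_of_nonneg_left h8 (by positivity)) ha.le
    have h10 := hmul _ _ h9
    linarith

/-- the levels of the slow chain -/
noncomputable def lvl (w : ℝ → ℕ) (ε0 : ℝ) (n0 : ℕ) : ℕ → ℕ
  | 0 => n0
  | j + 1 => lvl w ε0 n0 j + w (ε0 / 2 ^ j)

variable {Gd Nm : ℕ → ℝ → Prop} {YB VS : ℕ → ℝ → ℝ → Prop} {y0 : ℕ → ℝ → ℝ} {w : ℝ → ℕ}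
  {B b0 sg0 c g a th c1 c' C es : ℝ} {N0 : ℕ}

/-- the P half at a state with `y^g ≤ ε`: the size halves -/
lemma Dich.half (h : Dich Gd Nm YB y0 w B b0 sg0 c g a th c1 c' C es N0) :
    ∃ e, 0 < e ∧ ∀ n ε, N0 ≤ n → 0 < ε → ε ≤ e → ε ≤ es → Gd n ε → y0 n ε ^ g ≤ ε →
      Gd (n + w ε) (ε / 2) := by
  have hg := h.g0
  have hgs : 0 < 2 / g - 1 - sg0 - 2 * c := by
    have h1 : (1 + sg0 + 2 * c) < 2 / g := by
      rw [lt_div_iff₀ hg]; linarith [h.gs]
    linarith
  obtain ⟨e2, he2, h2⟩ := small_pow hgs (show (0 : ℝ) < 1 / 2 by norm_num)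
  refine ⟨e2, he2, fun n ε hn hε hεe hes hG hy => ?_⟩
  have hε1 : ε ≤ 1 := hes.trans (h.es1.trans (by norm_num))
  have hy0 := h.y00 n ε hn hε hes
  have hYB := h.yB n ε hn hε hes hG
  -- `Y ^ 2 = ε^(-2c) y0^2 ≤ ε^(2/g - 2c)`
  have hY2 : (ε ^ (-c) * y0 n ε) ^ 2 ≤ ε ^ (2 / g - 2 * c) := by
    have h3 : y0 n ε ^ 2 = (y0 n ε ^ g) ^ (2 / g) := by
      rw [← Real.rpow_mul hy0.le, mul_div_cancel₀ _ hg.ne', ← Real.rpow_natCast]
      norm_num
    have h4 : y0 n ε ^ 2 ≤ ε ^ (2 / g) := by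
      rw [h3]
      exact Real.rpow_le_rpow (Real.rpow_nonneg hy0.le _) hy (by positivity)
    have h5 : (ε ^ (-c)) ^ 2 = ε ^ (-(2 * c)) := by
      rw [← Real.rpow_natCast, ← Real.rpow_mul hε.le]
      congr 1
      push_cast
      ring
    rw [mul_pow, h5]
    calc ε ^ (-(2 * c)) * y0 n ε ^ 2 ≤ ε ^ (-(2 * c)) * ε ^ (2 / g) :=
          mul_le_mul_of_nonneg_left h4 (Real.rpow_nonneg hε.le _)
      _ = ε ^ (2 / g - 2 * c) := by
          rw [← Real.rpow_add hε]; congr 1; ring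
  have hY1 : (ε ^ (-c) * y0 n ε) ^ 2 ≤ ε := by
    refine hY2.trans ?_
    conv_rhs => rw [← Real.rpow_one ε]
    exact Real.rpow_le_rpow_of_exponent_ge hε hε1 (by linarith [h.sg00])
  have hG' := h.stepP n (n + w ε) ε _ hn hG hYB hY1 hes le_rfl (by omega)
  refine h.mono _ _ _ hG' (max_le le_rfl ?_)
  calc ε ^ (-sg0) * (ε ^ (-c) * y0 n ε) ^ 2 ≤ ε ^ (-sg0) * ε ^ (2 / g - 2 * c) :=
        mul_le_mul_of_nonneg_left hY2 (Real.rpow_nonneg hε.le _)
    _ = ε ^ (2 / g - 1 - sg0 - 2 * c) * ε := by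
        conv_rhs => rw [← Real.rpow_one ε, ← Real.rpow_mul hε.le, one_mul,
          ← Real.rpow_add hε]
        rw [← Real.rpow_add hε]
        congr 1
        ring
    _ ≤ 1 / 2 * ε := mul_le_mul_of_nonneg_right (h2 ε hε.le hεe) hε.le
    _ = ε / 2 := by ring

/-- **the dichotomy**: arbitrarily late and small states with (A) and NORMAL -/
theorem Dich.exists (h : Dich Gd Nm YB y0 w B b0 sg0 c g a th c1 c' C es N0) {e : ℝ}
    (he : 0 < e) (N : ℕ) : ∃ n ε, N ≤ n ∧ 0 < ε ∧ ε ≤ e ∧ ε ≤ es ∧ Gd n ε ∧ y0 n ε ^ g ≤ ε ∧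
      Real.log (1 / y0 n ε) ≤ ε ^ (-c1) ∧ Nm n ε := by
  by_contra hcon
  push Not at hcon
  have hB := h.B0
  have hg := h.g0
  have ha := h.a0
  have hb := h.b00
  obtain ⟨e1, he1, ht⟩ := st_small (C := C) h.B0 h.c10 h.cth h.c'0 h.g0 h.a0
  obtain ⟨e2, he2, h2⟩ := h.half
  obtain ⟨ε0, hε0, hE1, hE2, hE3, hE4, hE5, hE6⟩ : ∃ ε0 : ℝ, 0 < ε0 ∧ ε0 ≤ e1 ∧ ε0 ≤ e2 ∧
      ε0 ≤ es ∧ ε0 ≤ e ∧ ε0 ≤ Real.exp (-(1 / (g * a * b0))) ∧ ε0 ≤ 1 / 2 := by
    refine ⟨min (min (min e1 e2) (min es e)) (Real.exp (-(1 / (g * a * b0)))), ?_, ?_, ?_, ?_, ?_,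
      ?_, ?_⟩
    · exact lt_min (lt_min (lt_min he1 he2) (lt_min h.es0 he)) (Real.exp_pos _)
    · exact (min_le_left _ _).trans ((min_le_left _ _).trans (min_le_left _ _))
    · exact (min_le_left _ _).trans ((min_le_left _ _).trans (min_le_right _ _))
    · exact (min_le_left _ _).trans ((min_le_right _ _).trans (min_le_left _ _))
    · exact (min_le_left _ _).trans ((min_le_right _ _).trans (min_le_right _ _))
    · exact min_le_right _ _
    · exact ((min_le_left _ _).trans ((min_le_right _ _).trans (min_le_left _ _))).trans h.es1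
  obtain ⟨n1, hn1⟩ := h.start ε0 hε0 hE3
  have hyev : ∀ᶠ n in atTop, y0 n ε0 ^ g ≤ ε0 := h.yt ε0 hε0 hE3
  obtain ⟨n2, hn2⟩ := eventually_atTop.1 hyev
  obtain ⟨n0, hn0N, hn0N0, hn01, hn02⟩ : ∃ n0, N ≤ n0 ∧ N0 ≤ n0 ∧ n1 ≤ n0 ∧ n2 ≤ n0 :=
    ⟨max (max N N0) (max n1 n2), (le_max_left _ _).trans (le_max_left _ _),
      (le_max_right _ _).trans (le_max_left _ _), (le_max_left _ _).trans (le_max_right _ _),
      (le_max_right _ _).trans (le_max_right _ _)⟩
  set ee : ℕ → ℝ := fun j => ε0 / 2 ^ j with hee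
  set nn : ℕ → ℕ := lvl w ε0 n0 with hnn
  have hnn1 : ∀ j, nn (j + 1) = nn j + w (ee j) := fun j => rfl
  have hee1 : ∀ j, ee (j + 1) = ee j / 2 := fun j => by
    simp only [hee]
    rw [pow_succ]
    field_simp
  have hep : ∀ j, 0 < ee j := fun j => by simp only [hee]; positivity
  have hel : ∀ j, ee j ≤ ε0 := fun j => by
    simp only [hee]
    exact div_le_self hε0.le (one_le_pow₀ (by norm_num))
  have hge : ∀ j, n0 + j ≤ nn j := by
    intro j
    induction j with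
    | zero => exact le_rfl
    | succ j ih =>
      rw [hnn1]
      have := h.w1 (ee j) (hep j) ((hel j).trans hE3)
      omega
  -- logarithms
  have hlog : ∀ j, Real.log (1 / ee (j + 1)) = Real.log (1 / ee j) + Real.log 2 := by
    intro j
    rw [hee1, one_div_div, div_eq_mul_one_div, Real.log_mul two_ne_zero
      (by have := hep j; positivity)]
    ring
  have hl2 : Real.log 2 ≤ 1 := by
    have := Real.log_two_lt_d9
    linarith
  have hl2' : 1 / 2 ≤ Real.log 2 := by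
    have := Real.log_two_gt_d9
    linarith
  have hlpos : ∀ j, 0 ≤ Real.log (1 / ee j) := fun j =>
    Real.log_nonneg (by rw [one_le_div (hep j)]; exact (hel j).trans (by linarith))
  have hlge : ∀ j, 1 / (g * a * b0) ≤ Real.log (1 / ee j) := by
    intro j
    have h3 := Real.log_le_log (hep j) ((hel j).trans hE5)
    rw [Real.log_exp] at h3
    rw [one_div (ee j), Real.log_inv]
    linarith
  have hlup : ∀ j : ℕ, Real.log (1 / ee j) ≤ Real.log (1 / ε0) + j := by
    intro j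
    induction j with
    | zero => simp [hee]
    | succ j ih =>
      rw [hlog]
      push_cast
      linarith
  -- number of levels
  have hcnt : ∀ j, ((nn j : ℕ) : ℝ) - n0 ≤ 2 * B * Real.log (1 / ee j) ^ 2 := by
    intro j
    induction j with
    | zero =>
      have : ((nn 0 : ℕ) : ℝ) = n0 := rfl
      rw [this, sub_self]
      have := hlpos 0
      positivity
    | succ j ih =>
      have h3 := h.w3 (ee j) (hep j) ((hel j).trans hE3)
      rw [hnn1, hlog]
      push_cast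
      have h4 := hlpos j
      have h5 : 0 ≤ (B * Real.log (1 / ee j)) * (4 * Real.log 2 - 1) :=
        mul_nonneg (by positivity) (by linarith)
      have h6 : 0 ≤ 2 * B * Real.log 2 ^ 2 := by positivity
      have h7 : 2 * B * (Real.log (1 / ee j) + Real.log 2) ^ 2 =
          2 * B * Real.log (1 / ee j) ^ 2 + (B * Real.log (1 / ee j)) * (4 * Real.log 2 - 1) +
            B * Real.log (1 / ee j) + 2 * B * Real.log 2 ^ 2 := by ring
      rw [h7]
      linarith
  -- the invariant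
  have key : ∀ j, Gd (nn j) (ee j) ∧ y0 (nn j) (ee j) ^ g ≤ ee j ∧
      a * (((nn j : ℕ) : ℝ) - n0) ≤ Real.log (1 / y0 (nn j) (ee j)) := by
    intro j
    induction j with
    | zero =>
      have e0 : ee 0 = ε0 := by simp [hee]
      have m0 : nn 0 = n0 := rfl
      rw [e0, m0, sub_self, mul_zero]
      have hy := h.y00 n0 ε0 hn0N0 hε0 hE3
      have hyg := hn2 n0 hn02
      refine ⟨hn1 n0 hn01, hyg, Real.log_nonneg ?_⟩
      rw [one_le_div hy]
      by_contra hlt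
      rw [not_le] at hlt
      have := Real.one_lt_rpow hlt hg
      linarith
    | succ j ih =>
      obtain ⟨i1, i2, i3⟩ := ih
      have hNj : n0 ≤ nn j := (Nat.le_add_right _ _).trans (hge j)
      have hN0j : N0 ≤ nn j := hn0N0.trans hNj
      have hej := hep j
      have heje : ee j ≤ es := (hel j).trans hE3
      have hej1 : ee j ≤ 1 := (hel j).trans (by linarith)
      have hy := h.y00 (nn j) (ee j) hN0j hej heje
      have hy' := h.y00 (nn (j + 1)) (ee (j + 1))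
        (hN0j.trans (by rw [hnn1]; exact Nat.le_add_right _ _)) (hep _) ((hel _).trans hE3)
      -- P half
      have hG' : Gd (nn (j + 1)) (ee (j + 1)) := by
        rw [hnn1, hee1]
        exact h2 (nn j) (ee j) hN0j hej ((hel j).trans hE2) heje i1 i2
      -- the activity
      set L : ℝ := Real.log (1 / y0 (nn j) (ee j)) with hL
      set L' : ℝ := Real.log (1 / y0 (nn (j + 1)) (ee (j + 1))) with hL'
      set l : ℝ := Real.log (1 / ee j) with hl
      have hgL : l ≤ g * L := by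
        have h3 : Real.log (y0 (nn j) (ee j) ^ g) ≤ Real.log (ee j) :=
          Real.log_le_log (Real.rpow_pos_of_pos hy _) i2
        rw [Real.log_rpow hy] at h3
        rw [hl, hL, one_div, one_div, Real.log_inv, Real.log_inv]
        linarith
      have hlj := hlpos j
      have hw3 := h.w3 (ee j) hej heje
      have hmain : l + Real.log 2 ≤ g * L' ∧ a * (((nn (j + 1) : ℕ) : ℝ) - n0) ≤ L' := by
        by_cases hA : L ≤ ee j ^ (-c1)
        · have hnN := hcon (nn j) (ee j) (hn0N.trans hNj) hej ((hel j).trans hE4) heje i1 i2 hA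
          have h3' : L + a * w (ee j) ≤ L' := by
            have h3 := h.drop (nn j) (ee j) hN0j i1 i2 heje hA hnN
            rw [hL', hee1, hnn1]
            exact h3
          constructor
          · have h4 := h.w4 (ee j) hej heje
            have h5 : 1 ≤ g * (a * w (ee j)) := by
              have h6 := mul_le_mul_of_nonneg_left (hlge j) (show 0 ≤ g * a * b0 by positivity)
              rw [mul_one_div_cancel (by positivity)] at h6
              have h7 := mul_le_mul_of_nonneg_left h4 (show 0 ≤ g * a by positivity)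
              nlinarith
            have h6 := mul_le_mul_of_nonneg_left h3' hg.le
            nlinarith
          · rw [hnn1]
            push_cast
            have h5 : a * (((nn j : ℕ) : ℝ) + w (ee j) - n0) =
                a * (((nn j : ℕ) : ℝ) - n0) + a * w (ee j) := by ring
            rw [h5]
            linarith
        · rw [not_le] at hA
          have h3' : min (L - 2 * w (ee j)) (c' * ee j ^ (-th)) - C ≤ L' := by
            have h3 := h.reg (nn j) (ee j) hN0j i1 i2 heje hA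
            rw [hL', hee1, hnn1]
            exact h3
          obtain ⟨t1, t2, t3⟩ := ht (ee j) hej ((hel j).trans hE1) hej1
          have h4 : min (ee j ^ (-c1) - 2 * (B * l)) (c' * ee j ^ (-th)) ≤
              min (L - 2 * w (ee j)) (c' * ee j ^ (-th)) :=
            min_le_min (by linarith) le_rfl
          have h5 : ee j ^ (-c1) / 2 ≤ L' := by linarith
          constructor
          · have h6 := mul_le_mul_of_nonneg_left h5 hg.le
            linarith
          · refine le_trans ?_ h5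
            refine le_trans ?_ t3
            have h6 := hcnt (j + 1)
            rw [hlog] at h6
            have h7 : 2 * B * (Real.log (1 / ee j) + Real.log 2) ^ 2 ≤
                2 * B * (l + 1) ^ 2 := by
              apply mul_le_mul_of_nonneg_left _ (by positivity)
              exact pow_le_pow_left₀ (by positivity) (by linarith) 2
            exact mul_le_mul_of_nonneg_left (h6.trans h7) ha.le
      refine ⟨hG', ?_, hmain.2⟩
      have h3 : Real.log (y0 (nn (j + 1)) (ee (j + 1)) ^ g) ≤ Real.log (ee (j + 1)) := by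
        rw [Real.log_rpow hy']
        have h4 := hlog j
        have h5 : Real.log (1 / ee (j + 1)) = -Real.log (ee (j + 1)) := by
          rw [one_div, Real.log_inv]
        have h6 : L' = -Real.log (y0 (nn (j + 1)) (ee (j + 1))) := by
          rw [hL', one_div, Real.log_inv]
        have h7 := hmain.1
        rw [h6] at h7
        linarith
      exact (Real.log_le_log_iff (Real.rpow_pos_of_pos hy' _) (hep _)).1 h3
  -- contradiction
  obtain ⟨D, hD⟩ := h.yl (a / 4) (by positivity)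
  obtain ⟨j, hj⟩ := exists_nat_gt ((D + a * n0 + a / 4 * Real.log (1 / ε0)) / (a / 2))
  have h3 := (key j).2.2
  have h4 := hD (nn j) (ee j) (hn0N0.trans ((Nat.le_add_right _ _).trans (hge j))) (hep j)
    ((hel j).trans hE3)
  have h5 : (j : ℝ) ≤ ((nn j : ℕ) : ℝ) := by
    exact_mod_cast (show j ≤ nn j by have := hge j; omega)
  have h6 : D + a * n0 + a / 4 * Real.log (1 / ε0) < j * (a / 2) := by
    rwa [div_lt_iff₀ (by positivity)] at hj
  have h7 : (j : ℝ) * (a / 2) ≤ ((nn j : ℕ) : ℝ) * (a / 2) :=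
    mul_le_mul_of_nonneg_right h5 (by positivity)
  have h8 := mul_le_mul_of_nonneg_left ((hlup j).trans (add_le_add_right h5 _))
    (show 0 ≤ a / 4 by positivity)
  linarith

/-- **the start of the total state**: from the dichotomy and the start of V at normal states -/
theorem Dich.start5 {σ c2 cH : ℝ} {u : ℕ → ℝ}
    (h : Dich Gd Nm YB y0 w B b0 sg0 c g a th c1 c' C es N0)
    (hV : ∃ e, 0 < e ∧ ∃ N1, ∀ n ε, N1 ≤ n → 0 < ε → ε ≤ e → Gd n ε → y0 n ε ^ g ≤ ε →
      Real.log (1 / y0 n ε) ≤ ε ^ (-c1) → Nm n ε →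
      ∃ m ε' z, n ≤ m ∧ ε' ≤ ε ^ (1 / 2 : ℝ) ∧ MS Gd YB VS u c2 m ε' z ∧ z ^ (2 - σ) ≤ ε' ∧
        Real.log (1 / z) ≤ ε' ^ (-cH)) :
    Start5 (MS Gd YB VS u c2) σ cH := by
  intro e he N
  obtain ⟨e1, he1, N1, hV⟩ := hV
  obtain ⟨n, ε, a1, a2, a3, a4, a5, a6, a7, a8⟩ :=
    h.exists (e := min e1 (min (e ^ 2) 1)) (lt_min he1 (lt_min (by positivity) one_pos)) (max N N1)
  obtain ⟨m, ε', z, b1, b2, b3, b4, b5⟩ := hV n ε ((le_max_right _ _).trans a1) a2
    (a3.trans (min_le_left _ _)) a5 a6 a7 a8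
  refine ⟨m, ε', z, ((le_max_left _ _).trans a1).trans b1, b2.trans ?_, b3, b4, b5⟩
  have h1 : ε ≤ e ^ 2 := a3.trans ((min_le_right _ _).trans (min_le_left _ _))
  calc ε ^ (1 / 2 : ℝ) ≤ (e ^ 2) ^ (1 / 2 : ℝ) := Real.rpow_le_rpow a2.le h1 (by norm_num)
    _ = e := by
      rw [← Real.sqrt_eq_rpow, Real.sqrt_sq he.le]

end Vale.Agent.P159.H801
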