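import Vale.Agent.P159.H972.Xs2
import Vale.Agent.P159.H801.Halves6
import Vale.Agent.P159.H801.StartM
import Vale.Agent.P159.H264.Asm

/-!
P159 (helper801), MASTER: the instance of the scalar contract at helper972's states `Good P b`.
The inputs of the `P` half (`PIn`), the statement of the `V` half of the step (`VStep`), and the
theorem: the two halves, the start and the sharp relation give T3.
-/

open Filter Topology Finset

namespace Vale.Agent.P159.H801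

open Vale.Agent.P159.H972 (Par Good GP YBn StepP' StartP Drop' SI FL tn xs' w1 w2' w3 Par.Adm)
open Vale.Agent.P159.H264 (kap)

/-- the exponents of MASTER -/
structure Exps (σ sg c p p1 v1 : ℝ) : Prop where
  σ0 : 0 < σ
  σ1 : σ ≤ 1 / 4
  sg0 : 0 ≤ sg
  c0 : 0 ≤ c
  c4 : 4 * c ≤ σ
  sgc : sg + 2 * c ≤ σ
  p0 : 0 < p
  pp : 2 * p < (1 - σ) * p1
  pv : p < (1 - σ) * v1
  p11 : p1 ≤ 1
  v11 : v1 ≤ 1
  h1 : 1 < (2 - 3 * σ) * p1
  h2 : 1 < (2 - 3 * σ) * v1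

/-- the numbers of the final instance -/
lemma exps_std : Exps (1 / 20) (1 / 40) (1 / 80) (2 / 5) (17 / 20) (17 / 20) := by
  constructor <;> norm_num

lemma Exps.p10 {σ sg c p p1 v1 : ℝ} (h : Exps σ sg c p p1 v1) : 0 < p1 := by
  have h1 := h.h1
  have h2 := h.σ1
  have h3 := h.σ0
  by_contra hc
  have : (2 - 3 * σ) * p1 ≤ 0 := mul_nonpos_of_nonneg_of_nonpos (by linarith) (not_lt.1 hc)
  linarith

/-- `a` is a stiffness function of the states -/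
def FLC (P : Par) (b : ℝ) (a : ℕ → ℝ) : Prop :=
  ∀ n ε, 0 < ε → ε ≤ P.es → Good P b n ε → ∀ e, ε ≤ e → e ≤ P.es →
    ∀ r, P.TT n e r → FL b (tn n) (a n) (17 * e ^ P.pf) (2 ^ r)

/-- the inputs of the `P` half -/
structure PIn (P : Par) (b sg p2 : ℝ) (N0 : ℕ) : Prop where
  crit : helicity b = 2 / Real.pi
  adm : P.Adm
  start : StartP P b
  step : StepP' P b sg N0
  drop : Drop' P b p2 N0

/-- the deviation of the stiffness -/
noncomputable def xa (a : ℕ → ℝ) (n : ℕ) : ℝ := (a n)⁻¹ - 2 / Real.pi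

/-- **the stiffness**: the function, its limit, the step -/
theorem PIn.stiff {P : Par} {b sg p1 p2 : ℝ} {N0 : ℕ} (h : PIn P b sg p2 N0) (hsg : 0 ≤ sg)
    (hsg1 : sg < 1) (hp1 : 0 < p1) (hpf : p1 < (1 - sg) * P.pf) (hp2 : p1 < p2) :
    ∃ a : ℕ → ℝ, FLC P b a ∧ Tendsto a atTop (𝓝 (Real.pi / 2)) ∧ Tendsto (xa a) atTop (𝓝 0) ∧
      ∃ N1, N0 ≤ N1 ∧ (∀ n, N1 ≤ n → 1 ≤ a n) ∧ ∀ n m ε Y, N1 ≤ n → Good P b n ε →
        YBn P b n ε Y → Good P b m (max (ε / 2) (ε ^ (-sg) * Y ^ 2)) → Y ^ 2 ≤ ε → ε ≤ P.es →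
        n + P.w ε ≤ m → m ≤ n + 4 * P.w ε → |xa a m - xa a n| ≤ ε ^ p1 := by
  obtain ⟨a, h1, h2, h3, N1, hN1, ha1, h4⟩ :=
    xs' P b h.crit h.adm h.start hp1 hpf hsg hp2 h.drop
  have hes0 := P.es0
  -- the case of a large new size
  set e1 : ℝ := P.es ^ (1 / (1 - sg)) with he1
  have he10 : 0 < e1 := Real.rpow_pos_of_pos hes0 _
  have hx0 : Tendsto (xa a) atTop (𝓝 0) := h3
  have hev := (hx0.abs).eventually (ge_mem_nhds (show |(0 : ℝ)| < e1 ^ p1 / 2 by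
    rw [abs_zero]; have := Real.rpow_pos_of_pos he10 p1; positivity))
  obtain ⟨N2, hN2⟩ := eventually_atTop.1 hev
  refine ⟨a, h2, h1, h3, max N1 N2, hN1.trans (le_max_left _ _),
    fun n hn => ha1 n ((le_max_left _ _).trans hn), ?_⟩
  intro n m ε Y hn hG hY hG' hYε hεs hm1 hm2
  have hn1 : N1 ≤ n := (le_max_left _ _).trans hn
  have hn2 : N2 ≤ n := (le_max_right _ _).trans hn
  have hε : 0 < ε := (pow_pos hY.1 2).trans_le hYε
  have hε1 : ε ≤ 1 := hεs.trans (P.es1.trans (by norm_num))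
  have hle : max (ε / 2) (ε ^ (-sg) * Y ^ 2) ≤ ε ^ (1 - sg) := by
    refine max_le ?_ ?_
    · have h5 : ε ^ (1 : ℝ) ≤ ε ^ (1 - sg) :=
        Real.rpow_le_rpow_of_exponent_ge hε hε1 (by linarith)
      rw [Real.rpow_one] at h5
      linarith
    · have h5 : ε ^ (1 - sg) = ε ^ (-sg) * ε := by
        rw [sub_eq_add_neg, add_comm, Real.rpow_add hε, Real.rpow_one]
      rw [h5]
      exact mul_le_mul_of_nonneg_left hYε (Real.rpow_nonneg hε.le _)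
  rcases le_or_gt (max (ε / 2) (ε ^ (-sg) * Y ^ 2)) P.es with h5 | h5
  · exact h4 n m ε _ Y hn1 ⟨hN1.trans hn1, hG, hY, hYε, hεs, hm1, hm2⟩ hG' (le_max_left _ _) hle h5
  · have h6 : P.es ≤ ε ^ (1 - sg) := h5.le.trans hle
    have h7 : e1 ≤ ε := by
      have h8 := Real.rpow_le_rpow hes0.le h6 (show 0 ≤ 1 / (1 - sg) by
        apply div_nonneg zero_le_one; linarith)
      rwa [← Real.rpow_mul hε.le, mul_one_div_cancel (by linarith), Real.rpow_one] at h8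
    have h8 : e1 ^ p1 ≤ ε ^ p1 := Real.rpow_le_rpow he10.le h7 hp1.le
    have h9 := hN2 n hn2
    have h10 := hN2 m (hn2.trans (by omega))
    have h11 := abs_sub (xa a m) (xa a n)
    linarith

/-- **the V half of the step**: the statement -/
def VStep (P : Par) (b : ℝ) (VS : ℕ → ℝ → ℝ → Prop) (u a : ℕ → ℝ) (c σ v1 c1 : ℝ) (N0 : ℕ) :
    Prop :=
  ∀ n m ε ε' z, N0 ≤ n → MS (Good P b) (YBn P b) VS u c n ε z → z ^ (2 - σ) ≤ ε → ε ≤ P.es →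
    Real.log (1 / z) ≤ ε ^ (-c1) → n + P.w ε ≤ m → m ≤ n + 4 * P.w ε → Good P b m ε' →
    max (ε / 2) (z ^ (2 - 2 * σ)) ≤ ε' → ε' ≤ ε ^ (1 - σ) → ε' ≤ P.es →
    ∃ z', VS m ε' z' ∧ 0 < z' ∧ YBn P b m ε' (ε' ^ (-c) * z') ∧ z' ≤ ε' ^ (-c) * u m ∧
      |Real.log z' - Real.log z + kap * xa a n * ((m : ℝ) - n)| ≤ ε ^ v1

/-- the constant of the window -/
noncomputable def Bw (P : Par) : ℝ := (P.thp + 1) / Real.log 2

lemma Bw_pos (P : Par) : 0 < Bw P := by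
  have h1 := P.thp0
  have h2 := Real.log_pos one_lt_two
  unfold Bw
  positivity

lemma kap_pos : 0 < kap := by
  have h2 := Real.log_pos one_lt_two
  have h3 := Real.pi_pos
  unfold kap
  positivity

section inst

variable {P : Par} {b : ℝ} {VS : ℕ → ℝ → ℝ → Prop} {u a : ℕ → ℝ} {σ sg c p p1 p2 v1 c1 : ℝ}
  {N0 N1 : ℕ}

/-- the contract at the states `Good` -/
theorem halves6_of (hE : Exps σ sg c p p1 v1) (hP : PIn P b sg p2 N0) (hN : N0 ≤ N1)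
    (hu : Tendsto u atTop (𝓝 0)) (hx : Tendsto (xa a) atTop (𝓝 0)) (hc1 : 0 < c1)
    (hX : ∀ n m ε Y, N1 ≤ n → Good P b n ε →
        YBn P b n ε Y → Good P b m (max (ε / 2) (ε ^ (-sg) * Y ^ 2)) → Y ^ 2 ≤ ε → ε ≤ P.es →
        n + P.w ε ≤ m → m ≤ n + 4 * P.w ε → |xa a m - xa a n| ≤ ε ^ p1)
    (hV : VStep P b VS u a c σ v1 c1 N1) :
    Halves6 (Good P b) (YBn P b) VS u (xa a) P.w kap (Bw P) σ sg c p p1 v1 P.es c1 N1 where
  κ0 := kap_pos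
  B0 := Bw_pos P
  σ0 := hE.σ0
  σ1 := hE.σ1
  sg00 := hE.sg0
  c0 := hE.c0
  c4 := hE.c4
  sgc := hE.sgc
  p0 := hE.p0
  pp := hE.pp
  pv := hE.pv
  p11 := hE.p11
  v11 := hE.v11
  es0 := P.es0
  es1 := P.es1
  c10 := hc1
  w1 := fun _ h1 h2 => w1 h1 h2
  w2 := fun _ _ h1 h2 h3 => w2' hP.adm.thp1 hP.adm.es4 h1 h2 h3
  w3 := fun _ h1 h2 => w3 h1 h2
  mono := fun _ _ _ h1 h2 => h1.mono h2
  ut := hu
  xt := hx
  stepP := fun n m ε Y hn h1 h2 h3 h4 h5 h6 => hP.step n m ε Y (hN.trans hn) h1 h2 h3 h4 h5 h6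
  stepX := hX
  stepV := hV

end inst

/-- **MASTER, T**: the inputs of the `P` half; then there is a stiffness function such that for
every V half (state `VS`, step, start, sharp letters) for this stiffness function, T3 holds -/
theorem master_T {P : Par} {b σ sg c p p1 p2 v1 : ℝ} {N0 : ℕ} (hE : Exps σ sg c p p1 v1)
    (hpf : p1 < (1 - sg) * P.pf) (hp2 : p1 < p2) (hP : PIn P b sg p2 N0) :
    ∃ a : ℕ → ℝ, FLC P b a ∧ Tendsto a atTop (𝓝 (Real.pi / 2)) ∧ Tendsto (xa a) atTop (𝓝 0) ∧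
      ∃ N1, N0 ≤ N1 ∧ (∀ n, N1 ≤ n → 1 ≤ a n) ∧
      ∀ (VS : ℕ → ℝ → ℝ → Prop) (u : ℕ → ℝ) (c1 A q2 : ℝ) (N2 : ℕ)
        (Sl : ℕ → ℝ → ℝ → ℝ → Prop), N1 ≤ N2 → 0 < c1 → Tendsto u atTop (𝓝 0) →
        VStep P b VS u a c σ v1 c1 N2 →
        Start5 (MS (Good P b) (YBn P b) VS u c) σ c1 → 0 < A →
        SLP (MS (Good P b) (YBn P b) VS u c) (xa a) P.w σ P.es c1 A q2 N2 Sl →
        ∃ (y ε xs : ℕ → ℝ) (c' r q : ℝ) (N : ℕ), N2 ≤ N ∧ Fl (xa a) y kap c' r q N ∧ 1 < r ∧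
          T3 xs y kap c' r q (2 * Bw P) A (fun n => P.w (ε n)) N ∧
          (∀ n, N ≤ n → |xs n - xa a n| ≤ y n ^ q2) ∧
          (∀ n, N ≤ n → Sl n (ε n) (y n) (xs n)) ∧
          ∀ n, N ≤ n →
            Hst (MS (Good P b) (YBn P b) VS u c) σ P.es c1 N2 n (ε n) (y n) ∧ y n ≤ 1 := by
  have hsg1 : sg < 1 := by
    have h1 := hE.sgc
    have h2 := hE.σ1
    have h3 := hE.c0
    linarith
  obtain ⟨a, ha1, ha2, ha3, N1, hN1, ha4, hX⟩ := hP.stiff hE.sg0 hsg1 hE.p10 hpf hp2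
  refine ⟨a, ha1, ha2, ha3, N1, hN1, ha4, ?_⟩
  intro VS u c1 A q2 N2 Sl hN2 hc1 hu hV hst hA hSl
  exact (halves6_of hE hP (hN1.trans hN2) hu ha3 hc1
    (fun n m ε Y hn => hX n m ε Y (hN2.trans hn)) hV).T3 hst hE.h1 hE.h2 hA hSl

end Vale.Agent.P159.H801
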