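import Vale.Agent.P159.H801.Low7
import Vale.Agent.P159.H801.Master1

/-!
P159 (helper801), seventh form of the sharp relation, third part: T3 for the sharp letters from the
contracts `Ind5`, `Ind6`, from the two halves, and MASTER.
-/

open Filter Topology Finset

namespace Vale.Agent.P159.H801

open Vale.Agent.P159.H972 (Par Good YBn Par.Adm)
open Vale.Agent.P159.H264 (kap)

variable {S : ℕ → ℝ → ℝ → Prop} {x : ℕ → ℝ} {w : ℝ → ℕ} {κ B σ p p1 v1 es c1 : ℝ} {N0 : ℕ}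

/-- **T3 for the sharp letters**, seventh form -/
theorem T3_of_sl7 {A q2 qx : ℝ} {Sl : ℕ → ℝ → ℝ → ℝ → Prop}
    (h : Ind5 S x w κ B σ p p1 v1 es c1 N0) (st : Start5 S σ c1)
    (hx : Tendsto x atTop (𝓝 0))
    (h1 : 1 < (2 - 3 * σ) * p1) (h2 : 1 < (2 - 3 * σ) * v1) (hA : 0 < A)
    (hqx : qx ≤ (2 - 4 * σ) * p) (hqx1 : qx ≤ 1)
    (hP : SLP7 S x w σ es c1 A q2 qx N0 Sl) :
    ∃ (y ε xs : ℕ → ℝ) (c r q : ℝ) (N : ℕ), N0 ≤ N ∧ Fl x y κ c r q N ∧ 1 < r ∧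
      T3 xs y κ c r q (2 * B) A (fun n => w (ε n)) N ∧
      (∀ n, N ≤ n → |xs n - x n| ≤ y n ^ q2) ∧ (∀ n, N ≤ n → |x n| ≤ y n ^ qx) ∧
      (∀ n, N ≤ n → Sl n (ε n) (y n) (xs n)) ∧
      ∀ n, N ≤ n → Hst S σ es c1 N0 n (ε n) (y n) ∧ y n ≤ 1 := by
  have hσ0 := h.σ0
  have hσ1 := h.σ1
  have hp0 := h.p0
  have hq2 := hP.q21
  obtain ⟨c, hc, hc1, hc2⟩ := exists_room h1 h2
  have hq0 : 0 < min 1 ((2 - 4 * σ) * p) := lt_min one_pos (mul_pos (by linarith) hp0)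
  obtain ⟨y, ε, N, hN, hfl, hwn, hG⟩ := fl_of_ind5 h st hx (c := c) (r := 1 + c)
    (q := min 1 ((2 - 4 * σ) * p)) hc (by linarith) hq0 (min_le_left _ _) (min_le_right _ _)
    hc1 hc2 hc1
  have hH : ∀ n, N ≤ n → Hst S σ es c1 N0 n (ε n) (y n) ∧ y n ≤ 1 := fun n hn => by
    obtain ⟨a1, a2, a3, a4, a5, a6⟩ := hG n hn
    exact ⟨⟨hN.trans hn, a1, a2, a3, a4, a5⟩, a6⟩
  have hxq : ∀ n, N ≤ n → |x n| ≤ y n ^ qx := fun n hn =>
    (hfl.xq n hn).trans (Real.rpow_le_rpow_of_exponent_ge (hfl.y0 n) (hH n hn).2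
      (le_min hqx1 hqx))
  obtain ⟨e1, he1, hex⟩ := hP.ex
  obtain ⟨e2, he2, hnr⟩ := hP.near
  obtain ⟨N1, hN1⟩ := eventually_atTop.1 ((hfl.yt.eventually (gt_mem_nhds he1)).and
    (hfl.yt.eventually (gt_mem_nhds he2)))
  -- the letters
  have key : ∀ n, ∃ s : ℝ, max N N1 ≤ n → Sl n (ε n) (y n) s := by
    intro n
    by_cases hn : max N N1 ≤ n
    · obtain ⟨s, hs⟩ := hex n _ _ (hH n ((le_max_left _ _).trans hn)).1
        (hN1 n ((le_max_right _ _).trans hn)).1.le (hxq n ((le_max_left _ _).trans hn))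
      exact ⟨s, fun _ => hs⟩
    · exact ⟨0, fun h => absurd h hn⟩
  choose xs hxs using key
  have hnear : ∀ n, max N N1 ≤ n → |xs n - x n| ≤ y n ^ q2 := fun n hn =>
    hnr n _ _ _ (hH n ((le_max_left _ _).trans hn)).1
      (hN1 n ((le_max_right _ _).trans hn)).2.le (hxq n ((le_max_left _ _).trans hn)) (hxs n hn)
  have hfl' : Fl x y κ c (1 + c) (min 1 ((2 - 4 * σ) * p)) (max N N1) :=
    ⟨hfl.κ0, hfl.c0, hfl.r0, hfl.q0, hfl.q1, hfl.y0,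
      fun n hn => hfl.xq n ((le_max_left _ _).trans hn),
      fun n hn => hfl.V n ((le_max_left _ _).trans hn),
      fun n hn => hfl.X n ((le_max_left _ _).trans hn), hfl.yt⟩
  -- smaller exponents
  set c' : ℝ := min c (q2 - 1) / 2 with hc'
  have hm0 : 0 < min c (q2 - 1) := lt_min hc (by linarith)
  have hm1 := min_le_left c (q2 - 1)
  have hm2 := min_le_right c (q2 - 1)
  set q' : ℝ := min 1 ((2 - 4 * σ) * p) / 2 with hq'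
  have hq1' : min 1 ((2 - 4 * σ) * p) ≤ 1 := min_le_left _ _
  have hc'0 : 0 < c' := by rw [hc']; positivity
  have hc'c : c' < c := by rw [hc']; linarith
  have hc'q : 1 + c' < q2 := by rw [hc']; linarith
  have hq'0 : 0 < q' := by rw [hq']; positivity
  have hq'q : q' < min 1 ((2 - 4 * σ) * p) := by rw [hq']; linarith
  have hq'2 : q' < q2 := by rw [hq']; linarith
  obtain ⟨N2, hN2, hflx⟩ := hfl'.change (x' := xs) (q2 := q2) (c' := c') (r' := 1 + c')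
    (q' := q') hnear hc'0 hc'c hc'q (by linarith) (by linarith) hc'q hq'0 hq'q hq'2
  have hflo : Fl x y κ c' (1 + c') q' N2 := by
    have hN2' : N ≤ N2 := (le_max_left _ _).trans hN2
    have hy1 : ∀ n, N2 ≤ n → y n ≤ 1 := fun n hn => (hH n (hN2'.trans hn)).2
    refine ⟨hfl.κ0, hc'0, by linarith, hq'0, by linarith, hfl.y0, ?_, ?_, ?_, hfl.yt⟩
    · intro n hn
      exact (hfl.xq n (hN2'.trans hn)).trans
        (Real.rpow_le_rpow_of_exponent_ge (hfl.y0 n) (hy1 n hn) hq'q.le)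
    · intro n hn
      exact (hfl.V n (hN2'.trans hn)).trans
        (Real.rpow_le_rpow_of_exponent_ge (hfl.y0 n) (hy1 n hn) (by linarith))
    · intro n hn
      exact (hfl.X n (hN2'.trans hn)).trans
        (Real.rpow_le_rpow_of_exponent_ge (hfl.y0 n) (hy1 n hn) (by linarith))
  have hNN2 : N ≤ N2 := (le_max_left _ _).trans hN2
  refine ⟨y, ε, xs, c', 1 + c', q', N2, hN.trans hNN2, hflo, by linarith,
    ⟨hflx, hwn.mono hNN2, by linarith, hA, fun η hη => ?_⟩,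
    fun n hn => hnear n (hN2.trans hn), fun n hn => hxq n (hNN2.trans hn),
    fun n hn => hxs n (hN2.trans hn), fun n hn => hH n (hNN2.trans hn)⟩
  -- the sharp relation
  obtain ⟨e3, he3, δ, hδ, hPe⟩ := hP.P η hη
  have hev := hfl.yt.eventually (gt_mem_nhds he3)
  obtain ⟨N4, hN4⟩ := eventually_atTop.1 (hev.and (hfl.var hwn hδ))
  filter_upwards [eventually_ge_atTop (max N2 N4)] with n hn
  have hn2 : N2 ≤ n := (le_max_left _ _).trans hn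
  have hn4 : N4 ≤ n := (le_max_right _ _).trans hn
  have hNn : N ≤ n := hNN2.trans hn2
  have hm1 : n ≤ n + w (ε n) := Nat.le_add_right _ _
  exact hPe n (n + w (ε n)) _ _ _ _ _ _ (hH n hNn).1 (hH _ (hNn.trans hm1)).1 rfl
    (hN4 n hn4).1.le (hN4 _ (hn4.trans hm1)).1.le (hxq n hNn) (hxq _ (hNn.trans hm1))
    ((hN4 n hn4).2 _ hm1 (by omega))
    (hxs n (hN2.trans hn2)) (hxs _ ((hN2.trans hn2).trans hm1))

/-- monotonicity in the level -/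
lemma SLP7.mono {A q2 qx : ℝ} {Sl : ℕ → ℝ → ℝ → ℝ → Prop} {N1 : ℕ}
    (hP : SLP7 S x w σ es c1 A q2 qx N0 Sl) (hN : N0 ≤ N1) :
    SLP7 S x w σ es c1 A q2 qx N1 Sl := by
  refine ⟨hP.q21, ?_, ?_, ?_⟩
  · obtain ⟨e, he, H⟩ := hP.ex
    exact ⟨e, he, fun n ε y hH => H n ε y (hst_mono hN hH)⟩
  · obtain ⟨e, he, H⟩ := hP.near
    exact ⟨e, he, fun n ε y s hH => H n ε y s (hst_mono hN hH)⟩
  · intro η hη
    obtain ⟨e, he, δ, hδ, H⟩ := hP.P η hη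
    exact ⟨e, he, δ, hδ, fun n m ε ε' y y' s s' hH hH' => H n m ε ε' y y' s s'
      (hst_mono hN hH) (hst_mono hN hH')⟩

/-- **T3 for the sharp letters, no lower bound of `x` assumed**, seventh form -/
theorem T3_of_ind67 {A q2 qx : ℝ} {Sl : ℕ → ℝ → ℝ → ℝ → Prop}
    (h : Ind6 S x w κ B σ p p1 v1 es c1 N0) (st : Start5 S σ c1)
    (hx : Tendsto x atTop (𝓝 0))
    (h1 : 1 < (2 - 3 * σ) * p1) (h2 : 1 < (2 - 3 * σ) * v1) (hA : 0 < A)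
    (hqx0 : 0 < qx) (hqx : qx ≤ (2 - 4 * σ) * p)
    (hP : SLP7 S x w σ es c1 A q2 qx N0 Sl) :
    ∃ (y ε xs : ℕ → ℝ) (c r q : ℝ) (N : ℕ), N0 ≤ N ∧ Fl x y κ c r q N ∧ 1 < r ∧
      T3 xs y κ c r q (2 * B) A (fun n => w (ε n)) N ∧
      (∀ n, N ≤ n → |xs n - x n| ≤ y n ^ q2) ∧ (∀ n, N ≤ n → |x n| ≤ y n ^ qx) ∧
      (∀ n, N ≤ n → Sl n (ε n) (y n) (xs n)) ∧
      ∀ n, N ≤ n → Hst S σ es c1 N0 n (ε n) (y n) ∧ ε n ≤ y n ^ (2 - 3 * σ) ∧ y n ≤ 1 := by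
  have hqx1 : qx ≤ 1 := by
    have a1 := h.pp
    have a2 := h.p11
    have a3 := h.σ0
    have a4 := h.σ1
    have a5 := h.p0
    have a6 := p1_pos6 h
    have a7 : (1 - σ) * p1 ≤ 1 := by nlinarith
    nlinarith
  obtain ⟨N1, hN1, h5⟩ := h.toInd57 hx h1 h2 hA hqx0 hqx hP
  have hP5 : SLP7 (SL S σ) x w σ es c1 A q2 qx N1 Sl := by
    refine ⟨hP.q21, ?_, ?_, ?_⟩
    · obtain ⟨e, he, H⟩ := hP.ex
      exact ⟨e, he, fun n ε y hH hy => H n ε y (hH.ofSL hN1) hy⟩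
    · obtain ⟨e, he, H⟩ := hP.near
      exact ⟨e, he, fun n ε y s hH hy hs => H n ε y s (hH.ofSL hN1) hy hs⟩
    · intro η hη
      obtain ⟨e, he, δ, hδ, H⟩ := hP.P η hη
      exact ⟨e, he, δ, hδ, fun n m ε ε' y y' s s' hH hH' => H n m ε ε' y y' s s'
        (hH.ofSL hN1) (hH'.ofSL hN1)⟩
  obtain ⟨y, ε, xs, c, r, q, N, hN, hfl, hr, hT, hnear, hxq, hSl, hHs⟩ :=
    T3_of_sl7 h5 (h.start st hx) hx h1 h2 hA hqx hqx1 hP5
  exact ⟨y, ε, xs, c, r, q, N, hN1.trans hN, hfl, hr, hT, hnear, hxq, hSl,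
    fun n hn => ⟨(hHs n hn).1.ofSL hN1, (hHs n hn).1.hS.2, (hHs n hn).2⟩⟩

section halves

variable {Gd : ℕ → ℝ → Prop} {YB VS : ℕ → ℝ → ℝ → Prop} {u : ℕ → ℝ} {sg0 c : ℝ}

/-- **MASTER, T-part**: the halves, the start and the sharp relation give T3, seventh form -/
theorem Halves6.T37 {A q2 qx : ℝ} {Sl : ℕ → ℝ → ℝ → ℝ → Prop}
    (h : Halves6 Gd YB VS u x w κ B σ sg0 c p p1 v1 es c1 N0)
    (st : Start5 (MS Gd YB VS u c) σ c1)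
    (h1 : 1 < (2 - 3 * σ) * p1) (h2 : 1 < (2 - 3 * σ) * v1) (hA : 0 < A)
    (hqx0 : 0 < qx) (hqx : qx ≤ (2 - 4 * σ) * p)
    (hP : SLP7 (MS Gd YB VS u c) x w σ es c1 A q2 qx N0 Sl) :
    ∃ (y ε xs : ℕ → ℝ) (c' r q : ℝ) (N : ℕ), N0 ≤ N ∧ Fl x y κ c' r q N ∧ 1 < r ∧
      H801.T3 xs y κ c' r q (2 * B) A (fun n => w (ε n)) N ∧
      (∀ n, N ≤ n → |xs n - x n| ≤ y n ^ q2) ∧ (∀ n, N ≤ n → |x n| ≤ y n ^ qx) ∧
      (∀ n, N ≤ n → Sl n (ε n) (y n) (xs n)) ∧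
      ∀ n, N ≤ n → Hst (MS Gd YB VS u c) σ es c1 N0 n (ε n) (y n) ∧
        ε n ≤ y n ^ (2 - 3 * σ) ∧ y n ≤ 1 := by
  obtain ⟨N1, hN1, hI⟩ := h.toInd6
  obtain ⟨y, ε, xs, c', r, q, N, a1, a2, a3, a4, a5, a6, a7, a8⟩ :=
    T3_of_ind67 hI st h.xt h1 h2 hA hqx0 hqx (hP.mono hN1)
  exact ⟨y, ε, xs, c', r, q, N, hN1.trans a1, a2, a3, a4, a5, a6, a7, fun n hn =>
    ⟨hst_mono hN1 (a8 n hn).1, (a8 n hn).2⟩⟩

end halves

/-- **MASTER, T**, seventh form: the inputs of the `P` half; then there is a stiffness function such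
that for every V half (state `VS`, step, start, sharp letters) for this stiffness function, T3
holds -/
theorem master_T7 {P : Par} {b σ sg c p p1 p2 v1 qx : ℝ} {N0 : ℕ} (hE : Exps σ sg c p p1 v1)
    (hpf : p1 < (1 - sg) * P.pf) (hp2 : p1 < p2) (hqx0 : 0 < qx) (hqx : qx ≤ (2 - 4 * σ) * p)
    (hP : PIn P b sg p2 N0) :
    ∃ a : ℕ → ℝ, FLC P b a ∧ Tendsto a atTop (𝓝 (Real.pi / 2)) ∧ Tendsto (xa a) atTop (𝓝 0) ∧
      ∃ N1, N0 ≤ N1 ∧ (∀ n, N1 ≤ n → 1 ≤ a n) ∧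
      ∀ (VS : ℕ → ℝ → ℝ → Prop) (u : ℕ → ℝ) (c1 A q2 : ℝ) (N2 : ℕ)
        (Sl : ℕ → ℝ → ℝ → ℝ → Prop), N1 ≤ N2 → 0 < c1 → Tendsto u atTop (𝓝 0) →
        VStep P b VS u a c σ v1 c1 N2 →
        Start5 (MS (Good P b) (YBn P b) VS u c) σ c1 → 0 < A →
        SLP7 (MS (Good P b) (YBn P b) VS u c) (xa a) P.w σ P.es c1 A q2 qx N2 Sl →
        ∃ (y ε xs : ℕ → ℝ) (c' r q : ℝ) (N : ℕ), N2 ≤ N ∧ Fl (xa a) y kap c' r q N ∧ 1 < r ∧
          T3 xs y kap c' r q (2 * Bw P) A (fun n => P.w (ε n)) N ∧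
          (∀ n, N ≤ n → |xs n - xa a n| ≤ y n ^ q2) ∧ (∀ n, N ≤ n → |xa a n| ≤ y n ^ qx) ∧
          (∀ n, N ≤ n → Sl n (ε n) (y n) (xs n)) ∧
          ∀ n, N ≤ n →
            Hst (MS (Good P b) (YBn P b) VS u c) σ P.es c1 N2 n (ε n) (y n) ∧
              ε n ≤ y n ^ (2 - 3 * σ) ∧ y n ≤ 1 := by
  have hsg1 : sg < 1 := by
    have h1 := hE.sgc
    have h2 := hE.σ1
    have h3 := hE.c0
    linarith
  obtain ⟨a, ha1, ha2, ha3, N1, hN1, ha4, hX⟩ := hP.stiff hE.sg0 hsg1 hE.p10 hpf hp2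
  refine ⟨a, ha1, ha2, ha3, N1, hN1, ha4, ?_⟩
  intro VS u c1 A q2 N2 Sl hN2 hc1 hu hV hst hA hSl
  exact (halves6_of hE hP (hN1.trans hN2) hu ha3 hc1
    (fun n m ε Y hn => hX n m ε Y (hN2.trans hn)) hV).T37 hst hE.h1 hE.h2 hA hqx0 hqx hSl

end Vale.Agent.P159.H801
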