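import Vale.Agent.P159.H801.FinZ
import Vale.Agent.P159.H145.Lw3

/-!
P159 (helper801): **the final glue**, the two point function. At the critical point, the two
families (V half with the sharp relation; one statement per level of the static part) give the
asymptotics of the two point function.
-/

open Filter Topology Finset

namespace Vale.Agent.P159.H801

open Vale.Agent.P159.TM.Spec (V)
open Vale.Agent.P159.H972 (Par)
open Vale.Agent.P159.H770 (Ed)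
open Vale.Agent.P159.H773 (sd Pth)
open Vale.Agent.P159.H37.Sf (Kn kf)
open Vale.Agent.P159.H145.Lw (KnW LvOutQ Mid)
open Vale.Agent.P159.H253.Rec (ga)

/-- **what the static part delivers for one flow** (`ck`, `c3`, `c4` may depend on `P`) -/
def SOut (P : Par) (b β : ℝ) (Am : ℕ) (a y ε : ℕ → ℝ) : Prop :=
  ∃ ck c3 c4 : ℝ, 0 < ck ∧ ck ≤ P.thp ∧ 0 < c3 ∧ 0 < c4 ∧
    ∀ A0 C2 : ℝ, 8 ≤ A0 → 1 ≤ C2 → ∃ i1 : ℕ, ∀ i, i1 ≤ i →
      ∃ (η : ∀ R, Ed (sd i R) → ℤ) (φ : ∀ R, V (sd i R) → ℝ), Pth i η ∧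
      ∃ N1 : ℕ, ∀ n0, N1 ≤ n0 →
        ∀ j n n', Kn b β i a (kf ck y) (fun n => P.w (ε n)) n0 j →
        n = itw (fun n => P.w (ε n)) n0 j → n' = n + P.w (ε n) →
        LvOutQ b i η φ c3 c4 (y n) (a n) n n' (2 ^ (n + kf ck y n)) (2 ^ (n' + kf ck y n'))
          (KnW b β C2 A0 Am i a (kf ck y) (fun n => P.w (ε n)) n0 j)

/-- the statement of the first question -/
def Q1 : Prop :=
  ∃ A : ℝ, 0 < A ∧ Tendsto (fun r : ℕ => Vale.Agent.P159.corrInf bCrit ((r : ℤ), 0) /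
    ((r : ℝ) ^ (-(1 / 4) : ℝ) * Real.log r ^ (1 / 8 : ℝ))) atTop (𝓝 A)

/-- **final glue** at the critical point, numbers of the final instance -/
theorem final0 {b1 b2 qx c α β c0 : ℝ} {Q : ℕ} (hb1 : 0 < b1) (h1 : b1 ≤ bCrit)
    (h2 : bCrit ≤ b2) (hqx0 : 0 < qx) (hqx : qx ≤ 18 / 25) (hc : 0 < c) (hc1 : c ≤ 1 / 80)
    (hV : VFam b1 b2 qx Q) (hM : Mid bCrit)
    (hα0 : 0 ≤ α) (hαβ : α < β) (hβ : 1 / 4 < β) (hβ1 : β ≤ 1) (hc0 : 0 < c0)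
    (hlow : ∀ᶠ r : ℕ in atTop, c0 * (r : ℝ) ^ (-α) ≤ ga bCrit r) (Am : ℕ)
    (hS : Ev b1 b2 (9 / 10) Q fun P c1 =>
      ∀ (q2 : ℝ) (a y ε xs : ℕ → ℝ) (c' r q A : ℝ) (N : ℕ),
      SFlow P bCrit (1 / 20) c c1 q2 qx a y ε xs c' r q A N → SOut P bCrit β Am a y ε) :
    Q1 := by
  refine final_z hb1 h1 h2 hqx0 hqx hc hc1 hV ?_
  refine hS.mono fun P c1 _ h q2 a y ε xs c' r q A N hF => ?_
  obtain ⟨ck, c3, c4, hck, hck1, h3, h4, hL⟩ := h q2 a y ε xs c' r q A N hF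
  exact H145.Lw.s_final_Q (hb1.trans_le h1) (by norm_num) hM hF hck hck1 h3 h4 hα0 hαβ hβ hβ1 hc0
    hlow Am hL

end Vale.Agent.P159.H801
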