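import Vale.Agent.P159.H972.ParL

/-!
P159 (helper801), MASTER: the order of constants as a filter.  `Ev b1 b2 pf Q F` says: for all
large `W`, then all small `ys`, all large `X0`, all small `x1`, all small `thp`, all small `th`, all
large `C0`, all small `c1`, all small `E`, the property `F P c1` holds for every admissible
parameter `P` with these numbers and `P.es ≤ E`.  Such properties can be combined (`Ev.and`), and
they are satisfied by some parameter (`Ev.exists`).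
-/

open Filter Topology

namespace Vale.Agent.P159.H801

open Vale.Agent.P159.H972 (Par Par.Adm lg)

/-- `P` has the prescribed numbers -/
structure PS (b1 b2 pf : ℝ) (Q : ℕ) (W ys : ℝ) (X0 : ℕ) (x1 thp th C0 E : ℝ) (P : Par) : Prop where
  adm : P.Adm
  eth : P.th = th
  ethp : P.thp = thp
  ex1 : P.x1 = x1
  eC0 : P.C0 = C0
  epf : P.pf = pf
  eb1 : P.b1 = b1
  eb2 : P.b2 = b2
  eW : P.W = W
  eys : P.ys = ys
  eX0 : P.X0 = X0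
  eq0 : P.q0 = Q + ⌈x1 / thp⌉₊ + 2
  ees : P.es ≤ E

/-- the order of constants -/
def Ev (b1 b2 pf : ℝ) (Q : ℕ) (F : Par → ℝ → Prop) : Prop :=
  ∀ᶠ W in (atTop : Filter ℝ), ∀ᶠ ys in 𝓝[>] (0 : ℝ), ∀ᶠ X0 in (atTop : Filter ℕ),
    ∀ᶠ x1 in 𝓝[>] (0 : ℝ), ∀ᶠ thp in 𝓝[>] (0 : ℝ), ∀ᶠ th in 𝓝[>] (0 : ℝ),
      ∀ᶠ C0 in (atTop : Filter ℝ), ∀ᶠ c1 in 𝓝[>] (0 : ℝ), ∀ᶠ E in 𝓝[>] (0 : ℝ),
        ∀ P : Par, PS b1 b2 pf Q W ys X0 x1 thp th C0 E P → F P c1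

variable {b1 b2 pf : ℝ} {Q : ℕ} {F G : Par → ℝ → Prop}

/-- two families of properties -/
theorem Ev.and (hF : Ev b1 b2 pf Q F) (hG : Ev b1 b2 pf Q G) :
    Ev b1 b2 pf Q fun P c1 => F P c1 ∧ G P c1 := by
  unfold Ev at *
  filter_upwards [hF, hG] with W h1 k1
  filter_upwards [h1, k1] with ys h2 k2
  filter_upwards [h2, k2] with X0 h3 k3
  filter_upwards [h3, k3] with x1 h4 k4
  filter_upwards [h4, k4] with thp h5 k5
  filter_upwards [h5, k5] with th h6 k6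
  filter_upwards [h6, k6] with C0 h7 k7
  filter_upwards [h7, k7] with c1 h8 k8
  filter_upwards [h8, k8] with E h9 k9 P hP
  exact ⟨h9 P hP, k9 P hP⟩

/-- consequences -/
theorem Ev.mono (hF : Ev b1 b2 pf Q F) (h : ∀ P c1, P.Adm → F P c1 → G P c1) :
    Ev b1 b2 pf Q G := by
  unfold Ev at *
  filter_upwards [hF] with W h1
  filter_upwards [h1] with ys h2
  filter_upwards [h2] with X0 h3
  filter_upwards [h3] with x1 h4
  filter_upwards [h4] with thp h5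
  filter_upwards [h5] with th h6
  filter_upwards [h6] with C0 h7
  filter_upwards [h7] with c1 h8
  filter_upwards [h8] with E h9 P hP
  exact h P c1 hP.adm (h9 P hP)

/-- `0 < x ≤ r` near `0` -/
lemma ev_le {r : ℝ} (hr : 0 < r) : ∀ᶠ x in 𝓝[>] (0 : ℝ), 0 < x ∧ x ≤ r := by
  filter_upwards [Ioc_mem_nhdsGT hr] with x hx using ⟨hx.1, hx.2⟩

/-- how to prove `Ev`: explicit form -/
theorem Ev.of (h : ∃ W0 : ℝ, ∀ W, W0 ≤ W → ∃ ys0 : ℝ, 0 < ys0 ∧ ∀ ys, 0 < ys → ys ≤ ys0 →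
    ∃ X00 : ℕ, ∀ X0, X00 ≤ X0 → ∃ r1 : ℝ, 0 < r1 ∧ ∀ x1, 0 < x1 → x1 ≤ r1 →
    ∃ r2 : ℝ, 0 < r2 ∧ ∀ thp, 0 < thp → thp ≤ r2 → ∃ r3 : ℝ, 0 < r3 ∧ ∀ th, 0 < th → th ≤ r3 →
    ∃ C1 : ℝ, ∀ C0, C1 ≤ C0 → ∃ r4 : ℝ, 0 < r4 ∧ ∀ c1, 0 < c1 → c1 ≤ r4 →
    ∃ E0 : ℝ, 0 < E0 ∧ ∀ P : Par, PS b1 b2 pf Q W ys X0 x1 thp th C0 E0 P → F P c1) :
    Ev b1 b2 pf Q F := by
  obtain ⟨W0, h⟩ := h
  unfold Ev
  filter_upwards [eventually_ge_atTop W0] with W hW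
  obtain ⟨ys0, hys0, h⟩ := h W hW
  filter_upwards [ev_le hys0] with ys hys
  obtain ⟨X00, h⟩ := h ys hys.1 hys.2
  filter_upwards [eventually_ge_atTop X00] with X0 hX0
  obtain ⟨r1, hr1, h⟩ := h X0 hX0
  filter_upwards [ev_le hr1] with x1 hx1
  obtain ⟨r2, hr2, h⟩ := h x1 hx1.1 hx1.2
  filter_upwards [ev_le hr2] with thp hthp
  obtain ⟨r3, hr3, h⟩ := h thp hthp.1 hthp.2
  filter_upwards [ev_le hr3] with th hth
  obtain ⟨C1, h⟩ := h th hth.1 hth.2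
  filter_upwards [eventually_ge_atTop C1] with C0 hC0
  obtain ⟨r4, hr4, h⟩ := h C0 hC0
  filter_upwards [ev_le hr4] with c1 hc1
  obtain ⟨E0, hE0, h⟩ := h c1 hc1.1 hc1.2
  filter_upwards [ev_le hE0] with E hE P hP
  exact h P ⟨hP.adm, hP.eth, hP.ethp, hP.ex1, hP.eC0, hP.epf, hP.eb1, hP.eb2, hP.eW, hP.eys,
    hP.eX0, hP.eq0, hP.ees.trans hE.2⟩

/-- the smallness of `th + 4 q0 thp` (helper972, helper640) -/
lemma PS.rho {W ys x1 thp th C0 E : ℝ} {X0 : ℕ} {P : Par}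
    (h : PS b1 b2 pf Q W ys X0 x1 thp th C0 E P) (hx1 : 0 < x1) (hthp : 0 < thp) :
    (P.q0 : ℝ) * P.thp ≤ x1 + (Q + 3) * thp := by
  rw [h.eq0, h.ethp]
  push_cast
  have h2 : (⌈x1 / thp⌉₊ : ℝ) ≤ x1 / thp + 1 := (Nat.ceil_lt_add_one (by positivity)).le
  have h3 : (⌈x1 / thp⌉₊ : ℝ) * thp ≤ x1 + thp := by
    calc (⌈x1 / thp⌉₊ : ℝ) * thp ≤ (x1 / thp + 1) * thp := by gcongr
      _ = x1 + thp := by field_simp
  linarith

/-- parameters with prescribed numbers exist -/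
lemma ps_exists {W ys x1 thp th C0 E : ℝ} {X0 : ℕ} (hpf : 0 < pf) (hpf1 : pf ≤ 1) (hth : 0 < th)
    (hthp : th ≤ thp) (hthp1 : thp ≤ 1) (hx1 : x1 ≤ 1) (hx : 4 * th + 48 * thp ≤ x1 / 2)
    (hC : 0 < C0) (hE : 0 < E) : ∃ P : Par, PS b1 b2 pf Q W ys X0 x1 thp th C0 E P := by
  have hthp0 : 0 < thp := hth.trans_le hthp
  have hx0 : 0 < x1 := by linarith
  obtain ⟨P, hA, h1, h2, h3, h4, h5, h6, h7, h8, h9, h10, -, h12⟩ :=
    H972.exists_par (b1 := b1) (b2 := b2) (W := W) (ys := ys) X0 Q hth hthp hthp1 hx1 hx hC hpf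
      hpf1 hE
  set q : ℕ := ⌈x1 / thp⌉₊ with hq
  have hq1 : x1 / thp ≤ q := Nat.le_ceil _
  refine ⟨{ P with q0 := Q + q + 2 }, ?_, h1, h2, h3, h4, h5, h6, h7, h8, h9, h10, rfl, h12⟩
  refine ⟨hA.thp1, hA.x11, hA.hx, hA.hth, by simp, ?_, hA.pf0, hA.pf1, hA.es4, hA.hk⟩
  change P.x1 ≤ (((Q + q + 2 : ℕ) : ℝ) - 2) * P.thp
  rw [h3, h2]
  push_cast
  have h13 := (div_le_iff₀ hthp0).1 hq1
  have h14 : (0 : ℝ) ≤ Q := Nat.cast_nonneg _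
  nlinarith

/-- **a property which holds in the order of constants holds for some parameter** -/
theorem Ev.exists (h : Ev b1 b2 pf Q F) (hpf : 0 < pf) (hpf1 : pf ≤ 1) :
    ∃ (P : Par) (c1 : ℝ), P.Adm ∧ P.pf = pf ∧ P.b1 = b1 ∧ P.b2 = b2 ∧ 0 < c1 ∧ F P c1 := by
  unfold Ev at h
  obtain ⟨W, h⟩ := Filter.Eventually.exists h
  obtain ⟨ys, h⟩ := h.exists
  obtain ⟨X0, h⟩ := h.exists
  obtain ⟨x1, h, hx0, hx1⟩ := (h.and (ev_le one_pos)).exists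
  obtain ⟨thp, h, ht0, ht1⟩ := (h.and (ev_le (show 0 < x1 / 200 by positivity))).exists
  obtain ⟨th, h, hs0, hs1⟩ := (h.and (ev_le ht0)).exists
  obtain ⟨C0, h, hC⟩ := (h.and (eventually_ge_atTop (1 : ℝ))).exists
  obtain ⟨c1, h, hc0, -⟩ := (h.and (ev_le one_pos)).exists
  obtain ⟨E, h, hE, -⟩ := (h.and (ev_le one_pos)).exists
  obtain ⟨P, hP⟩ := ps_exists (b1 := b1) (b2 := b2) (pf := pf) (Q := Q) (W := W) (ys := ys)
    (X0 := X0) hpf hpf1 hs0 hs1 (by linarith) hx1 (by linarith) (by linarith : 0 < C0) hE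
  exact ⟨P, c1, hP.adm, hP.epf, hP.eb1, hP.eb2, hc0, h P hP⟩

end Vale.Agent.P159.H801
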