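import Vale.Agent.P159.H801.T37
import Vale.Agent.P159.H801.ParEv

/-!
P159 (helper801), MASTER: the output of the T part as one structure `SFlow` (T3 for the sharp
letters, the states `Good` and the zero background numbers at every level, all numbers), for the
consumers (LINKW, the static part), and the combination of the inputs in the order of constants.
-/

open Filter Topology Finset

namespace Vale.Agent.P159.H801

open Vale.Agent.P159.H972 (Par Good YBn Par.Adm)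
open Vale.Agent.P159.H264 (kap)

/-- **the flow with its states** -/
structure SFlow (P : Par) (b σ c c1 q2 qx : ℝ) (a y ε xs : ℕ → ℝ) (c' r q A : ℝ) (N : ℕ) :
    Prop where
  /-- the stiffness function of the states -/
  flc : FLC P b a
  lim : Tendsto a atTop (𝓝 (Real.pi / 2))
  a1 : ∀ n, N ≤ n → 1 ≤ a n
  A0 : 0 < A
  q21 : 1 < q2
  fl : Fl (xa a) y kap c' r q N
  r1 : 1 < r
  t3 : T3 xs y kap c' r q (2 * Bw P) A (fun n => P.w (ε n)) N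
  near : ∀ n, N ≤ n → |xs n - xa a n| ≤ y n ^ q2
  xq : ∀ n, N ≤ n → |xa a n| ≤ y n ^ qx
  /-- the states -/
  good : ∀ n, N ≤ n → Good P b n (ε n)
  yb : ∀ n, N ≤ n → YBn P b n (ε n) (ε n ^ (-c) * y n)
  lo : ∀ n, N ≤ n → y n ^ (2 - σ) ≤ ε n
  up : ∀ n, N ≤ n → ε n ≤ y n ^ (2 - 3 * σ)
  es : ∀ n, N ≤ n → ε n ≤ P.es
  hv : ∀ n, N ≤ n → Real.log (1 / y n) ≤ ε n ^ (-c1)
  y1 : ∀ n, N ≤ n → y n ≤ 1

/-- the inputs of the V half and of the sharp relation, for one stiffness function -/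
structure VIn (P : Par) (b : ℝ) (VS : ℕ → ℝ → ℝ → Prop) (u a : ℕ → ℝ) (c σ v1 c1 A q2 qx : ℝ)
    (Sl : ℕ → ℝ → ℝ → ℝ → Prop) : Prop where
  ut : Tendsto u atTop (𝓝 0)
  step : ∀ᶠ N in atTop, VStep P b VS u a c σ v1 c1 N
  start : Start5 (MS (Good P b) (YBn P b) VS u c) σ c1
  A0 : 0 < A
  sl : ∀ᶠ N in atTop, SLP7 (MS (Good P b) (YBn P b) VS u c) (xa a) P.w σ P.es c1 A q2 qx N Sl

/-- the numbers of a state, for the larger exponent `Y = ε^(-c) y`: `Y² ≤ ε` -/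
lemma SFlow.Y2 {P : Par} {b σ c c1 q2 qx : ℝ} {a y ε xs : ℕ → ℝ} {c' r q A : ℝ} {N : ℕ}
    (h : SFlow P b σ c c1 q2 qx a y ε xs c' r q A N) (hσ0 : 0 < σ) (hσ1 : σ ≤ 1 / 4) (hc : 0 ≤ c)
    (hc4 : 4 * c ≤ σ) {n : ℕ} (hn : N ≤ n) : (ε n ^ (-c) * y n) ^ 2 ≤ ε n := by
  have hy := h.fl.y0 n
  have hlo := h.lo n hn
  have hε : 0 < ε n := (Real.rpow_pos_of_pos hy _).trans_le hlo
  exact (ms_num (sg0 := 0) hσ0 hσ1 le_rfl hc hc4 (by linarith) hy (h.y1 n hn)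
    (mul_nonneg (Real.rpow_nonneg hε.le _) hy.le) hlo le_rfl).1

/-- **MASTER with all inputs** (one `P`) -/
theorem sflow_of {P : Par} {b σ sg c p p1 p2 v1 qx c1 : ℝ} {N0 : ℕ} (hE : Exps σ sg c p p1 v1)
    (hpf : p1 < (1 - sg) * P.pf) (hp2 : p1 < p2) (hqx0 : 0 < qx) (hqx : qx ≤ (2 - 4 * σ) * p)
    (hP : PIn P b sg p2 N0) (hc1 : 0 < c1)
    (hV : ∀ a : ℕ → ℝ, FLC P b a → Tendsto a atTop (𝓝 (Real.pi / 2)) → ∃ VS u A q2 Sl,
      VIn P b VS u a c σ v1 c1 A q2 qx Sl) :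
    ∃ (q2 : ℝ) (a y ε xs : ℕ → ℝ) (c' r q A : ℝ) (N : ℕ),
      SFlow P b σ c c1 q2 qx a y ε xs c' r q A N := by
  obtain ⟨a, ha1, ha2, ha3, N1, hN1, ha4, hM⟩ := master_T7 hE hpf hp2 hqx0 hqx hP
  obtain ⟨VS, u, A, q2, Sl, V⟩ := hV a ha1 ha2
  obtain ⟨N3, hN3⟩ := eventually_atTop.1 (V.step.and V.sl)
  have hN2 : N1 ≤ max N1 N3 := le_max_left _ _
  obtain ⟨hs1, hs2⟩ := hN3 (max N1 N3) (le_max_right _ _)
  obtain ⟨y, ε, xs, c', r, q, N, b1, b2, b3, b4, b5, b6, -, b8⟩ :=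
    hM VS u c1 A q2 (max N1 N3) Sl hN2 hc1 V.ut hs1 V.start V.A0 hs2
  refine ⟨q2, a, y, ε, xs, c', r, q, A, N, ⟨ha1, ha2, fun n hn => ha4 n ((hN2.trans b1).trans hn),
    V.A0, hs2.q21, b2, b3, b4, b5, b6, ?_, ?_, ?_, ?_, ?_, ?_, ?_⟩⟩
  · exact fun n hn => (b8 n hn).1.hS.P
  · exact fun n hn => (b8 n hn).1.hS.Y
  · exact fun n hn => (b8 n hn).1.sg
  · exact fun n hn => (b8 n hn).2.1
  · exact fun n hn => (b8 n hn).1.he
  · exact fun n hn => (b8 n hn).1.hv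
  · exact fun n hn => (b8 n hn).2.2

/-- **MASTER in the order of constants**: the three families of inputs (`P` half, `V` half with the
sharp relation, consumer `R` of the flow) give the consumer's conclusion -/
theorem master_ev {b b1 b2 pf σ sg c p p1 p2 v1 qx : ℝ} {Q : ℕ} {Z : Prop}
    (hE : Exps σ sg c p p1 v1) (hpf0 : 0 < pf) (hpf1 : pf ≤ 1)
    (hpf : p1 < (1 - sg) * pf) (hp2 : p1 < p2) (hqx0 : 0 < qx) (hqx : qx ≤ (2 - 4 * σ) * p)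
    (hP : Ev b1 b2 pf Q fun P _ => ∀ᶠ N0 in atTop, PIn P b sg p2 N0)
    (hV : Ev b1 b2 pf Q fun P c1 => ∀ a : ℕ → ℝ, FLC P b a →
      Tendsto a atTop (𝓝 (Real.pi / 2)) → ∃ VS u A q2 Sl, VIn P b VS u a c σ v1 c1 A q2 qx Sl)
    (hS : Ev b1 b2 pf Q fun P c1 => ∀ (q2 : ℝ) (a y ε xs : ℕ → ℝ) (c' r q A : ℝ) (N : ℕ),
      SFlow P b σ c c1 q2 qx a y ε xs c' r q A N → Z) : Z := by
  obtain ⟨P, c1, -, hPf, -, -, hc1, h1, h2, h3⟩ := (hP.and (hV.and hS)).exists hpf0 hpf1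
  obtain ⟨N0, hN0⟩ := h1.exists
  obtain ⟨q2, a, y, ε, xs, c', r, q, A, N, h⟩ := sflow_of hE (by rw [hPf]; exact hpf) hp2 hqx0 hqx
    hN0 hc1 h2
  exact h3 q2 a y ε xs c' r q A N h

end Vale.Agent.P159.H801
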