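import Vale.Agent.P159.H801.FinQ
import Vale.Agent.P159.H37.Lq6

/-!
P159 (helper801): **the first question from the V half and the pairs** (`PairFam`, the eight fields
of helper145), with `ck = thp / 4`, `c3 = c1 / 2`.
-/

open Filter Topology Finset

namespace Vale.Agent.P159.H801

open Vale.Agent.P159.H972 (Par)
open Vale.Agent.P159.H37.Sf (PairFam WtFam sOut_pairs)

/-- the pairs along the flow, numbers of the final instance -/
def SPairs (b1 b2 qx β : ℝ) (Q Am : ℕ) : Prop :=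
  ∃ c : ℝ, 0 < c ∧ c ≤ 1 / 80 ∧ Ev b1 b2 (9 / 10) Q fun P c1 =>
    ∀ (q2 : ℝ) (a y ε xs : ℕ → ℝ) (c' r q A : ℝ) (N : ℕ),
      SFlow P bCrit (1 / 20) c c1 q2 qx a y ε xs c' r q A N →
      ∃ c4 : ℝ, 0 < c4 ∧ PairFam P bCrit β Am (P.thp / 4) (c1 / 2) c4 a y ε

/-- **QUESTION 1 from the V half and the pairs** -/
theorem q1_of_pairs {b1 b2 K qx β : ℝ} {Q Am : ℕ} (hb1 : 0 < b1) (h1 : b1 ≤ bCrit)
    (h2 : bCrit ≤ b2) (hqx : 0 < qx) (hqx1 : qx ≤ 18 / 25) (hβ : 1 / 4 < β) (hβ1 : β ≤ 1)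
    (hAm : 1 ≤ Am) (hV : VHalf b1 b2 K Q) (hS : SPairs b1 b2 qx β Q Am) : Q1 := by
  obtain ⟨c, hc, hc1, hS⟩ := hS
  exact H730.final1 hb1 h1 h2 hqx hqx1 hc hc1 (vfam_crit hb1 h1 h2 hqx hV) hβ hβ1 Am
    (sOut_pairs hb1 h1 (by norm_num) hAm (by norm_num) (by norm_num) hc.le (by linarith) hS)

end Vale.Agent.P159.H801
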