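import Vale.Agent.P159.H801.Plus3
import Vale.Agent.P159.H114.SlD2

/-!
P159 (helper801), P#: **the base torus of the second run** at a state `SS` of the sharp relation:
size `e1 = y^(2 - 3 σ2)`, base torus `2^r1`, `r1 = n + kE' e1`, below all big tori of the state.
-/

open Filter Topology Finset

namespace Vale.Agent.P159.H801

open Vale.Agent.P159.H972 (Par Good GP YBn FL tn tn_pos lg lg_anti lg_mono Par.Adm)
open Vale.Agent.P159.H864 (yt)
open Vale.Agent.P159.H114 (TB TV)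

/-- `2 ^ lg c e ≤ 2 e^(-c)` -/
lemma two_lg {c e : ℝ} (hc : 0 ≤ c) (he : 0 < e) (he1 : e ≤ 1) :
    (2 : ℝ) ^ lg c e ≤ 2 * e ^ (-c) := by
  have h0 : 0 ≤ c * Real.logb 2 (1 / e) :=
    mul_nonneg hc (Real.logb_nonneg one_lt_two (by rw [le_div_iff₀ he]; linarith))
  have h1 : (lg c e : ℝ) ≤ c * Real.logb 2 (1 / e) + 1 := (Nat.ceil_lt_add_one h0).le
  have h2 : e ^ (-c) = (2 : ℝ) ^ (c * Real.logb 2 (1 / e)) := by
    rw [mul_comm, Real.rpow_mul two_pos.le, Real.rpow_logb two_pos (by norm_num) (by positivity),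
      one_div, Real.inv_rpow he.le, Real.rpow_neg he.le]
  rw [h2, ← Real.rpow_natCast]
  refine (Real.rpow_le_rpow_of_exponent_le one_le_two h1).trans (le_of_eq ?_)
  rw [Real.rpow_add two_pos, Real.rpow_one, mul_comm]

/-- `lg` of the size `y^p` -/
lemma lg_pow_le {c p y : ℝ} (hy : 0 < y) :
    lg c (y ^ p) = lg (c * p) y := by
  unfold lg
  congr 1
  have h1 : Real.logb 2 (1 / y ^ p) = p * Real.logb 2 (1 / y) := by
    rw [one_div, one_div, Real.logb_inv, Real.logb_inv, Real.logb_rpow_eq_mul_logb_of_pos hy]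
    ring
  rw [h1]
  ring

/-- the base torus of the second run -/
structure Base (P P' : Par) (b an c : ℝ) (n : ℕ) (ε y e1 : ℝ) (r1 : ℕ) : Prop where
  ε0 : 0 < ε
  y0 : 0 < y
  y1 : y ≤ 1
  e10 : 0 < e1
  e1ε : e1 ≤ ε
  e1es : e1 ≤ P'.es
  y2 : y ^ (2 : ℝ) ≤ e1
  er1 : r1 = n + P'.kE e1
  tt' : P'.TT n e1 r1
  tt : P.TT n ε r1
  le : ∀ r, TB P n ε r → r1 ≤ r
  /-- all big tori are admissible for the first run -/
  tv : ∀ r, TB P n ε r → TV P n ε r
  K : (2 : ℝ) ^ (r1 - n) ≤ 2 * e1 ^ (-P.th)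
  Ky : (2 : ℝ) ^ (r1 - n) ≤ 2 * y ^ (-(2 * P.th))
  yt1 : ∀ r, r1 ≤ r → yt (2 ^ r) b (tn n) ≤ ε ^ (-c) * y
  yt4 : ∀ r, r1 ≤ r → yt (2 ^ r) b (4 * tn n) ≤ ε ^ (-c) * y
  gp : ∃ τ a', tn n ≤ τ ∧ τ ≤ 4 * tn n ∧ |a' - an| ≤ 72 * ε ^ P.pf ∧
    ∀ e, e1 ≤ e → e ≤ P'.es → GP P' b a' n e τ

/-- **the base torus at a state `SS`** -/
theorem base_of_ss {P P' : Par} {b c σ σ2 sg' c1 : ℝ} {VS : ℕ → ℝ → ℝ → Prop} {u a : ℕ → ℝ}
    {n : ℕ} {ε y : ℝ} (hC : Cnd P P' c σ σ2 sg') (hA : P.Adm) (hA' : P'.Adm)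
    (hth : P'.th = P.th) (hx1 : P.th ≤ P.x1) (hpf : P'.pf = P.pf) (h32 : 3 * σ2 ≤ σ)
    (ha : FLC P b a) (h : SS P P' b VS u c σ σ2 c1 n ε y) :
    Base P P' b (a n) c n ε y (y ^ (2 - 3 * σ2)) (n + P'.kE (y ^ (2 - 3 * σ2))) := by
  have hy := h.ms.z0
  have hy1 := h.y1
  have hs0 := hC.s0
  have hs1 := hC.s1
  have hσ0 := hC.σ0
  have hσ1 := hC.σ1
  have hc0 := hC.c0
  have hε : 0 < ε := (Real.rpow_pos_of_pos hy _).trans_le h.lo
  have hε1 : ε ≤ 1 := h.es.trans (P.es1.trans (by norm_num))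
  have hε2 : ε ≤ 1 / 2 := h.es.trans P.es1
  set e1 : ℝ := y ^ (2 - 3 * σ2) with he1
  have he10 : 0 < e1 := Real.rpow_pos_of_pos hy _
  have he11 : e1 ≤ ε := (Real.rpow_le_rpow_of_exponent_ge hy hy1 (by linarith)).trans h.lo
  have hth0 := P.th0
  have hthw : P.th ≤ P.thp := hA.hth
  have hyl : 0 ≤ Real.logb 2 (1 / y) :=
    Real.logb_nonneg one_lt_two (by rw [le_div_iff₀ hy]; linarith)
  -- comparison of the logarithms
  have hl1 : Real.logb 2 (1 / e1) ≤ 2 * Real.logb 2 (1 / y) := by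
    have h1 : Real.logb 2 (1 / e1) = (2 - 3 * σ2) * Real.logb 2 (1 / y) := by
      rw [he1, one_div, one_div, Real.logb_inv, Real.logb_inv,
        Real.logb_rpow_eq_mul_logb_of_pos hy]
      ring
    rw [h1]
    nlinarith
  have hl2 : Real.logb 2 (1 / y) ≤ Real.logb 2 (1 / ε) := by
    apply Real.logb_le_logb_of_le one_lt_two (by positivity)
    apply one_div_le_one_div_of_le hε
    refine h.up.trans ?_
    calc y ^ (2 - 3 * σ) ≤ y ^ (1 : ℝ) :=
          Real.rpow_le_rpow_of_exponent_ge hy hy1 (by linarith)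
      _ = y := Real.rpow_one y
  have hk2 : P'.kE e1 ≤ 2 * P.kE ε := by
    show lg P'.th e1 ≤ 2 * lg P.th ε
    unfold lg
    rw [Nat.ceil_le, hth]
    push_cast
    have h3 := Nat.le_ceil (P.th * Real.logb 2 (1 / ε))
    nlinarith
  have hk1 : P.kE ε ≤ P'.kE e1 := by
    show lg P.th ε ≤ lg P'.th e1
    rw [hth]
    exact lg_anti hth0.le he10 he11
  have hkx : P.kE ε ≤ P.xE ε := lg_mono hx1 hε hε1
  have hkw : P.kE ε ≤ P.w ε := lg_mono hthw hε hε1
  have hq := hA.hq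
  have htt : P.TT n ε (n + P'.kE e1) := by
    refine ⟨by omega, ?_⟩
    have h5 : 2 * (4 * P.w ε) ≤ P.q0 * (4 * P.w ε) := Nat.mul_le_mul_right _ hq
    omega
  have htt' : P'.TT n e1 (n + P'.kE e1) := H972.TT_base P' n e1
  obtain ⟨τ, a', t1, t2, hG⟩ := h.good'
  refine ⟨hε, hy, hy1, he10, he11, h.es', ?_, rfl, htt', htt, ?_, fun r hr => hr.1, ?_, ?_, ?_, ?_,
    ⟨τ, a', t1, t2, ?_, hG⟩⟩
  · exact Real.rpow_le_rpow_of_exponent_ge hy hy1 (by linarith)
  · intro r hr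
    have := hr.2
    omega
  · rw [Nat.add_sub_cancel_left]
    have h6 := two_lg (c := P'.th) (e := e1) P'.th0.le he10 (he11.trans hε1)
    rw [hth] at h6
    have h7 : P'.kE e1 = lg P.th e1 := by
      show lg P'.th e1 = _
      rw [hth]
    rw [h7]
    exact h6
  · rw [Nat.add_sub_cancel_left]
    have h6 := two_lg (c := P'.th) (e := e1) P'.th0.le he10 (he11.trans hε1)
    rw [hth] at h6
    have h7 : P'.kE e1 = lg P.th e1 := by
      show lg P'.th e1 = _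
      rw [hth]
    rw [h7]
    refine h6.trans (mul_le_mul_of_nonneg_left ?_ (by norm_num))
    rw [he1, ← Real.rpow_mul hy.le]
    apply Real.rpow_le_rpow_of_exponent_ge hy hy1
    nlinarith
  · intro r hr
    refine (h.yb'.2.1 e1 le_rfl h.es' r hr).trans (max_le le_rfl ?_)
    have h8 : (1 : ℝ) ≤ ε ^ (-c) :=
      Real.one_le_rpow_of_pos_of_le_one_of_nonpos hε hε1 (by linarith)
    calc e1 ≤ y ^ (1 : ℝ) := Real.rpow_le_rpow_of_exponent_ge hy hy1 (by linarith)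
      _ = 1 * y := by rw [Real.rpow_one, one_mul]
      _ ≤ ε ^ (-c) * y := mul_le_mul_of_nonneg_right h8 hy.le
  · intro r hr
    refine (h.yb'.2.2 e1 le_rfl h.es' r hr).trans (max_le le_rfl ?_)
    have h8 : (1 : ℝ) ≤ ε ^ (-c) :=
      Real.one_le_rpow_of_pos_of_le_one_of_nonpos hε hε1 (by linarith)
    calc e1 ≤ y ^ (1 : ℝ) := Real.rpow_le_rpow_of_exponent_ge hy hy1 (by linarith)
      _ = 1 * y := by rw [Real.rpow_one, one_mul]
      _ ≤ ε ^ (-c) * y := mul_le_mul_of_nonneg_right h8 hy.le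
  · have f1 : FL b (tn n) a' (e1 ^ P.pf) (2 ^ (n + P'.kE e1)) := by
      have := ((hG e1 le_rfl h.es').flat _ htt').1
      rwa [hpf] at this
    have f2 : FL b (tn n) (a n) (17 * ε ^ P.pf) (2 ^ (n + P'.kE e1)) :=
      ha n ε hε h.es h.ms.P ε le_rfl h.es _ htt
    have hk3 : 3 ≤ P'.kE e1 := hA'.hk.trans (lg_anti P'.th0.le he10 h.es')
    have f3 := f1.det (H972.forty hA'.hk he10 h.es' le_rfl) (by
      calc 2 = 2 ^ 1 := by norm_num
        _ ≤ 2 ^ (n + P'.kE e1) := Nat.pow_le_pow_right (by norm_num) (by omega)) f2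
    have f4 : e1 ^ P.pf ≤ ε ^ P.pf := Real.rpow_le_rpow he10.le he11 hA.pf0.le
    linarith

/-- cells of the state are cells of the second run -/
lemma Base.cell {P P' : Par} {b an c : ℝ} {n : ℕ} {ε y e1 : ℝ} {r1 j : ℕ}
    (h : Base P P' b an c n ε y e1 r1) (hC0 : P'.C0 = P.C0) {C1 : ℝ} (hC1 : P.C0 ≤ C1)
    (hεy : ε ≤ y) (hj : (2 : ℝ) ^ j / 2 ^ n ≤ (ε * y) ^ C1) :
    j ≤ P'.sE n e1 ∧ j ≤ P.sE n ε := by
  have hC00 := P.C00
  have hε := h.ε0
  have hy := h.y0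
  have hy1 := h.y1
  have he10 := h.e10
  have hyl : 0 ≤ Real.logb 2 (1 / y) :=
    Real.logb_nonneg one_lt_two (by rw [le_div_iff₀ hy]; linarith)
  have hl1 : Real.logb 2 (1 / e1) ≤ 2 * Real.logb 2 (1 / y) := by
    have h1 : 2 * Real.logb 2 (1 / y) = Real.logb 2 (1 / y ^ (2 : ℝ)) := by
      rw [one_div, one_div, Real.logb_inv, Real.logb_inv,
        Real.logb_rpow_eq_mul_logb_of_pos hy]
      ring
    rw [h1]
    apply Real.logb_le_logb_of_le one_lt_two (by positivity)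
    exact one_div_le_one_div_of_le (Real.rpow_pos_of_pos hy _) h.y2
  have hl2 : Real.logb 2 (1 / y) ≤ Real.logb 2 (1 / ε) := by
    apply Real.logb_le_logb_of_le one_lt_two (by positivity)
    exact one_div_le_one_div_of_le hε hεy
  have key : C1 * (Real.logb 2 (1 / ε) + Real.logb 2 (1 / y)) ≤ (n : ℝ) - j := by
    have h2 : (2 : ℝ) ^ j / 2 ^ n = 2 ^ ((j : ℝ) - n) := by
      rw [Real.rpow_sub two_pos, Real.rpow_natCast, Real.rpow_natCast]
    rw [h2] at hj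
    have h3 := Real.logb_le_logb_of_le one_lt_two (by positivity) hj
    rw [Real.logb_rpow two_pos (by norm_num), Real.logb_rpow_eq_mul_logb_of_pos (by positivity),
      Real.logb_mul hε.ne' hy.ne'] at h3
    have h4 : Real.logb 2 (1 / ε) = -Real.logb 2 ε := by rw [one_div, Real.logb_inv]
    have h5 : Real.logb 2 (1 / y) = -Real.logb 2 y := by rw [one_div, Real.logb_inv]
    rw [h4, h5]
    linarith
  have hl3 : 0 ≤ Real.logb 2 (1 / ε) := hyl.trans hl2
  have k1 : lg P'.C0 e1 + j ≤ n := by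
    have h6 : P'.C0 * Real.logb 2 (1 / e1) ≤ ((n : ℝ) - j) := by
      rw [hC0]
      nlinarith
    have h7 : (j : ℝ) ≤ n := by
      have h8 : 0 ≤ C1 * (Real.logb 2 (1 / ε) + Real.logb 2 (1 / y)) := by
        have : 0 < C1 := hC00.trans_le hC1
        positivity
      linarith
    have h8 : j ≤ n := by exact_mod_cast h7
    have h9 : lg P'.C0 e1 ≤ n - j := by
      unfold lg
      rw [Nat.ceil_le]
      push_cast [Nat.cast_sub h8]
      exact h6
    omega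
  have k2 : lg P.C0 ε + j ≤ n := by
    have h6 : P.C0 * Real.logb 2 (1 / ε) ≤ ((n : ℝ) - j) := by
      nlinarith
    have h7 : (j : ℝ) ≤ n := by
      have h8 : 0 ≤ C1 * (Real.logb 2 (1 / ε) + Real.logb 2 (1 / y)) := by
        have : 0 < C1 := hC00.trans_le hC1
        positivity
      linarith
    have h8 : j ≤ n := by exact_mod_cast h7
    have h9 : lg P.C0 ε ≤ n - j := by
      unfold lg
      rw [Nat.ceil_le]
      push_cast [Nat.cast_sub h8]
      exact h6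
    omega
  constructor
  · show j ≤ n - lg P'.C0 e1
    omega
  · show j ≤ n - lg P.C0 ε
    omega

end Vale.Agent.P159.H801
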