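import Vale.Agent.P159.H801.Plus3
import Vale.Agent.P159.H114.Slp12

/-!
P159 (helper801): the inputs `VIn2` of the master from the V half and the sharp data `SD2` at the
states `SS`; the family form.
-/

open Filter Topology Finset

namespace Vale.Agent.P159.H801

open Vale.Agent.P159.H972 (Par Good YBn tn Par.Adm)
open Vale.Agent.P159.H114 (SD2 SlV2)
open Vale.Agent.P159.H846.Two (Ev2 PQ)

/-- **V half + sharp data at the states `SS` ⇒ inputs of the master** -/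
theorem vin2_of {b : ℝ} (hb : 0 < b) (hh : 0 < helicity b) (hs : 1 / helicity b < 5 / 2) :
    ∃ A k : ℝ, 0 < A ∧ 0 < k ∧ ∀ (P P' : Par), P.Adm →
      ∀ (C1 C2 cs c3 c qx σ σ2 sg' v1 c1 : ℝ) (q : ℕ) (μ : Fin (q + 1) → ℝ)
        (VS : ℕ → ℝ → ℝ → Prop) (u a : ℕ → ℝ), Cnd P P' c σ σ2 sg' → H114.RW q μ →
        21 ≤ 2 * C1 → 30 ≤ 2 * C1 * k → 0 ≤ C2 → 0 < c3 → c3 < cs → σ ≤ 1 / 20 →
        c3 < (2 - 4 * σ) * P.pf - 1 → 0 < qx → FLC P b a →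
        Tendsto u atTop (𝓝 0) → (∀ᶠ N in atTop, VStep P b VS u a c σ v1 c1 N) →
        Start5 (MS (Good P b) (YBn P b) VS u c) σ c1 →
        (∀ᶠ N0 in atTop, ∃ e, 0 < e ∧ ∀ n ε y, N0 ≤ n → SS P P' b VS u c σ σ2 c1 n ε y → y ≤ e →
          |xa a n| ≤ y ^ qx → ∃ j, SD2 P b q μ cs C1 C2 n ε y j) →
        VIn2 P P' b VS u a c σ σ2 v1 c1 A (1 + c3) qx (SlV2 P b q μ cs C1 C2) := by
  obtain ⟨A, k, hA, hk, H⟩ := H114.slp_of2 (b := b) hb hh hs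
  refine ⟨A, k, hA, hk, ?_⟩
  intro P P' hP C1 C2 cs c3 c qx σ σ2 sg' v1 c1 q μ VS u a hC hμ hC1 hC1k hC2 hc3 hc3c hσ hc3p
    hqx hFL hu hst hs5 hSD
  refine ⟨hu, hst, hs5, hA, ?_⟩
  filter_upwards [hSD] with N0 hN0
  obtain ⟨e, he, hN0⟩ := hN0
  obtain ⟨e0, he0, hss⟩ := ss_of (VS := VS) (u := u) (c1 := c1) (N0 := N0) hb hC
  refine H P hP C1 C2 cs c3 qx σ c1 q μ N0 _ a hμ hC1 hC1k hC2 hc3 hc3c hC.σ0.le hσ hc3p hqx hFL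
    (fun n ε y h => ⟨h.1.1.P, h.1.1.z0⟩) ⟨min e e0, lt_min he he0, fun n ε y hH hy hx => ?_⟩
  exact hN0 n ε y hH.hN (hss n ε y (hy.trans (min_le_right _ _)) hH) (hy.trans (min_le_left _ _)) hx

/-- **what P# delivers at a pair `P, P'`** for the states of `VS` -/
def SDOut (P P' : Par) (b k qx c1 : ℝ) (VS : ℕ → ℝ → ℝ → Prop) (u a : ℕ → ℝ) : Prop :=
  ∃ (C1 C2 cs c3 : ℝ) (q : ℕ) (μ : Fin (q + 1) → ℝ), H114.RW q μ ∧ 21 ≤ 2 * C1 ∧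
    30 ≤ 2 * C1 * k ∧ 0 ≤ C2 ∧ 0 < c3 ∧ c3 < cs ∧ c3 < 31 / 50 ∧
    ∀ᶠ N0 in atTop, ∃ e, 0 < e ∧ ∀ n ε y, N0 ≤ n →
      SS P P' b VS u (P.x1 / 100) (1 / 20) (P.x1 / 30) c1 n ε y → y ≤ e →
      |xa a n| ≤ y ^ qx → ∃ j, SD2 P b q μ cs C1 C2 n ε y j

/-- **family form**: the V family (with any content `VC` of its states) and the family of the sharp
data give the only input of the final glue -/
theorem vfam_of {b b1 b2 qx : ℝ} {Q : ℕ} (hb : 0 < b) (hh : 0 < helicity b)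
    (hs : 1 / helicity b < 5 / 2) (hqx : 0 < qx)
    (VC : Par → ℝ → (ℕ → ℝ) → (ℕ → ℝ → ℝ → Prop) → (ℕ → ℝ) → Prop)
    (h1 : Ev b1 b2 (9 / 10) Q fun P c1 => ∀ a : ℕ → ℝ, FLC P b a →
      Tendsto a atTop (𝓝 (Real.pi / 2)) → ∃ VS u, VC P c1 a VS u ∧ Tendsto u atTop (𝓝 0) ∧
        (∀ᶠ N in atTop, VStep P b VS u a (P.x1 / 100) (1 / 20) (17 / 20) c1 N) ∧
        Start5 (MS (Good P b) (YBn P b) VS u (P.x1 / 100)) (1 / 20) c1)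
    (h2 : ∀ k, 0 < k → Ev2 b1 b2 (9 / 10) Q fun P P' c1 => ∀ a : ℕ → ℝ, FLC P b a →
      Tendsto a atTop (𝓝 (Real.pi / 2)) → ∀ VS u, VC P c1 a VS u →
      SDOut P P' b k qx c1 VS u a) :
    Ev2 b1 b2 (9 / 10) Q fun P P' c1 => ∀ a : ℕ → ℝ, FLC P b a →
      Tendsto a atTop (𝓝 (Real.pi / 2)) → ∃ VS u A q2 Sl,
        VIn2 P P' b VS u a (P.x1 / 100) (1 / 20) (P.x1 / 30) (17 / 20) c1 A q2 qx Sl := by
  obtain ⟨A, k, hA, hk, H⟩ := vin2_of (b := b) hb hh hs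
  have e3 := H846.Two.Ev2.x1_le (b1 := b1) (b2 := b2) (pf := 9 / 10) (Q := Q) (r := 1)
    (g := fun x => x) one_pos (fun x hx => hx)
  have e4 := H846.Two.Ev2.order (b1 := b1) (b2 := b2) (pf := 9 / 10) (Q := Q)
    (g1 := fun x _ => x / 5000) (g2 := fun _ => 1 / 2) (g3 := fun _ => 0) (g4 := fun _ => 1)
    (g5 := fun _ _ => 1) (fun x _ hx _ => by positivity) (fun _ _ => by norm_num)
    (fun _ _ => one_pos) (fun _ _ _ _ => one_pos)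
  refine ((((H846.Two.Ev.to2 h1).and (h2 k hk)).and e3).and e4).mono ?_
  rintro P P' c1 hQ hc1 ⟨⟨⟨g1, g2⟩, g3⟩, g4⟩ a ha hlim
  obtain ⟨VS, u, hVC, hu, hst, hs5⟩ := g1 a ha hlim
  obtain ⟨C1, C2, cs, c3, q, μ, hμ, hC1, hC1k, hC2, hc3, hc3c, hc3p, hSD⟩ := g2 a ha hlim VS u hVC
  obtain ⟨g5, -⟩ := g3
  obtain ⟨g6, g7, -⟩ := g4
  have hx1 := hQ.x1
  have hpf := hQ.epf
  have hC : Cnd P P' (P.x1 / 100) (1 / 20) (P.x1 / 30) (P.x1 / 100) :=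
    ⟨hQ.th.ge, g7, by rw [hQ.thp]; linarith, hQ.es, by positivity, by positivity, by norm_num,
      by norm_num, by positivity, by linarith, by linarith⟩
  exact ⟨VS, u, A, 1 + c3, _, H P P' hQ.adm C1 C2 cs c3 (P.x1 / 100) qx (1 / 20) (P.x1 / 30)
    (P.x1 / 100) (17 / 20) c1 q μ VS u a hC hμ hC1 hC1k hC2 hc3 hc3c le_rfl
    (by rw [hpf]; linarith) hqx ha hu hst hs5 hSD⟩

end Vale.Agent.P159.H801
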