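import Vale.Agent.P159.H801.FinZ
import Vale.Agent.P159.H801.VIn
import Vale.Agent.P159.H43.Se4

/-!
P159 (helper801): **the only input left of the final glue is the V family** (helper43's `sdout_ev`
is the sharp half).
-/

open Filter Topology Finset

namespace Vale.Agent.P159.H801

open Vale.Agent.P159.H972 (Par Good YBn)
open Vale.Agent.P159.H846.Two (Ev2)

/-- the V family at the critical point, numbers of the final instance -/
def VHalf (b1 b2 K : ℝ) (Q : ℕ) : Prop :=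
  Ev b1 b2 (9 / 10) Q fun P c1 => ∀ a : ℕ → ℝ, FLC P bCrit a →
    Tendsto a atTop (𝓝 (Real.pi / 2)) → ∃ VS u, H43.VC K bCrit P c1 a VS u ∧
      Tendsto u atTop (𝓝 0) ∧
      (∀ᶠ N in atTop, VStep P bCrit VS u a (P.x1 / 100) (1 / 20) (17 / 20) c1 N) ∧
      Start5 (MS (Good P bCrit) (YBn P bCrit) VS u (P.x1 / 100)) (1 / 20) c1

/-- **P# is in** -/
theorem vfam_crit {b1 b2 qx K : ℝ} {Q : ℕ} (hb1 : 0 < b1) (h1 : b1 ≤ bCrit) (h2 : bCrit ≤ b2)
    (hqx : 0 < qx) (hV : VHalf b1 b2 K Q) : VFam b1 b2 qx Q := by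
  have hY : helicity bCrit = 2 / Real.pi := Vale.Agent.P159.TM.Frame.T1
  have hπ := Real.pi_pos
  have hπ4 := Real.pi_lt_four
  refine vfam_of (hb1.trans_le h1) (by rw [hY]; positivity) ?_ hqx
    (fun P c1 a VS u => H43.VC K bCrit P c1 a VS u) hV
    (fun k hk => (H43.sdout_ev (Q := Q) hb1 h1 h2 hqx hk K).mono
      fun P P' c1 _ _ h a ha _ VS u hVC => h a ha VS u hVC)
  rw [hY, one_div_div]
  linarith

end Vale.Agent.P159.H801
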