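import Vale.Agent.P159.H801.StartM

/-!
P159 (helper801), MASTER, the start, second form (requests of helper316): the lower bound `yl` of
the zero background number only with the constant `a / 4`; `Gd` on the whole interval
`n ≤ m ≤ n + 2 w ε` is exported to the start of V.
-/

open Filter Topology Finset

namespace Vale.Agent.P159.H801

/-- hypotheses of the dichotomy: `y0 n ε` = the zero background number on the tori of `(n, ε)`,
`Nm n ε` = the activity does not drop by a power in the window -/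
structure Dich2 (Gd Nm : ℕ → ℝ → Prop) (YB : ℕ → ℝ → ℝ → Prop) (y0 : ℕ → ℝ → ℝ) (w : ℝ → ℕ)
    (B b0 sg0 c g a th c1 c' C es : ℝ) (N0 : ℕ) : Prop where
  B0 : 0 < B
  b00 : 0 < b0
  sg00 : 0 ≤ sg0
  c00 : 0 ≤ c
  g0 : 0 < g
  gs : g * (1 + sg0 + 2 * c) < 2
  a0 : 0 < a
  c10 : 0 < c1
  cth : c1 < th
  c'0 : 0 < c'
  es0 : 0 < es
  es1 : es ≤ 1 / 2
  w1 : ∀ ε, 0 < ε → ε ≤ es → 1 ≤ w ε
  w2 : ∀ ε, 0 < ε → ε ≤ es → 2 * w (ε / 2) ≤ 3 * w ε
  w3 : ∀ ε, 0 < ε → ε ≤ es → (w ε : ℝ) ≤ B * Real.log (1 / ε)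
  w4 : ∀ ε, 0 < ε → ε ≤ es → b0 * Real.log (1 / ε) ≤ w ε
  mono : ∀ n ε ε', Gd n ε → ε ≤ ε' → Gd n ε'
  y00 : ∀ n ε, N0 ≤ n → 0 < ε → ε ≤ es → 0 < y0 n ε
  yB : ∀ n ε, N0 ≤ n → 0 < ε → ε ≤ es → Gd n ε → YB n ε (ε ^ (-c) * y0 n ε)
  yt : ∀ ε, 0 < ε → ε ≤ es → ∀ᶠ n in atTop, y0 n ε ^ g ≤ ε
  yl : ∃ D, ∀ n ε, N0 ≤ n → 0 < ε → ε ≤ es →
    Real.log (1 / y0 n ε) ≤ a / 4 * (n + Real.log (1 / ε)) + D
  start : ∀ e, 0 < e → e ≤ es → ∃ n0, ∀ n, n0 ≤ n → Gd n e
  stepP : ∀ n m ε Y, N0 ≤ n → Gd n ε → YB n ε Y → Y ^ 2 ≤ ε → ε ≤ es → n + w ε ≤ m →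
    m ≤ n + 4 * w ε → Gd m (max (ε / 2) (ε ^ (-sg0) * Y ^ 2))
  reg : ∀ n ε, N0 ≤ n → Gd n ε → y0 n ε ^ g ≤ ε → ε ≤ es →
    ε ^ (-c1) < Real.log (1 / y0 n ε) →
    min (Real.log (1 / y0 n ε) - 2 * w ε) (c' * ε ^ (-th)) - C ≤
      Real.log (1 / y0 (n + w ε) (ε / 2))
  drop : ∀ n ε, N0 ≤ n → Gd n ε → y0 n ε ^ g ≤ ε → ε ≤ es →
    Real.log (1 / y0 n ε) ≤ ε ^ (-c1) → ¬ Nm n ε →
    Real.log (1 / y0 n ε) + a * w ε ≤ Real.log (1 / y0 (n + w ε) (ε / 2))

variable {Gd Nm : ℕ → ℝ → Prop} {YB VS : ℕ → ℝ → ℝ → Prop} {y0 : ℕ → ℝ → ℝ} {w : ℝ → ℕ}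
  {B b0 sg0 c g a th c1 c' C es : ℝ} {N0 : ℕ}

/-- the P half at a state with `y^g ≤ ε`: the size halves -/
lemma Dich2.half (h : Dich2 Gd Nm YB y0 w B b0 sg0 c g a th c1 c' C es N0) :
    ∃ e, 0 < e ∧ ∀ n ε, N0 ≤ n → 0 < ε → ε ≤ e → ε ≤ es → Gd n ε → y0 n ε ^ g ≤ ε →
      ∀ m, n + w ε ≤ m → m ≤ n + 4 * w ε → Gd m (ε / 2) := by
  have hg := h.g0
  have hgs : 0 < 2 / g - 1 - sg0 - 2 * c := by
    have h1 : (1 + sg0 + 2 * c) < 2 / g := by
      rw [lt_div_iff₀ hg]; linarith [h.gs]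
    linarith
  obtain ⟨e2, he2, h2⟩ := small_pow hgs (show (0 : ℝ) < 1 / 2 by norm_num)
  refine ⟨e2, he2, fun n ε hn hε hεe hes hG hy m hm1 hm2 => ?_⟩
  have hε1 : ε ≤ 1 := hes.trans (h.es1.trans (by norm_num))
  have hy0 := h.y00 n ε hn hε hes
  have hYB := h.yB n ε hn hε hes hG
  -- `Y ^ 2 = ε^(-2c) y0^2 ≤ ε^(2/g - 2c)`
  have hY2 : (ε ^ (-c) * y0 n ε) ^ 2 ≤ ε ^ (2 / g - 2 * c) := by
    have h3 : y0 n ε ^ 2 = (y0 n ε ^ g) ^ (2 / g) := by
      rw [← Real.rpow_mul hy0.le, mul_div_cancel₀ _ hg.ne', ← Real.rpow_natCast]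
      norm_num
    have h4 : y0 n ε ^ 2 ≤ ε ^ (2 / g) := by
      rw [h3]
      exact Real.rpow_le_rpow (Real.rpow_nonneg hy0.le _) hy (by positivity)
    have h5 : (ε ^ (-c)) ^ 2 = ε ^ (-(2 * c)) := by
      rw [← Real.rpow_natCast, ← Real.rpow_mul hε.le]
      congr 1
      push_cast
      ring
    rw [mul_pow, h5]
    calc ε ^ (-(2 * c)) * y0 n ε ^ 2 ≤ ε ^ (-(2 * c)) * ε ^ (2 / g) :=
          mul_le_mul_of_nonneg_left h4 (Real.rpow_nonneg hε.le _)
      _ = ε ^ (2 / g - 2 * c) := by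
          rw [← Real.rpow_add hε]; congr 1; ring
  have hY1 : (ε ^ (-c) * y0 n ε) ^ 2 ≤ ε := by
    refine hY2.trans ?_
    conv_rhs => rw [← Real.rpow_one ε]
    exact Real.rpow_le_rpow_of_exponent_ge hε hε1 (by linarith [h.sg00])
  have hG' := h.stepP n m ε _ hn hG hYB hY1 hes hm1 hm2
  refine h.mono _ _ _ hG' (max_le le_rfl ?_)
  calc ε ^ (-sg0) * (ε ^ (-c) * y0 n ε) ^ 2 ≤ ε ^ (-sg0) * ε ^ (2 / g - 2 * c) :=
        mul_le_mul_of_nonneg_left hY2 (Real.rpow_nonneg hε.le _)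
    _ = ε ^ (2 / g - 1 - sg0 - 2 * c) * ε := by
        conv_rhs => rw [← Real.rpow_one ε, ← Real.rpow_mul hε.le, one_mul,
          ← Real.rpow_add hε]
        rw [← Real.rpow_add hε]
        congr 1
        ring
    _ ≤ 1 / 2 * ε := mul_le_mul_of_nonneg_right (h2 ε hε.le hεe) hε.le
    _ = ε / 2 := by ring

/-- **the dichotomy**: arbitrarily late and small states with (A) and NORMAL -/
theorem Dich2.exists (h : Dich2 Gd Nm YB y0 w B b0 sg0 c g a th c1 c' C es N0) {e : ℝ}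
    (he : 0 < e) (N : ℕ) : ∃ n ε, N ≤ n ∧ 0 < ε ∧ ε ≤ e ∧ ε ≤ es ∧ Gd n ε ∧
      (∀ m, n ≤ m → m ≤ n + 2 * w ε → Gd m ε) ∧ y0 n ε ^ g ≤ ε ∧
      Real.log (1 / y0 n ε) ≤ ε ^ (-c1) ∧ Nm n ε := by
  by_contra hcon
  push Not at hcon
  have hB := h.B0
  have hg := h.g0
  have ha := h.a0
  have hb := h.b00
  obtain ⟨e1, he1, ht⟩ := st_small (C := C) h.B0 h.c10 h.cth h.c'0 h.g0 h.a0
  obtain ⟨e2, he2, h2⟩ := h.half
  obtain ⟨ε0, hε0, hE1, hE2, hE3, hE4, hE5, hE6⟩ : ∃ ε0 : ℝ, 0 < ε0 ∧ ε0 ≤ e1 ∧ ε0 ≤ e2 ∧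
      ε0 ≤ es ∧ ε0 ≤ e ∧ ε0 ≤ Real.exp (-(1 / (g * a * b0))) ∧ ε0 ≤ 1 / 2 := by
    refine ⟨min (min (min e1 e2) (min es e)) (Real.exp (-(1 / (g * a * b0)))), ?_, ?_, ?_, ?_, ?_,
      ?_, ?_⟩
    · exact lt_min (lt_min (lt_min he1 he2) (lt_min h.es0 he)) (Real.exp_pos _)
    · exact (min_le_left _ _).trans ((min_le_left _ _).trans (min_le_left _ _))
    · exact (min_le_left _ _).trans ((min_le_left _ _).trans (min_le_right _ _))
    · exact (min_le_left _ _).trans ((min_le_right _ _).trans (min_le_left _ _))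
    · exact (min_le_left _ _).trans ((min_le_right _ _).trans (min_le_right _ _))
    · exact min_le_right _ _
    · exact ((min_le_left _ _).trans ((min_le_right _ _).trans (min_le_left _ _))).trans h.es1
  obtain ⟨n1, hn1⟩ := h.start ε0 hε0 hE3
  have hyev : ∀ᶠ n in atTop, y0 n ε0 ^ g ≤ ε0 := h.yt ε0 hε0 hE3
  obtain ⟨n2, hn2⟩ := eventually_atTop.1 hyev
  obtain ⟨n0, hn0N, hn0N0, hn01, hn02⟩ : ∃ n0, N ≤ n0 ∧ N0 ≤ n0 ∧ n1 ≤ n0 ∧ n2 ≤ n0 :=
    ⟨max (max N N0) (max n1 n2), (le_max_left _ _).trans (le_max_left _ _),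
      (le_max_right _ _).trans (le_max_left _ _), (le_max_left _ _).trans (le_max_right _ _),
      (le_max_right _ _).trans (le_max_right _ _)⟩
  set ee : ℕ → ℝ := fun j => ε0 / 2 ^ j with hee
  set nn : ℕ → ℕ := lvl w ε0 n0 with hnn
  have hnn1 : ∀ j, nn (j + 1) = nn j + w (ee j) := fun j => rfl
  have hee1 : ∀ j, ee (j + 1) = ee j / 2 := fun j => by
    simp only [hee]
    rw [pow_succ]
    field_simp
  have hep : ∀ j, 0 < ee j := fun j => by simp only [hee]; positivity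
  have hel : ∀ j, ee j ≤ ε0 := fun j => by
    simp only [hee]
    exact div_le_self hε0.le (one_le_pow₀ (by norm_num))
  have hge : ∀ j, n0 + j ≤ nn j := by
    intro j
    induction j with
    | zero => exact le_rfl
    | succ j ih =>
      rw [hnn1]
      have := h.w1 (ee j) (hep j) ((hel j).trans hE3)
      omega
  -- logarithms
  have hlog : ∀ j, Real.log (1 / ee (j + 1)) = Real.log (1 / ee j) + Real.log 2 := by
    intro j
    rw [hee1, one_div_div, div_eq_mul_one_div, Real.log_mul two_ne_zero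
      (by have := hep j; positivity)]
    ring
  have hl2 : Real.log 2 ≤ 1 := by
    have := Real.log_two_lt_d9
    linarith
  have hl2' : 1 / 2 ≤ Real.log 2 := by
    have := Real.log_two_gt_d9
    linarith
  have hlpos : ∀ j, 0 ≤ Real.log (1 / ee j) := fun j =>
    Real.log_nonneg (by rw [one_le_div (hep j)]; exact (hel j).trans (by linarith))
  have hlge : ∀ j, 1 / (g * a * b0) ≤ Real.log (1 / ee j) := by
    intro j
    have h3 := Real.log_le_log (hep j) ((hel j).trans hE5)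
    rw [Real.log_exp] at h3
    rw [one_div (ee j), Real.log_inv]
    linarith
  have hlup : ∀ j : ℕ, Real.log (1 / ee j) ≤ Real.log (1 / ε0) + j := by
    intro j
    induction j with
    | zero => simp [hee]
    | succ j ih =>
      rw [hlog]
      push_cast
      linarith
  -- number of levels
  have hcnt : ∀ j, ((nn j : ℕ) : ℝ) - n0 ≤ 2 * B * Real.log (1 / ee j) ^ 2 := by
    intro j
    induction j with
    | zero =>
      have : ((nn 0 : ℕ) : ℝ) = n0 := rfl
      rw [this, sub_self]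
      have := hlpos 0
      positivity
    | succ j ih =>
      have h3 := h.w3 (ee j) (hep j) ((hel j).trans hE3)
      rw [hnn1, hlog]
      push_cast
      have h4 := hlpos j
      have h5 : 0 ≤ (B * Real.log (1 / ee j)) * (4 * Real.log 2 - 1) :=
        mul_nonneg (by positivity) (by linarith)
      have h6 : 0 ≤ 2 * B * Real.log 2 ^ 2 := by positivity
      have h7 : 2 * B * (Real.log (1 / ee j) + Real.log 2) ^ 2 =
          2 * B * Real.log (1 / ee j) ^ 2 + (B * Real.log (1 / ee j)) * (4 * Real.log 2 - 1) +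
            B * Real.log (1 / ee j) + 2 * B * Real.log 2 ^ 2 := by ring
      rw [h7]
      linarith
  -- the invariant
  have key : ∀ j, (∀ m, nn j ≤ m → m ≤ nn j + 2 * w (ee j) → Gd m (ee j)) ∧
      y0 (nn j) (ee j) ^ g ≤ ee j ∧
      a * (((nn j : ℕ) : ℝ) - n0) ≤ Real.log (1 / y0 (nn j) (ee j)) := by
    intro j
    induction j with
    | zero =>
      have e0 : ee 0 = ε0 := by simp [hee]
      have m0 : nn 0 = n0 := rfl
      rw [e0, m0, sub_self, mul_zero]
      have hy := h.y00 n0 ε0 hn0N0 hε0 hE3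
      have hyg := hn2 n0 hn02
      refine ⟨fun m hm _ => hn1 m (hn01.trans hm), hyg, Real.log_nonneg ?_⟩
      rw [one_le_div hy]
      by_contra hlt
      rw [not_le] at hlt
      have := Real.one_lt_rpow hlt hg
      linarith
    | succ j ih =>
      obtain ⟨i0, i2, i3⟩ := ih
      have i1 := i0 (nn j) le_rfl (Nat.le_add_right _ _)
      have hNj : n0 ≤ nn j := (Nat.le_add_right _ _).trans (hge j)
      have hN0j : N0 ≤ nn j := hn0N0.trans hNj
      have hej := hep j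
      have heje : ee j ≤ es := (hel j).trans hE3
      have hej1 : ee j ≤ 1 := (hel j).trans (by linarith)
      have hy := h.y00 (nn j) (ee j) hN0j hej heje
      have hy' := h.y00 (nn (j + 1)) (ee (j + 1))
        (hN0j.trans (by rw [hnn1]; exact Nat.le_add_right _ _)) (hep _) ((hel _).trans hE3)
      -- P half
      have hG' : ∀ m, nn (j + 1) ≤ m → m ≤ nn (j + 1) + 2 * w (ee (j + 1)) →
          Gd m (ee (j + 1)) := by
        intro m
        rw [hnn1, hee1]
        intro hm1 hm2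
        have h3 := h.w2 (ee j) hej heje
        exact h2 (nn j) (ee j) hN0j hej ((hel j).trans hE2) heje i1 i2 m hm1 (by omega)
      -- the activity
      set L : ℝ := Real.log (1 / y0 (nn j) (ee j)) with hL
      set L' : ℝ := Real.log (1 / y0 (nn (j + 1)) (ee (j + 1))) with hL'
      set l : ℝ := Real.log (1 / ee j) with hl
      have hgL : l ≤ g * L := by
        have h3 : Real.log (y0 (nn j) (ee j) ^ g) ≤ Real.log (ee j) :=
          Real.log_le_log (Real.rpow_pos_of_pos hy _) i2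
        rw [Real.log_rpow hy] at h3
        rw [hl, hL, one_div, one_div, Real.log_inv, Real.log_inv]
        linarith
      have hlj := hlpos j
      have hw3 := h.w3 (ee j) hej heje
      have hmain : l + Real.log 2 ≤ g * L' ∧ a * (((nn (j + 1) : ℕ) : ℝ) - n0) ≤ L' := by
        by_cases hA : L ≤ ee j ^ (-c1)
        · have hnN := hcon (nn j) (ee j) (hn0N.trans hNj) hej ((hel j).trans hE4) heje i1 i0 i2 hA
          have h3' : L + a * w (ee j) ≤ L' := by
            have h3 := h.drop (nn j) (ee j) hN0j i1 i2 heje hA hnN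
            rw [hL', hee1, hnn1]
            exact h3
          constructor
          · have h4 := h.w4 (ee j) hej heje
            have h5 : 1 ≤ g * (a * w (ee j)) := by
              have h6 := mul_le_mul_of_nonneg_left (hlge j) (show 0 ≤ g * a * b0 by positivity)
              rw [mul_one_div_cancel (by positivity)] at h6
              have h7 := mul_le_mul_of_nonneg_left h4 (show 0 ≤ g * a by positivity)
              nlinarith
            have h6 := mul_le_mul_of_nonneg_left h3' hg.le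
            nlinarith
          · rw [hnn1]
            push_cast
            have h5 : a * (((nn j : ℕ) : ℝ) + w (ee j) - n0) =
                a * (((nn j : ℕ) : ℝ) - n0) + a * w (ee j) := by ring
            rw [h5]
            linarith
        · rw [not_le] at hA
          have h3' : min (L - 2 * w (ee j)) (c' * ee j ^ (-th)) - C ≤ L' := by
            have h3 := h.reg (nn j) (ee j) hN0j i1 i2 heje hA
            rw [hL', hee1, hnn1]
            exact h3
          obtain ⟨t1, t2, t3⟩ := ht (ee j) hej ((hel j).trans hE1) hej1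
          have h4 : min (ee j ^ (-c1) - 2 * (B * l)) (c' * ee j ^ (-th)) ≤
              min (L - 2 * w (ee j)) (c' * ee j ^ (-th)) :=
            min_le_min (by linarith) le_rfl
          have h5 : ee j ^ (-c1) / 2 ≤ L' := by linarith
          constructor
          · have h6 := mul_le_mul_of_nonneg_left h5 hg.le
            linarith
          · refine le_trans ?_ h5
            refine le_trans ?_ t3
            have h6 := hcnt (j + 1)
            rw [hlog] at h6
            have h7 : 2 * B * (Real.log (1 / ee j) + Real.log 2) ^ 2 ≤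
                2 * B * (l + 1) ^ 2 := by
              apply mul_le_mul_of_nonneg_left _ (by positivity)
              exact pow_le_pow_left₀ (by positivity) (by linarith) 2
            exact mul_le_mul_of_nonneg_left (h6.trans h7) ha.le
      refine ⟨hG', ?_, hmain.2⟩
      have h3 : Real.log (y0 (nn (j + 1)) (ee (j + 1)) ^ g) ≤ Real.log (ee (j + 1)) := by
        rw [Real.log_rpow hy']
        have h4 := hlog j
        have h5 : Real.log (1 / ee (j + 1)) = -Real.log (ee (j + 1)) := by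
          rw [one_div, Real.log_inv]
        have h6 : L' = -Real.log (y0 (nn (j + 1)) (ee (j + 1))) := by
          rw [hL', one_div, Real.log_inv]
        have h7 := hmain.1
        rw [h6] at h7
        linarith
      exact (Real.log_le_log_iff (Real.rpow_pos_of_pos hy' _) (hep _)).1 h3
  -- contradiction
  obtain ⟨D, hD⟩ := h.yl
  obtain ⟨j, hj⟩ := exists_nat_gt ((D + a * n0 + a / 4 * Real.log (1 / ε0)) / (a / 2))
  have h3 := (key j).2.2
  have h4 := hD (nn j) (ee j) (hn0N0.trans ((Nat.le_add_right _ _).trans (hge j))) (hep j)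
    ((hel j).trans hE3)
  have h5 : (j : ℝ) ≤ ((nn j : ℕ) : ℝ) := by
    exact_mod_cast (show j ≤ nn j by have := hge j; omega)
  have h6 : D + a * n0 + a / 4 * Real.log (1 / ε0) < j * (a / 2) := by
    rwa [div_lt_iff₀ (by positivity)] at hj
  have h7 : (j : ℝ) * (a / 2) ≤ ((nn j : ℕ) : ℝ) * (a / 2) :=
    mul_le_mul_of_nonneg_right h5 (by positivity)
  have h8 := mul_le_mul_of_nonneg_left ((hlup j).trans (add_le_add_right h5 _))
    (show 0 ≤ a / 4 by positivity)
  linarith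

/-- **the start of the total state**: from the dichotomy and the start of V at normal states -/
theorem Dich2.start5 {σ c2 cH : ℝ} {u : ℕ → ℝ}
    (h : Dich2 Gd Nm YB y0 w B b0 sg0 c g a th c1 c' C es N0)
    (hV : ∃ e, 0 < e ∧ ∃ N1, ∀ n ε, N1 ≤ n → 0 < ε → ε ≤ e → ε ≤ es →
      (∀ m, n ≤ m → m ≤ n + 2 * w ε → Gd m ε) → y0 n ε ^ g ≤ ε →
      Real.log (1 / y0 n ε) ≤ ε ^ (-c1) → Nm n ε →
      ∃ m ε' z, n ≤ m ∧ ε' ≤ ε ^ (1 / 2 : ℝ) ∧ MS Gd YB VS u c2 m ε' z ∧ z ^ (2 - σ) ≤ ε' ∧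
        Real.log (1 / z) ≤ ε' ^ (-cH)) :
    Start5 (MS Gd YB VS u c2) σ cH := by
  intro e he N
  obtain ⟨e1, he1, N1, hV⟩ := hV
  obtain ⟨n, ε, a1, a2, a3, a4, -, a5, a6, a7, a8⟩ :=
    h.exists (e := min e1 (min (e ^ 2) 1)) (lt_min he1 (lt_min (by positivity) one_pos)) (max N N1)
  obtain ⟨m, ε', z, b1, b2, b3, b4, b5⟩ := hV n ε ((le_max_right _ _).trans a1) a2
    (a3.trans (min_le_left _ _)) a4 a5 a6 a7 a8
  refine ⟨m, ε', z, ((le_max_left _ _).trans a1).trans b1, b2.trans ?_, b3, b4, b5⟩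
  have h1 : ε ≤ e ^ 2 := a3.trans ((min_le_right _ _).trans (min_le_left _ _))
  calc ε ^ (1 / 2 : ℝ) ≤ (e ^ 2) ^ (1 / 2 : ℝ) := Real.rpow_le_rpow a2.le h1 (by norm_num)
    _ = e := by
      rw [← Real.sqrt_eq_rpow, Real.sqrt_sq he.le]

end Vale.Agent.P159.H801
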