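import Vale.Agent.P159.H801.Sharp

/-!
P159 (helper801), MASTER, first part: from the two halves of the step (P half with the zero
background number `y0`, V half with the carried activity `z`) to the contract `Ind5`.
-/

open Filter Topology Finset

namespace Vale.Agent.P159.H801

/-- the total state: P half `Gd`, V half `VS`, `YB n ε Y` = `Y` bounds the zero background numbers
of the tori of level `n` (helper972's `YBn`), `u` = a qualitative bound -/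
structure MS (Gd : ℕ → ℝ → Prop) (YB VS : ℕ → ℝ → ℝ → Prop) (u : ℕ → ℝ) (c : ℝ) (n : ℕ)
    (ε z : ℝ) : Prop where
  P : Gd n ε
  V : VS n ε z
  z0 : 0 < z
  Y : YB n ε (ε ^ (-c) * z)
  up : z ≤ ε ^ (-c) * u n

/-- the two halves of the step -/
structure Halves (Gd : ℕ → ℝ → Prop) (YB VS : ℕ → ℝ → ℝ → Prop) (u x : ℕ → ℝ) (w : ℝ → ℕ)
    (κ B σ sg0 c p p1 v1 es c1 : ℝ) (N0 : ℕ) : Prop where
  κ0 : 0 < κ
  B0 : 0 < B
  σ0 : 0 < σ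
  σ1 : σ ≤ 1 / 4
  sg00 : 0 ≤ sg0
  c0 : 0 ≤ c
  c4 : 4 * c ≤ σ
  sgc : sg0 + 2 * c ≤ σ
  p0 : 0 < p
  pp : 2 * p < (1 - σ) * p1
  pv : p < (1 - σ) * v1
  p11 : p1 ≤ 1
  v11 : v1 ≤ 1
  es0 : 0 < es
  es1 : es ≤ 1 / 2
  c10 : 0 < c1
  w1 : ∀ ε, 0 < ε → ε ≤ es → 1 ≤ w ε
  w2 : ∀ ε ε', 0 < ε → ε / 2 ≤ ε' → ε' ≤ es → w ε' ≤ 2 * w ε
  w3 : ∀ ε, 0 < ε → ε ≤ es → (w ε : ℝ) ≤ B * Real.log (1 / ε)
  mono : ∀ n ε ε', Gd n ε → ε ≤ ε' → Gd n ε'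
  ut : Tendsto u atTop (𝓝 0)
  xt : Tendsto x atTop (𝓝 0)
  stepP : ∀ n m ε Y, N0 ≤ n → Gd n ε → YB n ε Y → Y ^ 2 ≤ ε → ε ≤ es → n + w ε ≤ m →
    m ≤ n + 4 * w ε → Gd m (max (ε / 2) (ε ^ (-sg0) * Y ^ 2))
  low : ∀ n ε Y, N0 ≤ n → Gd n ε → YB n ε Y → Y ^ 2 ≤ ε → ε ≤ es → -(ε ^ p) ≤ x n
  stepX : ∀ n m ε Y, N0 ≤ n → Gd n ε → YB n ε Y → Gd m (max (ε / 2) (ε ^ (-sg0) * Y ^ 2)) →
    Y ^ 2 ≤ ε → ε ≤ es → n + w ε ≤ m → m ≤ n + 4 * w ε → |x m - x n| ≤ ε ^ p1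
  stepV : ∀ n m ε ε' z, N0 ≤ n → MS Gd YB VS u c n ε z → z ^ (2 - σ) ≤ ε → ε ≤ es →
    Real.log (1 / z) ≤ ε ^ (-c1) → n + w ε ≤ m → m ≤ n + 4 * w ε → Gd m ε' →
    max (ε / 2) (z ^ (2 - 2 * σ)) ≤ ε' → ε' ≤ ε ^ (1 - σ) → ε' ≤ es →
    ∃ z', VS m ε' z' ∧ 0 < z' ∧ YB m ε' (ε' ^ (-c) * z') ∧ z' ≤ ε' ^ (-c) * u m ∧
      |Real.log z' - Real.log z + κ * x n * ((m : ℝ) - n)| ≤ ε ^ v1

variable {Gd : ℕ → ℝ → Prop} {YB VS : ℕ → ℝ → ℝ → Prop} {u x : ℕ → ℝ} {w : ℝ → ℕ}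
  {κ B σ sg0 c p p1 v1 es c1 : ℝ} {N0 : ℕ}

/-- numerics of a state: for `y ≤ ε^(-c) z`: `y² ≤ ε` and `ε^(-sg0) y² ≤ z^(2-2σ)` -/
lemma ms_num {ε z y : ℝ} (hσ0 : 0 < σ) (_hσ1 : σ ≤ 1 / 4) (hs0 : 0 ≤ sg0) (hc0 : 0 ≤ c)
    (hc4 : 4 * c ≤ σ) (hsg : sg0 + 2 * c ≤ σ) (hz : 0 < z) (hz1 : z ≤ 1) (hy : 0 ≤ y)
    (hze : z ^ (2 - σ) ≤ ε) (hlo : y ≤ ε ^ (-c) * z) :
    y ^ 2 ≤ ε ∧ ε ^ (-sg0) * y ^ 2 ≤ z ^ (2 - 2 * σ) := by
  have hp : 0 < z ^ (2 - σ) := Real.rpow_pos_of_pos hz _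
  have hε : 0 < ε := hp.trans_le hze
  -- negative powers of `ε` by powers of `z`
  have hneg : ∀ u : ℝ, 0 ≤ u → ε ^ (-u) ≤ z ^ (-((2 - σ) * u)) := by
    intro u hu
    have h1 : ε ^ (-u) ≤ (z ^ (2 - σ)) ^ (-u) :=
      Real.rpow_le_rpow_of_nonpos hp hze (by linarith)
    rw [← Real.rpow_mul hz.le] at h1
    rwa [show (2 - σ) * -u = -((2 - σ) * u) by ring] at h1
  have hy2 : y ^ 2 ≤ ε ^ (-(2 * c)) * z ^ 2 := by
    have h1 : y ^ 2 ≤ (ε ^ (-c) * z) ^ 2 := pow_le_pow_left₀ hy hlo 2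
    have h2 : (ε ^ (-c)) ^ 2 = ε ^ (-(2 * c)) := by
      rw [← Real.rpow_natCast, ← Real.rpow_mul hε.le]
      congr 1
      push_cast
      ring
    rwa [mul_pow, h2] at h1
  have hz2 : z ^ 2 = z ^ (2 : ℝ) := by
    rw [← Real.rpow_natCast]; norm_num
  constructor
  · have h1 : ε ^ (-(2 * c)) * z ^ 2 ≤ z ^ (-((2 - σ) * (2 * c))) * (z ^ σ * ε) := by
      have h2 : z ^ 2 ≤ z ^ σ * ε := by
        have h3 : z ^ 2 = z ^ σ * z ^ (2 - σ) := by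
          rw [hz2, ← Real.rpow_add hz]; congr 1; ring
        rw [h3]
        exact mul_le_mul_of_nonneg_left hze (Real.rpow_nonneg hz.le _)
      exact mul_le_mul (hneg _ (by linarith)) h2 (by positivity) (Real.rpow_nonneg hz.le _)
    have h2 : z ^ (-((2 - σ) * (2 * c))) * (z ^ σ * ε) = z ^ (σ - (2 - σ) * (2 * c)) * ε := by
      rw [← mul_assoc, ← Real.rpow_add hz]
      congr 2
      ring
    have h3 : z ^ (σ - (2 - σ) * (2 * c)) ≤ 1 := by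
      apply Real.rpow_le_one hz.le hz1
      nlinarith
    have h4 := mul_le_mul_of_nonneg_right h3 hε.le
    linarith
  · have h1 : ε ^ (-sg0) * y ^ 2 ≤ z ^ (-((2 - σ) * sg0)) * (z ^ (-((2 - σ) * (2 * c))) * z ^ 2) :=
      mul_le_mul (hneg _ hs0) (hy2.trans (mul_le_mul_of_nonneg_right (hneg _ (by linarith))
        (by positivity))) (by positivity) (Real.rpow_nonneg hz.le _)
    have h2 : z ^ (-((2 - σ) * sg0)) * (z ^ (-((2 - σ) * (2 * c))) * z ^ 2) =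
        z ^ (2 - (2 - σ) * (sg0 + 2 * c)) := by
      rw [hz2, ← Real.rpow_add hz, ← Real.rpow_add hz]
      congr 1
      ring
    rw [h2] at h1
    refine h1.trans (Real.rpow_le_rpow_of_exponent_ge hz hz1 ?_)
    have h3 : (2 - σ) * (sg0 + 2 * c) ≤ 2 * σ := by
      have h4 : 0 ≤ sg0 + 2 * c := by linarith
      nlinarith
    linarith

/-- late states have small activity -/
lemma ms_small (h : Halves Gd YB VS u x w κ B σ sg0 c p p1 v1 es c1 N0) {δ : ℝ} (hδ : 0 < δ) :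
    ∃ N, ∀ n ε z, N ≤ n → MS Gd YB VS u c n ε z → z ^ (2 - σ) ≤ ε → ε ≤ es → z ≤ δ := by
  have hσ1 := h.σ1
  have hc0 := h.c0
  set s : ℝ := 1 + (2 - σ) * c with hs
  have hs0 : 0 < s := by
    have : 0 ≤ (2 - σ) * c := mul_nonneg (by linarith) hc0
    linarith
  obtain ⟨N, hN⟩ := eventually_atTop.1
    (h.ut.eventually (gt_mem_nhds (Real.rpow_pos_of_pos hδ s)))
  refine ⟨N, fun n ε z hn hS hz hes => ?_⟩
  by_contra hlt
  rw [not_le] at hlt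
  have hz0 := hS.z0
  have hp : 0 < z ^ (2 - σ) := Real.rpow_pos_of_pos hz0 _
  have hε : 0 < ε := hp.trans_le hz
  have h1 : ε ^ (-c) ≤ z ^ (-((2 - σ) * c)) := by
    have h2 : ε ^ (-c) ≤ (z ^ (2 - σ)) ^ (-c) :=
      Real.rpow_le_rpow_of_nonpos hp hz (by linarith)
    rw [← Real.rpow_mul hz0.le] at h2
    rwa [show (2 - σ) * -c = -((2 - σ) * c) by ring] at h2
  have hun : 0 ≤ u n := by
    by_contra hneg
    rw [not_le] at hneg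
    have := mul_neg_of_pos_of_neg (Real.rpow_pos_of_pos hε (-c)) hneg
    have := hS.up
    linarith
  have h2 : z ≤ z ^ (-((2 - σ) * c)) * u n :=
    hS.up.trans (mul_le_mul_of_nonneg_right h1 hun)
  have h3 : z ^ s ≤ u n := by
    have h4 := mul_le_mul_of_nonneg_left h2 (Real.rpow_nonneg hz0.le ((2 - σ) * c))
    have h5 : z ^ ((2 - σ) * c) * z = z ^ s := by
      rw [hs, Real.rpow_add hz0, Real.rpow_one]; ring
    have h6 : z ^ ((2 - σ) * c) * (z ^ (-((2 - σ) * c)) * u n) = u n := by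
      rw [← mul_assoc, ← Real.rpow_add hz0, add_neg_cancel, Real.rpow_zero, one_mul]
    rwa [h5, h6] at h4
  have h4 := Real.rpow_le_rpow hδ.le hlt.le hs0.le
  have h5 := hN n hn
  linarith

/-- **the two halves give the contract** -/
theorem Halves.toInd5 (h : Halves Gd YB VS u x w κ B σ sg0 c p p1 v1 es c1 N0) :
    ∃ N1, N0 ≤ N1 ∧ Ind5 (MS Gd YB VS u c) x w κ B σ p p1 v1 es c1 N1 := by
  have hκ := h.κ0
  have hB := h.B0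
  have hσ0 := h.σ0
  have hσ1 := h.σ1
  have hc0 := h.c0
  have hes0 := h.es0
  obtain ⟨N3, hN3⟩ := ms_small h (δ := es) hes0
  -- the common step
  have key : ∀ n m ε z, max N0 N3 ≤ n → MS Gd YB VS u c n ε z → z ^ (2 - σ) ≤ ε →
      ε ≤ es → Real.log (1 / z) ≤ ε ^ (-c1) → n + w ε ≤ m → m ≤ n + 4 * w ε →
      (ε ^ (-c) * z) ^ 2 ≤ ε ∧ Gd m (max (ε / 2) (ε ^ (-sg0) * (ε ^ (-c) * z) ^ 2)) ∧
      ∃ z', MS Gd YB VS u c m (max (ε / 2) (z ^ (2 - 2 * σ))) z' ∧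
        |Real.log z' - Real.log z + κ * x n * ((m : ℝ) - n)| ≤ ε ^ v1 := by
    intro n m ε z hn hS hz hes hv a1 a2
    have hn0 : N0 ≤ n := (le_max_left _ _).trans hn
    have hn3 : N3 ≤ n := (le_max_right _ _).trans hn
    have hz0 := hS.z0
    have hε : 0 < ε := lt_of_lt_of_le (Real.rpow_pos_of_pos hz0 _) hz
    have hε1 : ε ≤ 1 := hes.trans (h.es1.trans (by norm_num))
    obtain ⟨hz1, hz2⟩ := sq_le_of_sg hσ0 hσ1 hz0 hz hε1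
    have hzs := hN3 n ε z hn3 hS hz hes
    obtain ⟨b1, b2⟩ := ms_num hσ0 hσ1 h.sg00 hc0 h.c4 h.sgc hz0 hz1
      (mul_nonneg (Real.rpow_nonneg hε.le _) hz0.le) hz le_rfl
    have g1 := h.stepP n m ε _ hn0 hS.P hS.Y b1 hes a1 a2
    have g2 : Gd m (max (ε / 2) (z ^ (2 - 2 * σ))) :=
      h.mono _ _ _ g1 (max_le_max le_rfl b2)
    have g3 : max (ε / 2) (z ^ (2 - 2 * σ)) ≤ ε ^ (1 - σ) := by
      refine max_le ?_ ?_
      · have h7 : ε ^ (1 : ℝ) ≤ ε ^ (1 - σ) :=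
          Real.rpow_le_rpow_of_exponent_ge hε hε1 (by linarith)
        rw [Real.rpow_one] at h7
        linarith
      · have h6 : (z ^ 2) ^ (1 - σ) = z ^ (2 - 2 * σ) := by
          rw [← Real.rpow_natCast, ← Real.rpow_mul hz0.le]
          congr 1
          push_cast
          ring
        rw [← h6]
        exact Real.rpow_le_rpow (by positivity) hz2 (by linarith)
    have g4 : max (ε / 2) (z ^ (2 - 2 * σ)) ≤ es := by
      refine max_le (by linarith) ?_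
      calc z ^ (2 - 2 * σ) ≤ z ^ (1 : ℝ) :=
            Real.rpow_le_rpow_of_exponent_ge hz0 hz1 (by linarith)
        _ = z := Real.rpow_one _
        _ ≤ es := hzs
    obtain ⟨z', c1', c2', c3', c4', c5'⟩ := h.stepV n m ε _ z hn0 hS hz hes hv a1 a2 g2 le_rfl g3 g4
    exact ⟨b1, g1, z', ⟨g2, c1', c2', c3', c4'⟩, c5'⟩
  refine ⟨max N0 N3, le_max_left _ _,
    { κ0 := h.κ0, B0 := h.B0, σ0 := h.σ0, σ1 := h.σ1, p0 := h.p0, pp := h.pp, pv := h.pv,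
      p11 := h.p11, v11 := h.v11, es0 := h.es0, es1 := h.es1, c10 := h.c10,
      w1 := h.w1, w2 := h.w2, w3 := h.w3,
      y0 := fun n ε y _ hS => hS.z0
      ysm := fun δ hδ => ms_small h hδ
      low := ?_, stepX := ?_, stepS := ?_ }⟩
  · intro n ε z hn hS hz hes hv
    have hn0 : N0 ≤ n := (le_max_left _ _).trans hn
    have hε1 : ε ≤ 1 := hes.trans (h.es1.trans (by norm_num))
    have hε : 0 < ε := lt_of_lt_of_le (Real.rpow_pos_of_pos hS.z0 _) hz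
    obtain ⟨hz1, -⟩ := sq_le_of_sg hσ0 hσ1 hS.z0 hz hε1
    exact h.low n ε _ hn0 hS.P hS.Y (ms_num hσ0 hσ1 h.sg00 hc0 h.c4 h.sgc hS.z0 hz1
      (mul_nonneg (Real.rpow_nonneg hε.le _) hS.z0.le) hz le_rfl).1 hes
  · intro n m ε z hn hS hz hes hv a1 a2
    obtain ⟨k1, k2, -⟩ := key n m ε z hn hS hz hes hv a1 a2
    exact h.stepX n m ε _ ((le_max_left _ _).trans hn) hS.P hS.Y k2 k1 hes a1 a2
  · intro n m ε z hn hS hz hes hv a1 a2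
    exact (key n m ε z hn hS hz hes hv a1 a2).2.2

/-- **MASTER, T-part**: the halves, the start and the sharp relation give T3 -/
theorem Halves.T3 {A q2 : ℝ} {Sl : ℕ → ℝ → ℝ → ℝ → Prop}
    (h : Halves Gd YB VS u x w κ B σ sg0 c p p1 v1 es c1 N0)
    (st : Start5 (MS Gd YB VS u c) σ c1)
    (h1 : 1 < (2 - 3 * σ) * p1) (h2 : 1 < (2 - 3 * σ) * v1) (hA : 0 < A)
    (hP : SLP (MS Gd YB VS u c) x w σ es c1 A q2 N0 Sl) :
    ∃ (y ε xs : ℕ → ℝ) (c' r q : ℝ) (N : ℕ), N0 ≤ N ∧ Fl x y κ c' r q N ∧ 1 < r ∧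
      T3 xs y κ c' r q (2 * B) A (fun n => w (ε n)) N ∧
      (∀ n, N ≤ n → |xs n - x n| ≤ y n ^ q2) ∧ (∀ n, N ≤ n → Sl n (ε n) (y n) (xs n)) ∧
      ∀ n, N ≤ n → Hst (MS Gd YB VS u c) σ es c1 N0 n (ε n) (y n) ∧ y n ≤ 1 := by
  obtain ⟨N1, hN1, hI⟩ := h.toInd5
  have hP' : SLP (MS Gd YB VS u c) x w σ es c1 A q2 N1 Sl := by
    have hup : ∀ n ε y, Hst (MS Gd YB VS u c) σ es c1 N1 n ε y →
        Hst (MS Gd YB VS u c) σ es c1 N0 n ε y := fun n ε y H =>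
      ⟨hN1.trans H.hN, H.hS, H.sg, H.he, H.sh, H.hv⟩
    refine ⟨hP.q21, ?_, ?_, ?_⟩
    · obtain ⟨e, he, hh⟩ := hP.ex
      exact ⟨e, he, fun n ε y H => hh n ε y (hup _ _ _ H)⟩
    · obtain ⟨e, he, hh⟩ := hP.near
      exact ⟨e, he, fun n ε y s H => hh n ε y s (hup _ _ _ H)⟩
    · intro η hη
      obtain ⟨e, he, hh⟩ := hP.P η hη
      exact ⟨e, he, fun n m ε ε' y y' s s' H H' => hh n m ε ε' y y' s s' (hup _ _ _ H)
        (hup _ _ _ H')⟩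
  obtain ⟨y, ε, xs, c', r, q, N, a1, a2, a3, a4, a5, a6, a7⟩ :=
    T3_of_sl hI st h.xt h1 h2 hA hP'
  refine ⟨y, ε, xs, c', r, q, N, hN1.trans a1, a2, a3, a4, a5, a6, fun n hn => ?_⟩
  obtain ⟨H, b⟩ := a7 n hn
  exact ⟨⟨hN1.trans H.hN, H.hS, H.sg, H.he, H.sh, H.hv⟩, b⟩

end Vale.Agent.P159.H801
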