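import Vale.Agent.P159.H801.Plus2
import Vale.Agent.P159.H846.Ev3

/-!
P159 (helper801), MASTER with two sets of parameters: the state `SS` seen by the sharp relation, the
inputs `VIn2`, the flow `SFlow` (of `P` only) from them, and the combination of the families.
-/

open Filter Topology Finset

namespace Vale.Agent.P159.H801

open Vale.Agent.P159.H972 (Par Good GP YBn StepP' StartP tn Par.Adm)
open Vale.Agent.P159.H264 (kap)
open Vale.Agent.P159.H846.Two (Ev2 PQ)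

/-- the exponents with a smaller `c` -/
lemma Exps.c_mono {σ sg c c' p p1 v1 : ℝ} (h : Exps σ sg c p p1 v1) (h0 : 0 ≤ c') (h1 : c' ≤ c) :
    Exps σ sg c' p p1 v1 where
  σ0 := h.σ0
  σ1 := h.σ1
  sg0 := h.sg0
  c0 := h0
  c4 := by linarith [h.c4]
  sgc := by linarith [h.sgc]
  p0 := h.p0
  pp := h.pp
  pv := h.pv
  p11 := h.p11
  v11 := h.v11
  h1 := h.h1
  h2 := h.h2

/-- **a state of the sharp relation** with two sets of parameters -/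
structure SS (P P' : Par) (b : ℝ) (VS : ℕ → ℝ → ℝ → Prop) (u : ℕ → ℝ) (c σ σ2 c1 : ℝ) (n : ℕ)
    (ε y : ℝ) : Prop where
  ms : MS (Good P b) (YBn P b) VS u c n ε y
  lo : y ^ (2 - σ) ≤ ε
  up : ε ≤ y ^ (2 - 3 * σ)
  es : ε ≤ P.es
  hv : Real.log (1 / y) ≤ ε ^ (-c1)
  y1 : y ≤ 1
  /-- the state of the second parameter, sharp size -/
  good' : Good P' b n (y ^ (2 - 3 * σ2))
  yb' : YBn P' b n (y ^ (2 - 3 * σ2)) (ε ^ (-c) * y)
  Y2' : (ε ^ (-c) * y) ^ 2 ≤ y ^ (2 - 3 * σ2)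
  es' : y ^ (2 - 3 * σ2) ≤ P'.es

/-- the conditions on the two sets of parameters -/
structure Cnd (P P' : Par) (c σ σ2 sg' : ℝ) : Prop where
  th : P.th ≤ P'.th
  th2 : P.th ≤ 1 / 2
  thp : 8 * P'.thp ≤ P.thp
  es : P'.es ≤ P.es
  sg0 : 0 ≤ sg'
  c0 : 0 ≤ c
  σ0 : 0 < σ
  σ1 : σ ≤ 1 / 4
  s0 : 0 < σ2
  s1 : σ2 ≤ 1 / 4
  hx : 32 * P.thp + 4 * c + 2 * sg' < 2 * σ2

/-- the states of `SP` are states of the sharp relation -/
lemma ss_of {P P' : Par} {b c σ σ2 sg' c1 : ℝ} {VS : ℕ → ℝ → ℝ → Prop} {u : ℕ → ℝ} {N0 : ℕ}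
    (hb : 0 < b) (h : Cnd P P' c σ σ2 sg') : ∃ e, 0 < e ∧ ∀ n ε y, y ≤ e →
      Hst (SP (MS (Good P b) (YBn P b) VS u c) (Good P' b) σ σ2) σ P.es c1 N0 n ε y →
      SS P P' b VS u c σ σ2 c1 n ε y := by
  have hs0 := h.s0
  have hs1 := h.s1
  have hσ0 := h.σ0
  have hσ1 := h.σ1
  have hc0 := h.c0
  have hsg0 := h.sg0
  have hthp0 := P.thp0
  obtain ⟨d, hd, hpow⟩ := small_pow (a := 2 * σ2 - 32 * P.thp - 4 * c - 2 * sg')
    (c := 1 / 65536) (by linarith [h.hx]) (by norm_num)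
  obtain ⟨d2, hd2, hpow2⟩ := small_pow (a := 2 - 3 * σ2) (c := P'.es) (by linarith) P'.es0
  refine ⟨min (min d d2) 1, by positivity, fun n ε y hye hH => ?_⟩
  have hS := hH.hS.1.1
  have hup := hH.hS.1.2
  have hy := hS.z0
  have hy1 : y ≤ 1 := hye.trans (min_le_right _ _)
  have hyd : y ≤ d := hye.trans ((min_le_left _ _).trans (min_le_left _ _))
  have hyd2 : y ≤ d2 := hye.trans ((min_le_left _ _).trans (min_le_right _ _))
  have hp := hpow y hy.le hyd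
  have hε : 0 < ε := (Real.rpow_pos_of_pos hy _).trans_le hH.sg
  have hP : 0 < y ^ (2 - 3 * σ2) := Real.rpow_pos_of_pos hy _
  obtain ⟨a1, a2, a3⟩ := snd_num (P := P) (P' := P') (e := y ^ (2 - 3 * σ2)) h.thp h.sg0 h.c0
    h.σ0 h.σ1 h.s0 hy hy1 hH.sg hup le_rfl (by
      rw [le_div_iff₀ (by norm_num)] at hp
      linarith)
  have h5 : y ^ (2 - 2 * σ2) ≤ y ^ (2 - 3 * σ2) :=
    Real.rpow_le_rpow_of_exponent_ge hy hy1 (by linarith)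
  have hP1 : y ^ (2 - 3 * σ2) ≤ 1 := Real.rpow_le_one hy.le hy1 (by linarith)
  refine ⟨hS, hH.sg, hup, hH.he, hH.hv, hy1, hH.hS.2, ?_, ?_, hpow2 y hy.le hyd2⟩
  · have h6 := ybn_shift hb h.th h.th2 h.es hH.he a1 hS.Y 0 hP
    simpa using h6
  · refine le_trans ?_ (a3.trans h5)
    have h6 : 1 ≤ (y ^ (2 - 3 * σ2)) ^ (-sg') :=
      Real.one_le_rpow_of_pos_of_le_one_of_nonpos hP hP1 (by linarith)
    have h7 : (1 : ℝ) ≤ 4 ^ (4 * P.w ε) := one_le_pow₀ (by norm_num)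
    have h8 : 0 ≤ ε ^ (-c) * y := mul_nonneg (Real.rpow_nonneg hε.le _) hy.le
    have h9 : (ε ^ (-c) * y) ^ 2 ≤ (4 ^ (4 * P.w ε) * (ε ^ (-c) * y)) ^ 2 := by
      apply pow_le_pow_left₀ h8
      nlinarith
    have h10 := mul_le_mul h6 h9 (sq_nonneg _) (by linarith)
    rwa [one_mul] at h10

/-- the inputs of the V half and of the sharp relation, for one stiffness function -/
structure VIn2 (P P' : Par) (b : ℝ) (VS : ℕ → ℝ → ℝ → Prop) (u a : ℕ → ℝ)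
    (c σ σ2 v1 c1 A q2 qx : ℝ) (Sl : ℕ → ℝ → ℝ → ℝ → Prop) : Prop where
  ut : Tendsto u atTop (𝓝 0)
  step : ∀ᶠ N in atTop, VStep P b VS u a c σ v1 c1 N
  start : Start5 (MS (Good P b) (YBn P b) VS u c) σ c1
  A0 : 0 < A
  sl : ∀ᶠ N in atTop, SLP7 (SP (MS (Good P b) (YBn P b) VS u c) (Good P' b) σ σ2) (xa a) P.w σ
    P.es c1 A q2 qx N Sl

/-- **the sharp relation from its statement at the states `SS`** -/
theorem slp_of_ss {P P' : Par} {b c σ σ2 sg' c1 A q2 qx : ℝ} {VS : ℕ → ℝ → ℝ → Prop}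
    {u x : ℕ → ℝ} {w : ℝ → ℕ} {N0 : ℕ} {Sl : ℕ → ℝ → ℝ → ℝ → Prop} (hb : 0 < b)
    (h : Cnd P P' c σ σ2 sg') (hq2 : 1 < q2)
    (ex : ∃ e, 0 < e ∧ ∀ n ε y, N0 ≤ n → SS P P' b VS u c σ σ2 c1 n ε y → y ≤ e →
      |x n| ≤ y ^ qx → ∃ s, Sl n ε y s)
    (near : ∃ e, 0 < e ∧ ∀ n ε y s, N0 ≤ n → SS P P' b VS u c σ σ2 c1 n ε y → y ≤ e →
      |x n| ≤ y ^ qx → Sl n ε y s → |s - x n| ≤ y ^ q2)
    (hP : ∀ η, 0 < η → ∃ e, 0 < e ∧ ∃ δ, 0 < δ ∧ ∀ n m ε ε' y y' s s', N0 ≤ n →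
      SS P P' b VS u c σ σ2 c1 n ε y → SS P P' b VS u c σ σ2 c1 m ε' y' → m = n + w ε →
      y ≤ e → y' ≤ e → |x n| ≤ y ^ qx → |x m| ≤ y' ^ qx → |Real.log y' - Real.log y| ≤ δ →
      Sl n ε y s → Sl m ε' y' s' → |s - s' - A * (w ε * y ^ 2)| ≤ η * (w ε * y ^ 2)) :
    SLP7 (SP (MS (Good P b) (YBn P b) VS u c) (Good P' b) σ σ2) x w σ P.es c1 A q2 qx N0 Sl := by
  obtain ⟨e0, he0, hss⟩ := ss_of (VS := VS) (u := u) (c1 := c1) (N0 := N0) hb h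
  refine ⟨hq2, ?_, ?_, ?_⟩
  · obtain ⟨e, he, H⟩ := ex
    exact ⟨min e e0, lt_min he he0, fun n ε y hH hy => H n ε y hH.hN
      (hss n ε y (hy.trans (min_le_right _ _)) hH) (hy.trans (min_le_left _ _))⟩
  · obtain ⟨e, he, H⟩ := near
    exact ⟨min e e0, lt_min he he0, fun n ε y s hH hy => H n ε y s hH.hN
      (hss n ε y (hy.trans (min_le_right _ _)) hH) (hy.trans (min_le_left _ _))⟩
  · intro η hη
    obtain ⟨e, he, δ, hδ, H⟩ := hP η hη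
    exact ⟨min e e0, lt_min he he0, δ, hδ, fun n m ε ε' y y' s s' hH hH' hm hy hy' =>
      H n m ε ε' y y' s s' hH.hN (hss n ε y (hy.trans (min_le_right _ _)) hH)
        (hss m ε' y' (hy'.trans (min_le_right _ _)) hH') hm (hy.trans (min_le_left _ _))
        (hy'.trans (min_le_left _ _))⟩

/-- **MASTER with all inputs** (one pair `P`, `P'`) -/
theorem sflow_of2 {P P' : Par} {b σ σ2 sg sg' c p p1 p2 v1 qx c1 : ℝ} {N0 : ℕ}
    (hb : 0 < b) (hE : Exps σ sg c p p1 v1)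
    (hpf : p1 < (1 - sg) * P.pf) (hp2 : p1 < p2) (hqx0 : 0 < qx) (hqx : qx ≤ (2 - 4 * σ) * p)
    (hP : PIn P b sg p2 N0) (hc1 : 0 < c1) (hC : Cnd P P' c σ σ2 sg')
    (hst : StartP P' b) (hstep : ∀ᶠ N0 in atTop, StepP' P' b sg' N0)
    (hV : ∀ a : ℕ → ℝ, FLC P b a → Tendsto a atTop (𝓝 (Real.pi / 2)) → ∃ VS u A q2 Sl,
      VIn2 P P' b VS u a c σ σ2 v1 c1 A q2 qx Sl) :
    ∃ (q2 : ℝ) (a y ε xs : ℕ → ℝ) (c' r q A : ℝ) (N : ℕ),
      SFlow P b σ c c1 q2 qx a y ε xs c' r q A N := by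
  have hsg1 : sg < 1 := by
    have h1 := hE.sgc
    have h2 := hE.σ1
    have h3 := hE.c0
    linarith
  obtain ⟨a, ha1, ha2, ha3, N1, hN1, ha4, hX⟩ := hP.stiff hE.sg0 hsg1 hE.p10 hpf hp2
  obtain ⟨VS, u, A, q2, Sl, V⟩ := hV a ha1 ha2
  obtain ⟨N3, hN3⟩ := eventually_atTop.1 (V.step.and V.sl)
  set N2 : ℕ := max N1 N3 with hN2d
  have hN2 : N1 ≤ N2 := le_max_left _ _
  obtain ⟨hs1, hs2⟩ := hN3 N2 (le_max_right _ _)
  have hH := halves6_of hE hP (hN1.trans hN2) V.ut ha3 hc1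
    (fun n m ε Y hn => hX n m ε Y (hN2.trans hn)) hs1
  have hG : Snd (Good P' b) (MS (Good P b) (YBn P b) VS u c) P.w σ σ2 P.es c1 P'.es :=
    snd_of hb hC.th hC.th2 hC.thp hC.es hC.sg0 hC.c0 hC.σ0 hC.σ1 hC.s0 hC.s1 hC.hx hst hstep
  obtain ⟨N4, hN4, hI⟩ := hH.toInd6
  obtain ⟨y, ε, xs, c', r, q, N, b1, b2, b3, b4, b5, b6, -, b8⟩ :=
    T3_plus hI V.start ha3 hG hE.h1 hE.h2 V.A0 hqx0 hqx (hs2.mono hN4)
  refine ⟨q2, a, y, ε, xs, c', r, q, A, N, ⟨ha1, ha2,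
    fun n hn => ha4 n (((hN2.trans hN4).trans b1).trans hn),
    V.A0, hs2.q21, b2, b3, b4, b5, b6, ?_, ?_, ?_, ?_, ?_, ?_, ?_⟩⟩
  · exact fun n hn => (b8 n hn).1.hS.1.1.P
  · exact fun n hn => (b8 n hn).1.hS.1.1.Y
  · exact fun n hn => (b8 n hn).1.sg
  · exact fun n hn => (b8 n hn).2.1
  · exact fun n hn => (b8 n hn).1.he
  · exact fun n hn => (b8 n hn).1.hv
  · exact fun n hn => (b8 n hn).2.2

/-- a larger `c` in the flow -/
lemma SFlow.c_mono {P : Par} {b σ c c0 c1 q2 qx : ℝ} {a y ε xs : ℕ → ℝ} {c' r q A : ℝ} {N : ℕ}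
    (h : SFlow P b σ c c1 q2 qx a y ε xs c' r q A N) (hc : c ≤ c0) :
    SFlow P b σ c0 c1 q2 qx a y ε xs c' r q A N := by
  refine ⟨h.flc, h.lim, h.a1, h.A0, h.q21, h.fl, h.r1, h.t3, h.near, h.xq, h.good,
    fun n hn => ybn_mono (h.yb n hn) ?_, h.lo, h.up, h.es, h.hv, h.y1⟩
  have hy := h.fl.y0 n
  have hε : 0 < ε n := (Real.rpow_pos_of_pos hy _).trans_le (h.lo n hn)
  have hε1 : ε n ≤ 1 := (h.es n hn).trans (P.es1.trans (by norm_num))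
  exact mul_le_mul_of_nonneg_right
    (Real.rpow_le_rpow_of_exponent_ge hε hε1 (by linarith)) hy.le

/-- **MASTER in the order of constants, two sets of parameters** -/
theorem master_ev2 {b b1 b2 pf σ sg c p p1 p2 v1 qx : ℝ} {Q : ℕ} {Z : Prop} (hb : 0 < b)
    (hE : Exps σ sg c p p1 v1) (hsg : 0 < sg) (hc : 0 < c) (hpf0 : 0 < pf) (hpf1 : pf ≤ 1)
    (hpf : p1 < (1 - sg) * pf) (hp2 : p1 < p2) (hqx0 : 0 < qx) (hqx : qx ≤ (2 - 4 * σ) * p)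
    (hP : ∀ s, 0 < s → s ≤ sg → Ev b1 b2 pf Q fun P _ => ∀ᶠ N0 in atTop, PIn P b s p2 N0)
    (hV : Ev2 b1 b2 pf Q fun P P' c1 => ∀ a : ℕ → ℝ, FLC P b a →
      Tendsto a atTop (𝓝 (Real.pi / 2)) → ∃ VS u A q2 Sl,
        VIn2 P P' b VS u a (P.x1 / 100) σ (P.x1 / 30) v1 c1 A q2 qx Sl)
    (hS : Ev b1 b2 pf Q fun P c1 => ∀ (q2 : ℝ) (a y ε xs : ℕ → ℝ) (c' r q A : ℝ) (N : ℕ),
      SFlow P b σ c c1 q2 qx a y ε xs c' r q A N → Z) : Z := by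
  have e1 := H846.Two.Ev.to2 (hP sg hsg le_rfl)
  have e2 := H846.Two.Ev.to2'_le (F := fun s P _ => ∀ᶠ N0 in atTop, PIn P b s p2 N0) hsg hP
  have e3 := H846.Two.Ev2.x1_le (b1 := b1) (b2 := b2) (pf := pf) (Q := Q) (r := min (100 * c) 1)
    (g := fun x => x) (lt_min (by linarith) one_pos) (fun x hx => hx)
  have e4 := H846.Two.Ev2.order (b1 := b1) (b2 := b2) (pf := pf) (Q := Q)
    (g1 := fun x _ => x / 5000) (g2 := fun _ => 1 / 2) (g3 := fun _ => 0) (g4 := fun _ => 1)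
    (g5 := fun _ _ => 1) (fun x _ hx _ => by positivity) (fun _ _ => by norm_num)
    (fun _ _ => one_pos) (fun _ _ _ _ => one_pos)
  obtain ⟨P, P', c1, hQ, hc1, ⟨⟨⟨⟨h1, h2⟩, h3⟩, h4⟩, h5⟩, h6⟩ :=
    (((((e1.and e2).and e3).and e4).and hV).and (H846.Two.Ev.to2 hS)).exists hpf0 hpf1
  obtain ⟨N0, hN0⟩ := h1.exists
  have hx1 := hQ.x1
  obtain ⟨h7, -⟩ := h3
  obtain ⟨h8, h9, -⟩ := h4
  have h10 := h7.trans (min_le_left _ _)
  have h11 := h7.trans (min_le_right _ _)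
  have hthp0 := P.thp0
  obtain ⟨q2, a, y, ε, xs, c', r, q, A, N, h⟩ := sflow_of2 (P := P) (P' := P') (σ2 := P.x1 / 30)
    (sg' := P.x1 / 100) hb (hE.c_mono (c' := P.x1 / 100) (by positivity) (by linarith))
    (by rw [hQ.epf]; exact hpf) hp2 hqx0 hqx hN0 hc1
    ⟨hQ.th.ge, h9, by rw [hQ.thp]; linarith, hQ.es, by positivity, by positivity, hE.σ0, hE.σ1,
      by positivity, by linarith, by linarith⟩
    (let ⟨_, h⟩ := h2.exists; h.start) (h2.mono fun _ h => h.step) h5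
  exact h6 q2 a y ε xs c' r q A N (h.c_mono (by linarith))

end Vale.Agent.P159.H801
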