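import Vale.Agent.P159.H801.Plus3
import Vale.Agent.P159.H239.PUpI
import Vale.Agent.P159.TM.Frame.T1

/-!
P159 (helper801): **the final glue at the critical point**, for an arbitrary conclusion `Z` of the
flow: the P half is supplied, the only input is the family of the V half with the sharp relation.
-/

open Filter Topology Finset

namespace Vale.Agent.P159.H801

open Vale.Agent.P159.H972 (Par)
open Vale.Agent.P159.H846.Two (Ev2)

/-- the family of the V half and the sharp relation, numbers of the final instance -/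
def VFam (b1 b2 qx : ℝ) (Q : ℕ) : Prop :=
  Ev2 b1 b2 (9 / 10) Q fun P P' c1 => ∀ a : ℕ → ℝ, FLC P bCrit a →
    Tendsto a atTop (𝓝 (Real.pi / 2)) → ∃ VS u A q2 Sl,
      VIn2 P P' bCrit VS u a (P.x1 / 100) (1 / 20) (P.x1 / 30) (17 / 20) c1 A q2 qx Sl

/-- **every consequence of the flow holds**, given the family of the V half; the exponent `c` of
the vortex bound of the flow is as small as wanted -/
theorem final_z {b1 b2 qx c : ℝ} {Q : ℕ} {Z : Prop} (hb1 : 0 < b1) (h1 : b1 ≤ bCrit)
    (h2 : bCrit ≤ b2) (hqx0 : 0 < qx) (hqx : qx ≤ 18 / 25) (hc : 0 < c) (hc1 : c ≤ 1 / 80)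
    (hV : VFam b1 b2 qx Q)
    (hZ : Ev b1 b2 (9 / 10) Q fun P c1 =>
      ∀ (q2 : ℝ) (a y ε xs : ℕ → ℝ) (c' r q A : ℝ) (N : ℕ),
        SFlow P bCrit (1 / 20) c c1 q2 qx a y ε xs c' r q A N → Z) : Z := by
  have hY : helicity bCrit = 2 / Real.pi := Vale.Agent.P159.TM.Frame.T1
  exact master_ev2 (p := 2 / 5) (p1 := 17 / 20) (p2 := 9 / 10) (qx := qx) (hb1.trans_le h1)
    (exps_std.c_mono hc.le hc1) (by norm_num) hc (by norm_num) (by norm_num) (by norm_num)
    (by norm_num) hqx0 (by norm_num; linarith) (fun s hs0 hs => H239.ev_PIn hb1 hY h1 h2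
      (p1 := 17 / 20) (by norm_num) (by nlinarith) hs0 (by linarith) (by norm_num) (by norm_num)
      (by norm_num) (by norm_num) Q) hV hZ

end Vale.Agent.P159.H801
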