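import Vale.Agent.P159.H730.Vhh
import Vale.Agent.P159.H145.Spf
import Vale.Agent.P159.H692.LkFz

/-!
P159 (helper801): **the first question from the four remaining fields of S** (`cut`, `pla`, `mem`,
`st`: helper145's `RestF`); the V half is in.
-/

open Filter Topology Finset

namespace Vale.Agent.P159.H801

open Vale.Agent.P159.H972 (Par)
open Vale.Agent.P159.TM.Spec (V)
open Vale.Agent.P159.H770 (Ed)
open Vale.Agent.P159.H773 (sd)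
open Vale.Agent.P159.H145.Sp (AxP Four RestF spairs_of)

/-- **the V half at the critical point** -/
theorem vhalf_crit {b1 b2 : ℝ} (hb1 : 0 < b1) (h1 : b1 ≤ bCrit) (h2 : bCrit ≤ b2) (Q : ℕ) :
    VHalf b1 b2 1 Q :=
  H730.vhalf_b hb1 h1 h2 Vale.Agent.P159.TM.Frame.T1 Q

/-- **every consequence of the flow**, no hypothesis left -/
theorem vfam_all {b1 b2 qx : ℝ} (hb1 : 0 < b1) (h1 : b1 ≤ bCrit) (h2 : bCrit ≤ b2)
    (hqx : 0 < qx) (Q : ℕ) : VFam b1 b2 qx Q :=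
  vfam_crit hb1 h1 h2 hqx (vhalf_crit hb1 h1 h2 Q)

/-- the four remaining fields of the static half, family form -/
def SRest (b1 b2 qx β c : ℝ) (Q Am : ℕ) : Prop :=
  Ev b1 b2 (9 / 10) Q fun P c1 => ∀ (q2 : ℝ) (a y ε xs : ℕ → ℝ) (c' r q A : ℝ) (N : ℕ),
    SFlow P bCrit (1 / 20) c c1 q2 qx a y ε xs c' r q A N →
    ∃ c4 : ℝ, 0 < c4 ∧ ∀ A0 C2 : ℝ, 8 ≤ A0 → 1 ≤ C2 → ∃ i1 : ℕ, ∀ i, i1 ≤ i → A0 ≤ 2 ^ i →
      ∀ (η : ∀ R, Ed (sd i R) → ℤ) (φ : ∀ R, V (sd i R) → ℝ), AxP i η φ →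
      Four P bCrit β C2 A0 Am i c1 a y ε η φ →
      RestF P bCrit β C2 A0 Am i c1 c4 a y ε η φ

/-- **QUESTION 1 from the four remaining fields** -/
theorem q1_of_rest {b1 b2 qx β c : ℝ} {Q Am : ℕ} (hb1 : 0 < b1) (h1 : b1 ≤ bCrit)
    (h2 : bCrit ≤ b2) (hqx : 0 < qx) (hqx1 : qx ≤ 18 / 25) (hc : 0 < c) (hc1 : c ≤ 1 / 80)
    (hβ : 1 / 4 < β) (hβ2 : β < 1 / 2) (hAm : 1 ≤ Am) (H : SRest b1 b2 qx β c Q Am) : Q1 :=
  q1_of_pairs hb1 h1 h2 hqx hqx1 hβ (by linarith) hAm (vhalf_crit hb1 h1 h2 Q)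
    (spairs_of hb1 h1 (H692.lkS_crit hb1 h1 h2 hqx hqx1 (vfam_all hb1 h1 h2 hqx Q)) hc hc1 hβ.le
      hβ2 hAm H)

end Vale.Agent.P159.H801
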