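import Mathlib.Analysis.SpecialFunctions.Log.Basic
import Mathlib.Analysis.SpecialFunctions.Pow.Real
import Mathlib.Analysis.SpecialFunctions.Log.Deriv
import Mathlib.Analysis.SpecificLimits.Basic
import Mathlib.Topology.Algebra.InfiniteSum.Real

/-!
P159 (helper801), module CLOSE: the scalar induction on top of the massive scheme.

`Good n ε`: all a priori bounds at the scale `2^n` hold with the small parameter `ε`.  One step goes
from the scale `n` to every scale `m ∈ [n + w, n + 4 w]`, `w = w ε`, and replaces `ε` by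
`max (ε/2) (ε^(-σ) y_n²)`.  At the critical point (`x n → 0`, `y n → 0`) the conclusion is
`ε ≤ y_n^(2 - 3σ)` and `|x n| ≤ ε^p` for all large `n`.
-/

open Filter Topology Finset

namespace Vale.Agent.P159.H801

/-- data of the scalar induction -/
structure Ind (Good : ℕ → ℝ → Prop) (x y : ℕ → ℝ) (w : ℝ → ℕ) (κ B σ p p1 v1 es : ℝ)
    (N0 : ℕ) : Prop where
  κ0 : 0 < κ
  B0 : 0 < B
  σ0 : 0 < σ
  σ1 : σ ≤ 1 / 4
  p0 : 0 < p
  pp : 2 * p < (1 - σ) * p1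
  pv : p < (1 - σ) * v1
  p11 : p1 ≤ 1
  v11 : v1 ≤ 1
  es0 : 0 < es
  es1 : es ≤ 1 / 2
  w1 : ∀ ε, 0 < ε → ε ≤ es → 1 ≤ w ε
  w2 : ∀ ε ε', 0 < ε → ε / 2 ≤ ε' → ε' ≤ es → w ε' ≤ 2 * w ε
  w3 : ∀ ε, 0 < ε → ε ≤ es → (w ε : ℝ) ≤ B * Real.log (1 / ε)
  y0 : ∀ n, N0 ≤ n → 0 < y n
  mono : ∀ n ε ε', Good n ε → ε ≤ ε' → Good n ε'
  low : ∀ n ε, N0 ≤ n → Good n ε → y n ^ 2 ≤ ε → ε ≤ es → -(ε ^ p) ≤ x n
  step : ∀ n m ε, N0 ≤ n → Good n ε → y n ^ 2 ≤ ε → ε ≤ es → n + w ε ≤ m → m ≤ n + 4 * w ε →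
    Good m (max (ε / 2) (ε ^ (-σ) * y n ^ 2)) ∧ |x m - x n| ≤ ε ^ p1 ∧
      |Real.log (y m) - Real.log (y n) + κ * x n * ((m : ℝ) - n)| ≤ ε ^ v1

/-- a chain of windows -/
structure Chn (Good : ℕ → ℝ → Prop) (y : ℕ → ℝ) (w : ℝ → ℕ) (σ es : ℝ) (N0 : ℕ)
    (n : ℕ → ℕ) (ε : ℕ → ℝ) : Prop where
  N : ∀ j, N0 ≤ n j
  good : ∀ j, Good (n j) (ε j)
  ye : ∀ j, y (n j) ^ 2 ≤ ε j
  ees : ∀ j, ε j ≤ es
  s1 : ∀ j, n j + w (ε j) ≤ n (j + 1)
  s2 : ∀ j, n (j + 1) ≤ n j + 4 * w (ε j)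
  re : ∀ j, ε (j + 1) = max (max (ε j / 2) (y (n j) ^ (2 - 2 * σ))) (y (n (j + 1)) ^ 2)

/-- powers are small -/
lemma small_pow {a c : ℝ} (ha : 0 < a) (hc : 0 < c) :
    ∃ e : ℝ, 0 < e ∧ ∀ ε, 0 ≤ ε → ε ≤ e → ε ^ a ≤ c := by
  refine ⟨c ^ (1 / a), Real.rpow_pos_of_pos hc _, fun ε h0 h1 => ?_⟩
  calc ε ^ a ≤ (c ^ (1 / a)) ^ a := Real.rpow_le_rpow h0 h1 ha.le
    _ = c := by rw [← Real.rpow_mul hc.le, one_div, inv_mul_cancel₀ ha.ne', Real.rpow_one]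

lemma one_sub_exp {u : ℝ} (h0 : 0 ≤ u) (h1 : u ≤ 1) : u / 2 ≤ 1 - Real.exp (-u) := by
  have h2 : Real.exp (-u) ≤ 1 / (1 + u) := by
    rw [Real.exp_neg, ← one_div]
    apply one_div_le_one_div_of_le (by positivity)
    have := Real.add_one_le_exp u
    linarith
  have h3 : 1 - 1 / (1 + u) = u / (1 + u) := by
    field_simp
    ring
  have h4 : u / 2 ≤ u / (1 + u) := by
    apply div_le_div_of_nonneg_left h0 (by positivity) (by linarith)
  linarith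

variable {Good : ℕ → ℝ → Prop} {x y : ℕ → ℝ} {w : ℝ → ℕ} {κ B σ p p1 v1 es : ℝ} {N0 : ℕ}
  {n : ℕ → ℕ} {ε : ℕ → ℝ}

lemma Chn.y_pos (h : Ind Good x y w κ B σ p p1 v1 es N0) (c : Chn Good y w σ es N0 n ε) (j : ℕ) :
    0 < y (n j) := h.y0 _ (c.N j)

lemma Chn.e_pos (h : Ind Good x y w κ B σ p p1 v1 es N0) (c : Chn Good y w σ es N0 n ε) (j : ℕ) :
    0 < ε j := lt_of_lt_of_le (pow_pos (c.y_pos h j) 2) (c.ye j)

lemma Chn.y_le (h : Ind Good x y w κ B σ p p1 v1 es N0) (c : Chn Good y w σ es N0 n ε) (j : ℕ) :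
    y (n j) ≤ 1 := by
  have h1 := c.ye j
  have h2 := c.ees j
  have h3 := h.es1
  have h4 := c.y_pos h j
  nlinarith

lemma Chn.half (_h : Ind Good x y w κ B σ p p1 v1 es N0) (c : Chn Good y w σ es N0 n ε) (j : ℕ) :
    ε j / 2 ≤ ε (j + 1) := by
  rw [c.re j]
  exact (le_max_left _ _).trans (le_max_left _ _)

lemma p1_pos (h : Ind Good x y w κ B σ p p1 v1 es N0) : 0 < p1 := by
  have h1 := h.pp
  have h2 := h.p0
  have h3 := h.σ1
  by_contra hc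
  have : (1 - σ) * p1 ≤ 0 := mul_nonpos_of_nonneg_of_nonpos (by linarith) (not_lt.1 hc)
  linarith

lemma v1_pos (h : Ind Good x y w κ B σ p p1 v1 es N0) : 0 < v1 := by
  have h1 := h.pv
  have h2 := h.p0
  have h3 := h.σ1
  by_contra hc
  have : (1 - σ) * v1 ≤ 0 := mul_nonpos_of_nonneg_of_nonpos (by linarith) (not_lt.1 hc)
  linarith

lemma Chn.st (h : Ind Good x y w κ B σ p p1 v1 es N0) (c : Chn Good y w σ es N0 n ε) (j : ℕ) :
    |x (n (j + 1)) - x (n j)| ≤ ε j ^ p1 ∧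
      |Real.log (y (n (j + 1))) - Real.log (y (n j)) +
        κ * x (n j) * ((n (j + 1) : ℝ) - n j)| ≤ ε j ^ v1 :=
  (h.step _ _ _ (c.N j) (c.good j) (c.ye j) (c.ees j) (c.s1 j) (c.s2 j)).2

/-- powers of a geometric bound -/
lemma pow_bd {e q σ E a : ℝ} (he0 : 0 < e) (hq0 : 0 < q) (hE0 : 0 < E) {i : ℕ}
    (h : E ≤ 2 * e ^ (1 - σ) * q ^ i) (ha0 : 0 < a) (ha1 : a ≤ 1) :
    E ^ a ≤ 2 * e ^ ((1 - σ) * a) * (q ^ a) ^ i := by
  have h1 : E ^ a ≤ (2 * e ^ (1 - σ) * q ^ i) ^ a := Real.rpow_le_rpow hE0.le h ha0.le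
  have h2 : (2 * e ^ (1 - σ) * q ^ i) ^ a = 2 ^ a * e ^ ((1 - σ) * a) * (q ^ a) ^ i := by
    rw [Real.mul_rpow (by positivity) (by positivity),
      Real.mul_rpow (by norm_num) (by positivity), ← Real.rpow_mul he0.le]
    congr 1
    rw [← Real.rpow_natCast q i, ← Real.rpow_natCast (q ^ a) i, ← Real.rpow_mul hq0.le,
      ← Real.rpow_mul hq0.le, mul_comm]
  have h3 : (2 : ℝ) ^ a ≤ 2 := by
    conv_rhs => rw [← Real.rpow_one 2]
    exact Real.rpow_le_rpow_of_exponent_le (by norm_num) ha1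
  rw [h2] at h1
  refine h1.trans ?_
  have h4 : 0 ≤ e ^ ((1 - σ) * a) * (q ^ a) ^ i := by positivity
  have h5 := mul_le_mul_of_nonneg_right h3 h4
  calc 2 ^ a * e ^ ((1 - σ) * a) * (q ^ a) ^ i = 2 ^ a * (e ^ ((1 - σ) * a) * (q ^ a) ^ i) := by
        ring
    _ ≤ 2 * (e ^ ((1 - σ) * a) * (q ^ a) ^ i) := h5
    _ = 2 * e ^ ((1 - σ) * a) * (q ^ a) ^ i := by ring

/-- one step of `y` -/
lemma y_stp {κ X xi d y0 y1 δ : ℝ} (hκ : 0 < κ) (hX0 : 0 < X) (hxi : X / 2 ≤ xi) (hd : 1 ≤ d)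
    (hy0 : 0 < y0) (hy1 : 0 < y1) (hδ : δ ≤ κ * X / 4)
    (h : |Real.log y1 - Real.log y0 + κ * xi * d| ≤ δ) :
    y1 ≤ y0 * Real.exp (-(κ * X / 4)) := by
  have h1 := (abs_le.1 h).2
  have hxi0 : 0 ≤ xi := le_trans (by positivity) hxi
  have h2 : κ * (X / 2) * 1 ≤ κ * xi * d :=
    mul_le_mul (mul_le_mul_of_nonneg_left hxi hκ.le) hd (by norm_num) (by positivity)
  have h3 : Real.log y1 ≤ Real.log y0 + -(κ * X / 4) := by linarith
  have h4 := Real.exp_le_exp.2 h3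
  rwa [Real.exp_log hy1, Real.exp_add, Real.exp_log hy0] at h4

/-- one step of `ε` -/
lemma e_stp {e q σ E0 E1 y0 y1 : ℝ} {i : ℕ} (hσ0 : 0 < σ) (he0 : 0 < e)
    (hq0 : 0 < q) (hqh : 1 / 2 ≤ q) (hy0 : 0 < y0) (hy1 : 0 < y1) (hy01 : y0 ≤ 1)
    (hle : y1 ≤ y0) (hE0 : E0 ≤ 2 * e ^ (1 - σ) * q ^ i)
    (hyi : y0 ^ (2 - 2 * σ) ≤ e ^ (1 - σ) * q ^ i)
    (hE1 : E1 = max (max (E0 / 2) (y0 ^ (2 - 2 * σ))) (y1 ^ 2)) :
    E1 ≤ 2 * e ^ (1 - σ) * q ^ (i + 1) := by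
  have hP : 0 ≤ e ^ (1 - σ) * q ^ i := by positivity
  have hgoal : e ^ (1 - σ) * q ^ i ≤ 2 * e ^ (1 - σ) * q ^ (i + 1) := by
    have h1 : e ^ (1 - σ) * q ^ i * 1 ≤ e ^ (1 - σ) * q ^ i * (2 * q) :=
      mul_le_mul_of_nonneg_left (by linarith) hP
    calc e ^ (1 - σ) * q ^ i = e ^ (1 - σ) * q ^ i * 1 := by ring
      _ ≤ e ^ (1 - σ) * q ^ i * (2 * q) := h1
      _ = 2 * e ^ (1 - σ) * q ^ (i + 1) := by rw [pow_succ]; ring
  have h3 : y1 ^ 2 ≤ y0 ^ (2 - 2 * σ) := by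
    have h4 : y1 ^ 2 ≤ y0 ^ 2 := pow_le_pow_left₀ hy1.le hle 2
    have h5 : y0 ^ 2 ≤ y0 ^ (2 - 2 * σ) := by
      rw [← Real.rpow_natCast]
      exact Real.rpow_le_rpow_of_exponent_ge hy0 hy01 (by push_cast; linarith)
    exact h4.trans h5
  rw [hE1]
  refine max_le (max_le ?_ (hyi.trans hgoal)) ((h3.trans hyi).trans hgoal)
  linarith

/-- powers of the geometric bound of `y` -/
lemma y_pw {κ X σ e yj yi : ℝ} {i : ℕ} (hσ1 : σ ≤ 1 / 4) (hyj : 0 < yj) (hyi0 : 0 < yi)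
    (hye : yj ^ 2 ≤ e) (h : yi ≤ yj * Real.exp (-(κ * X / 4 * i))) :
    yi ^ (2 - 2 * σ) ≤ e ^ (1 - σ) * Real.exp (-(κ * X * (1 - σ) / 2)) ^ i := by
  have h2s : 0 < 2 - 2 * σ := by linarith
  have h1 : yi ^ (2 - 2 * σ) ≤ (yj * Real.exp (-(κ * X / 4 * i))) ^ (2 - 2 * σ) :=
    Real.rpow_le_rpow hyi0.le h h2s.le
  have h2 : (yj * Real.exp (-(κ * X / 4 * i))) ^ (2 - 2 * σ) =
      yj ^ (2 - 2 * σ) * Real.exp (-(κ * X * (1 - σ) / 2)) ^ i := by
    rw [Real.mul_rpow hyj.le (Real.exp_pos _).le]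
    congr 1
    rw [← Real.exp_mul, ← Real.exp_nat_mul]
    congr 1
    ring
  have h3 : yj ^ (2 - 2 * σ) ≤ e ^ (1 - σ) := by
    have h4 : yj ^ (2 - 2 * σ) = (yj ^ 2) ^ (1 - σ) := by
      rw [← Real.rpow_natCast, ← Real.rpow_mul hyj.le]
      congr 1
      push_cast
      ring
    rw [h4]
    exact Real.rpow_le_rpow (by positivity) hye (by linarith)
  rw [h2] at h1
  exact h1.trans (mul_le_mul_of_nonneg_right h3 (by positivity))

/-- geometric sums -/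
lemma geo_bd {X u D r : ℝ} (hX0 : 0 < X) (hu0 : 0 < u) (hr0 : 0 < r) (hD0 : 0 ≤ D)
    (hr1 : u / 2 ≤ 1 - r) (hD : D ≤ X / 2 * (u / 2)) (i : ℕ) :
    D * ∑ k ∈ range i, r ^ k ≤ X / 2 := by
  have h1 : 0 < 1 - r := lt_of_lt_of_le (by positivity) hr1
  have h2 : ∑ k ∈ range i, r ^ k ≤ 1 / (1 - r) := by
    have h3 : (∑ k ∈ range i, r ^ k) * (1 - r) = 1 - r ^ i := by
      have := geom_sum_mul_neg r i
      linarith
    rw [le_div_iff₀ h1, h3]
    linarith [pow_pos hr0 i]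
  have h4 : D / (1 - r) ≤ X / 2 := by
    rw [div_le_iff₀ h1]
    have h5 : X / 2 * (u / 2) ≤ X / 2 * (1 - r) := mul_le_mul_of_nonneg_left hr1 (by positivity)
    linarith
  calc D * ∑ k ∈ range i, r ^ k ≤ D * (1 / (1 - r)) := mul_le_mul_of_nonneg_left h2 hD0
    _ = D / (1 - r) := by ring
    _ ≤ X / 2 := h4

/-- the abstract induction behind (★) -/
lemma star_core {κ σ p1 v1 X : ℝ} (hκ : 0 < κ) (hσ0 : 0 < σ) (hσ1 : σ ≤ 1 / 4)
    (hp1 : 0 < p1) (hp11 : p1 ≤ 1) (hv1 : 0 < v1) (hv11 : v1 ≤ 1)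
    (hX0 : 0 < X) (hXb : κ * X ≤ 1) (xs ys E d : ℕ → ℝ) (hE0 : 0 < E 0) (hE01 : E 0 ≤ 1)
    (hxX : xs 0 = X) (hEp : ∀ i, 0 < E i)
    (hA : 2 * E 0 ^ ((1 - σ) * p1) ≤ X / 2 * (κ * X * (1 - σ) * p1 / 2 / 2))
    (hB : 2 * E 0 ^ ((1 - σ) * v1) ≤ κ * X / 4)
    (hy : ∀ i, 0 < ys i) (hy1 : ∀ i, ys i ≤ 1) (hye : ys 0 ^ 2 ≤ E 0)
    (hrec : ∀ i, E (i + 1) = max (max (E i / 2) (ys i ^ (2 - 2 * σ))) (ys (i + 1) ^ 2))
    (hd : ∀ i, 1 ≤ d i)
    (hx : ∀ i, |xs (i + 1) - xs i| ≤ E i ^ p1)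
    (hyl : ∀ i, |Real.log (ys (i + 1)) - Real.log (ys i) + κ * xs i * d i| ≤ E i ^ v1) (i : ℕ) :
    X / 2 ≤ xs i := by
  have hq0 : 0 < Real.exp (-(κ * X * (1 - σ) / 2)) := Real.exp_pos _
  have h1σ : 0 < 1 - σ := by linarith
  have hκX : 0 < κ * X := by positivity
  have hq1 : Real.exp (-(κ * X * (1 - σ) / 2)) ≤ 1 := by
    rw [Real.exp_le_one_iff]
    have : 0 ≤ κ * X * (1 - σ) := by positivity
    linarith
  have hqh : 1 / 2 ≤ Real.exp (-(κ * X * (1 - σ) / 2)) := by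
    have h1 := Real.add_one_le_exp (-(κ * X * (1 - σ) / 2))
    have h2 : κ * X * (1 - σ) ≤ 1 * 1 := mul_le_mul hXb (by linarith) h1σ.le (by norm_num)
    linarith
  have hqr : Real.exp (-(κ * X * (1 - σ) / 2)) ^ p1 = Real.exp (-(κ * X * (1 - σ) * p1 / 2)) := by
    rw [← Real.exp_mul]
    congr 1
    ring
  have hu0 : 0 < κ * X * (1 - σ) * p1 / 2 := by positivity
  have hu1 : κ * X * (1 - σ) * p1 / 2 ≤ 1 := by
    have h1 : κ * X * (1 - σ) ≤ 1 * 1 := mul_le_mul hXb (by linarith) h1σ.le (by norm_num)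
    have h2 : κ * X * (1 - σ) * p1 ≤ (1 * 1) * 1 :=
      mul_le_mul h1 hp11 hp1.le (by norm_num)
    linarith
  have hr0 : 0 < Real.exp (-(κ * X * (1 - σ) * p1 / 2)) := Real.exp_pos _
  have hgeo := geo_bd hX0 hu0 hr0 (by positivity : (0 : ℝ) ≤ 2 * E 0 ^ ((1 - σ) * p1))
    (one_sub_exp hu0.le hu1) hA
  generalize hq : Real.exp (-(κ * X * (1 - σ) / 2)) = q at *
  generalize hr : Real.exp (-(κ * X * (1 - σ) * p1 / 2)) = r at *
  have key : ∀ i : ℕ, ys i ≤ ys 0 * Real.exp (-(κ * X / 4 * i)) ∧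
      E i ≤ 2 * E 0 ^ (1 - σ) * q ^ i ∧
      X - 2 * E 0 ^ ((1 - σ) * p1) * ∑ k ∈ range i, r ^ k ≤ xs i := by
    intro i
    induction i with
    | zero =>
      refine ⟨by simp, ?_, by simp [hxX]⟩
      have h1 : E 0 ≤ E 0 ^ (1 - σ) := by
        conv_lhs => rw [← Real.rpow_one (E 0)]
        exact Real.rpow_le_rpow_of_exponent_ge hE0 hE01 (by linarith)
      have h2 : 0 ≤ E 0 ^ (1 - σ) := Real.rpow_nonneg hE0.le _
      simp only [pow_zero, mul_one]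
      linarith
    | succ i ih =>
      obtain ⟨i1, i2, i3⟩ := ih
      have hxi : X / 2 ≤ xs i := by
        have := hgeo i
        linarith
      have hP := pow_bd hE0 hq0 (hEp i) i2 hp1 hp11
      rw [hqr] at hP
      have hV := pow_bd hE0 hq0 (hEp i) i2 hv1 hv11
      have hVs : E i ^ v1 ≤ κ * X / 4 := by
        have h1 : (q ^ v1) ^ i ≤ 1 :=
          pow_le_one₀ (Real.rpow_nonneg hq0.le _) (Real.rpow_le_one hq0.le hq1 hv1.le)
        have h2 : 0 ≤ 2 * E 0 ^ ((1 - σ) * v1) := by positivity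
        have h3 := mul_le_of_le_one_right h2 h1
        linarith
      have hystep := y_stp hκ hX0 hxi (hd i) (hy i) (hy (i + 1)) hVs (hyl i)
      have hyle : ys (i + 1) ≤ ys i := by
        refine hystep.trans ?_
        have : Real.exp (-(κ * X / 4)) ≤ 1 := by
          rw [Real.exp_le_one_iff]
          linarith
        exact mul_le_of_le_one_right (hy i).le this
      have hygeo : ys (i + 1) ≤ ys 0 * Real.exp (-(κ * X / 4 * ((i + 1 : ℕ) : ℝ))) := by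
        have h1 : Real.exp (-(κ * X / 4 * ((i + 1 : ℕ) : ℝ))) =
            Real.exp (-(κ * X / 4 * i)) * Real.exp (-(κ * X / 4)) := by
          rw [← Real.exp_add]; congr 1; push_cast; ring
        rw [h1, ← mul_assoc]
        exact hystep.trans (mul_le_mul_of_nonneg_right i1 (Real.exp_pos _).le)
      have hyi := y_pw hσ1 (hy 0) (hy i) hye i1
      rw [hq] at hyi
      refine ⟨hygeo, e_stp hσ0 hE0 hq0 hqh (hy i) (hy (i + 1)) (hy1 i) hyle i2 hyi (hrec i), ?_⟩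
      have h1 := (abs_le.1 (hx i)).1
      rw [sum_range_succ, mul_add]
      linarith
  have h1 := (key i).2.2
  have h2 := hgeo i
  linarith

/-- **(★)** along a chain with `x → 0` one has `x ≤ ε^p` as soon as `ε` is small -/
theorem star (h : Ind Good x y w κ B σ p p1 v1 es N0) :
    ∃ e1 : ℝ, 0 < e1 ∧ ∀ (n : ℕ → ℕ) (ε : ℕ → ℝ), Chn Good y w σ es N0 n ε →
      Tendsto (fun j => x (n j)) atTop (𝓝 0) → (∀ j, κ * x (n j) ≤ 1) →
      ∀ j, ε j ≤ e1 → x (n j) ≤ ε j ^ p := by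
  have hκ := h.κ0
  have hp1 := p1_pos h
  have hv1 := v1_pos h
  have hσ1 := h.σ1
  have h1σ : 0 < 1 - σ := by linarith
  have hc10 : 0 < κ * (1 - σ) * p1 / 16 := by positivity
  obtain ⟨ea, hea, ha⟩ := small_pow (a := (1 - σ) * p1 - 2 * p) (by linarith [h.pp]) hc10
  obtain ⟨eb, heb, hb⟩ := small_pow (a := (1 - σ) * v1 - p) (c := κ / 8) (by linarith [h.pv])
    (by positivity)
  refine ⟨min ea eb, lt_min hea heb, fun n ε c hx hxb j hj => ?_⟩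
  by_contra hcon
  rw [not_le] at hcon
  have he0 : 0 < ε j := c.e_pos h j
  have he1 : ε j ≤ 1 := (c.ees j).trans (h.es1.trans (by norm_num))
  have hep : 0 < ε j ^ p := Real.rpow_pos_of_pos he0 _
  have hX0 : 0 < x (n j) := lt_trans hep hcon
  have hA : ε j ^ ((1 - σ) * p1) ≤ κ * (1 - σ) * p1 / 16 * x (n j) ^ 2 := by
    have h1 := ha (ε j) he0.le (hj.trans (min_le_left _ _))
    have h2 : ε j ^ ((1 - σ) * p1) = ε j ^ ((1 - σ) * p1 - 2 * p) * ε j ^ (2 * p) := by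
      rw [← Real.rpow_add he0]; congr 1; ring
    have h3 : ε j ^ (2 * p) ≤ x (n j) ^ 2 := by
      have h1 : ε j ^ (2 * p) = (ε j ^ p) ^ 2 := by
        rw [mul_comm, Real.rpow_mul he0.le]; norm_num
      rw [h1]
      exact pow_le_pow_left₀ hep.le hcon.le 2
    rw [h2]
    exact mul_le_mul h1 h3 (Real.rpow_nonneg he0.le _) hc10.le
  have hB : ε j ^ ((1 - σ) * v1) ≤ κ / 8 * x (n j) := by
    have h1 := hb (ε j) he0.le (hj.trans (min_le_right _ _))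
    have h2 : ε j ^ ((1 - σ) * v1) = ε j ^ ((1 - σ) * v1 - p) * ε j ^ p := by
      rw [← Real.rpow_add he0]; congr 1; ring
    rw [h2]
    exact mul_le_mul h1 hcon.le hep.le (by positivity)
  have hcore : ∀ i, x (n j) / 2 ≤ x (n (j + i)) := by
    refine star_core (κ := κ) (σ := σ) (p1 := p1) (v1 := v1) hκ h.σ0 hσ1 hp1 h.p11 hv1 h.v11 hX0
      (hxb j) (fun i => x (n (j + i))) (fun i => y (n (j + i))) (fun i => ε (j + i))
      (fun i => (n (j + i + 1) : ℝ) - n (j + i)) he0 he1 rfl (fun i => c.e_pos h _) ?_ ?_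
      (fun i => c.y_pos h _) (fun i => c.y_le h _) (c.ye j) (fun i => c.re (j + i)) ?_
      (fun i => (c.st h (j + i)).1) (fun i => (c.st h (j + i)).2)
    · simp only [add_zero]
      have h5 : x (n j) / 2 * (κ * x (n j) * (1 - σ) * p1 / 2 / 2) =
        2 * (κ * (1 - σ) * p1 / 16 * x (n j) ^ 2) := by ring
      rw [h5]
      linarith
    · simp only [add_zero]
      linarith
    · intro i
      have hw1 := h.w1 _ (c.e_pos h (j + i)) (c.ees (j + i))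
      have h1 := c.s1 (j + i)
      have h2 : n (j + i) + 1 ≤ n (j + i + 1) := by omega
      have h3 : ((n (j + i) + 1 : ℕ) : ℝ) ≤ (n (j + i + 1) : ℝ) := by exact_mod_cast h2
      push_cast at h3
      linarith
  have hlim : x (n j) / 2 ≤ 0 := by
    refine ge_of_tendsto hx ?_
    filter_upwards [eventually_ge_atTop j] with k hk
    obtain ⟨i, rfl⟩ := Nat.exists_eq_add_of_le hk
    exact hcore i
  linarith

lemma log_small {a c : ℝ} (ha : 0 < a) (hc : 0 < c) :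
    ∃ e : ℝ, 0 < e ∧ ∀ ε, 0 < ε → ε ≤ e → ε ^ a * Real.log (1 / ε) ≤ c := by
  obtain ⟨e, he, h⟩ := small_pow (a := a / 2) (c := c * (a / 2)) (by positivity) (by positivity)
  refine ⟨e, he, fun ε h0 h1 => ?_⟩
  have h2 : Real.log (1 / ε) ≤ (1 / ε) ^ (a / 2) / (a / 2) :=
    Real.log_le_rpow_div (by positivity) (by positivity)
  have h3 : 0 ≤ ε ^ a := Real.rpow_nonneg h0.le _
  have h4 : ε ^ a * (1 / ε) ^ (a / 2) = ε ^ (a / 2) := by
    rw [one_div, Real.inv_rpow h0.le, ← Real.rpow_neg h0.le, ← Real.rpow_add h0]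
    congr 1
    ring
  calc ε ^ a * Real.log (1 / ε) ≤ ε ^ a * ((1 / ε) ^ (a / 2) / (a / 2)) :=
        mul_le_mul_of_nonneg_left h2 h3
    _ = ε ^ (a / 2) / (a / 2) := by rw [← mul_div_assoc, h4]
    _ ≤ c := by
        rw [div_le_iff₀ (by positivity)]
        exact h ε h0.le h1

/-- `y` varies little over a window as soon as `|x| ≤ ε^p` -/
lemma y_var (h : Ind Good x y w κ B σ p p1 v1 es N0) {a : ℝ} (ha : 0 < a) :
    ∃ e : ℝ, 0 < e ∧ ∀ ε, 0 < ε → ε ≤ e → ε ≤ es → ∀ X d : ℝ, |X| ≤ ε ^ p → 0 ≤ d →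
      d ≤ 4 * w ε → |κ * X * d| + ε ^ v1 ≤ a := by
  have hκ := h.κ0
  have hB := h.B0
  obtain ⟨ea, hea, h1⟩ := small_pow (a := v1) (c := a / 2) (v1_pos h) (by positivity)
  obtain ⟨eb, heb, h2⟩ := log_small (a := p) (c := a / 2 / (4 * κ * B)) h.p0 (by positivity)
  refine ⟨min ea eb, lt_min hea heb, fun ε h0 h3 h4 X d hX hd0 hd => ?_⟩
  have h5 := h1 ε h0.le (h3.trans (min_le_left _ _))
  have h6 := h2 ε h0 (h3.trans (min_le_right _ _))
  have h7 : d ≤ 4 * (B * Real.log (1 / ε)) := by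
    have := h.w3 ε h0 h4
    linarith
  have h8 : |κ * X * d| = κ * (|X| * d) := by
    rw [abs_mul, abs_mul, abs_of_pos hκ, abs_of_nonneg hd0, mul_assoc]
  have h9 : |X| * d ≤ ε ^ p * (4 * (B * Real.log (1 / ε))) :=
    mul_le_mul hX h7 hd0 (Real.rpow_nonneg h0.le _)
  rw [h8]
  have h10 : κ * (|X| * d) ≤ κ * (ε ^ p * (4 * (B * Real.log (1 / ε)))) :=
    mul_le_mul_of_nonneg_left h9 hκ.le
  have h11 : κ * (ε ^ p * (4 * (B * Real.log (1 / ε)))) =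
      (ε ^ p * Real.log (1 / ε)) * (4 * κ * B) := by ring
  rw [le_div_iff₀ (by positivity)] at h6
  linarith

/-- the next scale of the chain aimed at `T` -/
noncomputable def nx (w : ℝ → ℕ) (T : ℕ) (s : ℕ × ℝ) : ℕ :=
  if s.1 + w s.2 ≤ T ∧ T ≤ s.1 + 3 * w s.2 then T else s.1 + w s.2

/-- one step of the chain -/
noncomputable def nxt (y : ℕ → ℝ) (w : ℝ → ℕ) (σ : ℝ) (T : ℕ) (s : ℕ × ℝ) : ℕ × ℝ :=
  (nx w T s, max (max (s.2 / 2) (y s.1 ^ (2 - 2 * σ))) (y (nx w T s) ^ 2))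

/-- the chain -/
noncomputable def ch (y : ℕ → ℝ) (w : ℝ → ℕ) (σ : ℝ) (T : ℕ) (s : ℕ × ℝ) (j : ℕ) : ℕ × ℝ :=
  (nxt y w σ T)^[j] s

lemma ch_zero (y : ℕ → ℝ) (w : ℝ → ℕ) (σ : ℝ) (T : ℕ) (s : ℕ × ℝ) : ch y w σ T s 0 = s := rfl

lemma ch_succ (y : ℕ → ℝ) (w : ℝ → ℕ) (σ : ℝ) (T : ℕ) (s : ℕ × ℝ) (j : ℕ) :
    ch y w σ T s (j + 1) = nxt y w σ T (ch y w σ T s j) := by
  unfold ch
  rw [Function.iterate_succ_apply']

lemma nx_ge (w : ℝ → ℕ) (T : ℕ) (s : ℕ × ℝ) : s.1 + w s.2 ≤ nx w T s := by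
  unfold nx
  split_ifs with h
  · exact h.1
  · exact le_rfl

lemma nx_le (w : ℝ → ℕ) (T : ℕ) (s : ℕ × ℝ) : nx w T s ≤ s.1 + 3 * w s.2 := by
  unfold nx
  split_ifs with h
  · exact h.2
  · omega

/-- the invariant of the chain -/
def Inv (Good : ℕ → ℝ → Prop) (y : ℕ → ℝ) (e : ℝ) (N : ℕ) (s : ℕ × ℝ) : Prop :=
  N ≤ s.1 ∧ Good s.1 s.2 ∧ y s.1 ^ 2 ≤ s.2 ∧ s.2 ≤ e

lemma inv_nxt (h : Ind Good x y w κ B σ p p1 v1 es N0) {e : ℝ} {N T : ℕ} (hN : N0 ≤ N)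
    (he : e ≤ es) (h1 : ∀ n, N ≤ n → y n ^ 2 ≤ e) (h2 : ∀ n, N ≤ n → y n ^ (2 - 2 * σ) ≤ e)
    {s : ℕ × ℝ} (hs : Inv Good y e N s) : Inv Good y e N (nxt y w σ T s) := by
  obtain ⟨a1, a2, a3, a4⟩ := hs
  have b1 : N ≤ nx w T s := a1.trans ((Nat.le_add_right _ _).trans (nx_ge w T s))
  have hy := h.y0 _ (hN.trans a1)
  have hs0 : 0 < s.2 := lt_of_lt_of_le (pow_pos hy 2) a3
  refine ⟨b1, ?_, le_max_right _ _, ?_⟩
  · have h3 := (h.step s.1 (nx w T s) s.2 (hN.trans a1) a2 a3 (a4.trans he) (nx_ge w T s)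
      ((nx_le w T s).trans (by omega))).1
    refine h.mono _ _ _ h3 (le_trans (max_le_max le_rfl ?_) (le_max_left _ _))
    have h4 : s.2 ^ (-σ) ≤ (y s.1 ^ 2) ^ (-σ) :=
      Real.rpow_le_rpow_of_nonpos (by positivity) a3 (by linarith [h.σ0])
    have h5 : (y s.1 ^ 2) ^ (-σ) * y s.1 ^ 2 = y s.1 ^ (2 - 2 * σ) := by
      rw [← Real.rpow_natCast, ← Real.rpow_mul hy.le, ← Real.rpow_add hy]
      congr 1
      push_cast
      ring
    calc s.2 ^ (-σ) * y s.1 ^ 2 ≤ (y s.1 ^ 2) ^ (-σ) * y s.1 ^ 2 :=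
          mul_le_mul_of_nonneg_right h4 (by positivity)
      _ = _ := h5
  · refine max_le (max_le ?_ (h2 _ a1)) (h1 _ b1)
    have : s.2 ≤ e := a4
    linarith

lemma inv_ch (h : Ind Good x y w κ B σ p p1 v1 es N0) {e : ℝ} {N T : ℕ} (hN : N0 ≤ N)
    (he : e ≤ es) (h1 : ∀ n, N ≤ n → y n ^ 2 ≤ e) (h2 : ∀ n, N ≤ n → y n ^ (2 - 2 * σ) ≤ e)
    {s : ℕ × ℝ} (hs : Inv Good y e N s) (j : ℕ) : Inv Good y e N (ch y w σ T s j) := by
  induction j with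
  | zero => exact hs
  | succ j ih =>
    rw [ch_succ]
    exact inv_nxt h hN he h1 h2 ih

lemma chn_ch (h : Ind Good x y w κ B σ p p1 v1 es N0) {e : ℝ} {N T : ℕ} (hN : N0 ≤ N)
    (he : e ≤ es) (h1 : ∀ n, N ≤ n → y n ^ 2 ≤ e) (h2 : ∀ n, N ≤ n → y n ^ (2 - 2 * σ) ≤ e)
    {s : ℕ × ℝ} (hs : Inv Good y e N s) :
    Chn Good y w σ es N0 (fun j => (ch y w σ T s j).1) (fun j => (ch y w σ T s j).2) where
  N j := hN.trans (inv_ch h hN he h1 h2 hs j).1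
  good j := (inv_ch h hN he h1 h2 hs j).2.1
  ye j := (inv_ch h hN he h1 h2 hs j).2.2.1
  ees j := (inv_ch h hN he h1 h2 hs j).2.2.2.trans he
  s1 j := by
    rw [ch_succ]
    exact nx_ge w T _
  s2 j := by
    rw [ch_succ]
    exact (nx_le w T _).trans (by omega)
  re j := by
    rw [ch_succ]
    rfl

lemma Chn.lt (h : Ind Good x y w κ B σ p p1 v1 es N0) (c : Chn Good y w σ es N0 n ε) (j : ℕ) :
    n j + 1 ≤ n (j + 1) := by
  have h1 := h.w1 _ (c.e_pos h j) (c.ees j)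
  have h2 := c.s1 j
  omega

lemma Chn.ge (h : Ind Good x y w κ B σ p p1 v1 es N0) (c : Chn Good y w σ es N0 n ε) (j : ℕ) :
    j ≤ n j := by
  induction j with
  | zero => exact Nat.zero_le _
  | succ j ih =>
    have := c.lt h j
    omega

lemma Chn.tend (h : Ind Good x y w κ B σ p p1 v1 es N0) (c : Chn Good y w σ es N0 n ε) :
    Tendsto n atTop atTop :=
  tendsto_atTop_mono (c.ge h) tendsto_id

lemma Chn.mono (h : Ind Good x y w κ B σ p p1 v1 es N0) (c : Chn Good y w σ es N0 n ε) :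
    Monotone n :=
  monotone_nat_of_le_succ fun j => (Nat.le_succ _).trans (c.lt h j)

/-- the length of the chain -/
lemma Chn.le_sum (h : Ind Good x y w κ B σ p p1 v1 es N0) (c : Chn Good y w σ es N0 n ε)
    (j : ℕ) : ε 0 / 2 ^ j ≤ ε j ∧
      (n j : ℝ) ≤ n 0 + ∑ i ∈ range j, 4 * (B * Real.log (2 ^ i / ε 0)) := by
  induction j with
  | zero => simp
  | succ j ih =>
    refine ⟨?_, ?_⟩
    · have h1 := c.half h j
      have h2 := ih.1
      rw [pow_succ, ← div_div]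
      linarith
    · have h1 : (n (j + 1) : ℝ) ≤ n j + 4 * w (ε j) := by exact_mod_cast c.s2 j
      have h2 := h.w3 _ (c.e_pos h j) (c.ees j)
      have h3 : Real.log (1 / ε j) ≤ Real.log (2 ^ j / ε 0) := by
        apply Real.log_le_log (by have := c.e_pos h j; positivity)
        have h4 := c.e_pos h 0
        have h5 : 0 < ε 0 / 2 ^ j := by positivity
        calc 1 / ε j ≤ 1 / (ε 0 / 2 ^ j) := one_div_le_one_div_of_le h5 ih.1
          _ = 2 ^ j / ε 0 := by rw [one_div_div]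
      have h4 := mul_le_mul_of_nonneg_left h3 h.B0.le
      rw [sum_range_succ]
      linarith [ih.2]

/-- the chain aimed at `T` hits `T` -/
lemma hit (h : Ind Good x y w κ B σ p p1 v1 es N0) {e : ℝ} {N T : ℕ} (hN : N0 ≤ N)
    (he : e ≤ es) (h1 : ∀ n, N ≤ n → y n ^ 2 ≤ e) (h2 : ∀ n, N ≤ n → y n ^ (2 - 2 * σ) ≤ e)
    {s : ℕ × ℝ} (hs : Inv Good y e N s) (hT : s.1 + w s.2 ≤ T) :
    ∃ j, (ch y w σ T s j).1 + w (ch y w σ T s j).2 ≤ T ∧
      T ≤ (ch y w σ T s j).1 + 3 * w (ch y w σ T s j).2 := by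
  have c := chn_ch h (T := T) hN he h1 h2 hs
  classical
  by_contra hcon
  push Not at hcon
  have key : ∀ j, (ch y w σ T s j).1 + w (ch y w σ T s j).2 ≤ T := by
    intro j
    induction j with
    | zero => exact hT
    | succ j ih =>
      have h3 := hcon j ih
      have h4 : (ch y w σ T s (j + 1)).1 = (ch y w σ T s j).1 + w (ch y w σ T s j).2 := by
        rw [ch_succ]
        show nx w T _ = _
        unfold nx
        rw [if_neg]
        rintro ⟨-, h5⟩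
        omega
      have h5 : w (ch y w σ T s (j + 1)).2 ≤ 2 * w (ch y w σ T s j).2 :=
        h.w2 _ _ (c.e_pos h j) (c.half h j) (c.ees (j + 1))
      omega
  have h3 := c.ge h (T + 1)
  have h4 := key (T + 1)
  omega

/-- one step of the ratio `ε / y^(2-3σ)` -/
lemma ratio_step {σ E0 E1 y0 y1 R : ℝ} (hσ0 : 0 < σ) (hσ1 : σ ≤ 1 / 4) (hy0 : 0 < y0)
    (hy1 : 0 < y1) (hy11 : y1 ≤ 1) (hys : y0 ^ σ ≤ 4 / 5)
    (hv : |Real.log y1 - Real.log y0| ≤ 1 / 10) (hR : E0 ≤ R * y0 ^ (2 - 3 * σ)) (hR0 : 0 ≤ R)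
    (hE1 : E1 = max (max (E0 / 2) (y0 ^ (2 - 2 * σ))) (y1 ^ 2)) :
    E1 ≤ max (5 / 8 * R) 1 * y1 ^ (2 - 3 * σ) := by
  have hP : 0 < y1 ^ (2 - 3 * σ) := Real.rpow_pos_of_pos hy1 _
  have h1 : y0 ^ (2 - 3 * σ) ≤ 5 / 4 * y1 ^ (2 - 3 * σ) := by
    have h2 : Real.log y0 ≤ Real.log y1 + 1 / 10 := by
      have := (abs_le.1 hv).1
      linarith
    have h3 : y0 ≤ y1 * Real.exp (1 / 10) := by
      have := Real.exp_le_exp.2 h2
      rwa [Real.exp_add, Real.exp_log hy0, Real.exp_log hy1] at this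
    have h4 : y0 ^ (2 - 3 * σ) ≤ (y1 * Real.exp (1 / 10)) ^ (2 - 3 * σ) :=
      Real.rpow_le_rpow hy0.le h3 (by linarith)
    have h5 : Real.exp (1 / 10) ^ (2 - 3 * σ) ≤ 5 / 4 := by
      rw [← Real.exp_mul]
      have h6 : Real.exp (1 / 10 * (2 - 3 * σ)) ≤ Real.exp (1 / 5) :=
        Real.exp_le_exp.2 (by linarith)
      have h7 : Real.exp (1 / 5) ≤ 5 / 4 := by
        have h8 := Real.add_one_le_exp (-(1 / 5 : ℝ))
        have h9 : Real.exp (1 / 5) * Real.exp (-(1 / 5)) = 1 := by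
          rw [← Real.exp_add]; norm_num
        nlinarith [Real.exp_pos (1 / 5 : ℝ)]
      exact h6.trans h7
    rw [Real.mul_rpow hy1.le (Real.exp_pos _).le] at h4
    have h6 := mul_le_mul_of_nonneg_left h5 hP.le
    linarith
  have hM1 : 5 / 8 * R ≤ max (5 / 8 * R) 1 := le_max_left _ _
  have hM2 : 1 ≤ max (5 / 8 * R) 1 := le_max_right _ _
  have hA := mul_le_mul_of_nonneg_right hM1 hP.le
  have hB := mul_le_mul_of_nonneg_right hM2 hP.le
  rw [hE1]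
  refine max_le (max_le ?_ ?_) ?_
  · have h2 := mul_le_mul_of_nonneg_left h1 hR0
    have h3 : 5 / 8 * R * y1 ^ (2 - 3 * σ) = R * (5 / 4 * y1 ^ (2 - 3 * σ)) / 2 := by ring
    linarith
  · have h2 : y0 ^ (2 - 2 * σ) = y0 ^ σ * y0 ^ (2 - 3 * σ) := by
      rw [← Real.rpow_add hy0]; congr 1; ring
    have h3 : y0 ^ σ * y0 ^ (2 - 3 * σ) ≤ 4 / 5 * (5 / 4 * y1 ^ (2 - 3 * σ)) :=
      mul_le_mul hys h1 (Real.rpow_nonneg hy0.le _) (by norm_num)
    linarith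
  · have h2 : y1 ^ 2 ≤ y1 ^ (2 - 3 * σ) := by
      rw [← Real.rpow_natCast]
      exact Real.rpow_le_rpow_of_exponent_ge hy1 hy11 (by push_cast; linarith)
    linarith

/-- iteration of `ratio_step` -/
lemma ratio_iter {σ R0 : ℝ} {E ys : ℕ → ℝ} (hσ0 : 0 < σ) (hσ1 : σ ≤ 1 / 4)
    (hy : ∀ i, 0 < ys i) (hy1 : ∀ i, ys i ≤ 1) (hys : ∀ i, ys i ^ σ ≤ 4 / 5)
    (hv : ∀ i, |Real.log (ys (i + 1)) - Real.log (ys i)| ≤ 1 / 10)
    (hE0 : E 0 ≤ R0 * ys 0 ^ (2 - 3 * σ))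
    (hre : ∀ i, E (i + 1) = max (max (E i / 2) (ys i ^ (2 - 2 * σ))) (ys (i + 1) ^ 2)) (i : ℕ) :
    E i ≤ max ((5 / 8) ^ i * R0) 1 * ys i ^ (2 - 3 * σ) := by
  induction i with
  | zero =>
    have h1 : R0 ≤ max ((5 / 8) ^ 0 * R0) 1 := by
      rw [pow_zero, one_mul]; exact le_max_left _ _
    exact hE0.trans (mul_le_mul_of_nonneg_right h1 (Real.rpow_nonneg (hy 0).le _))
  | succ i ih =>
    have hM : 0 ≤ max ((5 / 8) ^ i * R0) 1 := le_trans zero_le_one (le_max_right _ _)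
    have h1 := ratio_step hσ0 hσ1 (hy i) (hy (i + 1)) (hy1 (i + 1)) (hys i) (hv i) ih hM (hre i)
    refine h1.trans (mul_le_mul_of_nonneg_right ?_ (Real.rpow_nonneg (hy _).le _))
    refine max_le ?_ (le_max_right _ _)
    rcases le_total ((5 / 8) ^ i * R0) 1 with h2 | h2
    · rw [max_eq_right h2]
      exact le_trans (by norm_num) (le_max_right _ _)
    · rw [max_eq_left h2, pow_succ]
      refine le_trans (le_of_eq ?_) (le_max_left _ _)
      ring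

/-- **CLOSE** -/
theorem close (h : Ind Good x y w κ B σ p p1 v1 es N0)
    (start : ∀ ε : ℝ, 0 < ε → ∃ N, ∀ n, N ≤ n → Good n ε)
    (hx : Tendsto x atTop (𝓝 0)) (hy : Tendsto y atTop (𝓝 0)) {a : ℝ} (ha : 0 < a) :
    ∃ N, ∀ T, N ≤ T → ∃ n ε, N0 ≤ n ∧ Good n ε ∧ y n ^ 2 ≤ ε ∧ ε ≤ es ∧ ε ≤ a ∧
      ε ≤ y n ^ (2 - 3 * σ) ∧ |x n| ≤ ε ^ p ∧ n + w ε ≤ T ∧ T ≤ n + 3 * w ε := by
  have hσ0 := h.σ0
  have hσ1 := h.σ1
  obtain ⟨e1, he1, hstar⟩ := star h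
  obtain ⟨e2, he2, hvar⟩ := y_var h (a := 1 / 10) (by norm_num)
  obtain ⟨e3, he3, hpw⟩ := small_pow (a := σ) (c := 4 / 5) hσ0 (by norm_num)
  -- the threshold
  obtain ⟨e, he0, hee1, hee2, hees, hea⟩ : ∃ e, 0 < e ∧ e ≤ e1 ∧ e ≤ e2 ∧ e ≤ es ∧ e ≤ a := by
    refine ⟨min (min e1 e2) (min es a), lt_min (lt_min he1 he2) (lt_min h.es0 ha), ?_, ?_, ?_, ?_⟩
    · exact (min_le_left _ _).trans (min_le_left _ _)
    · exact (min_le_left _ _).trans (min_le_right _ _)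
    · exact (min_le_right _ _).trans (min_le_left _ _)
    · exact (min_le_right _ _).trans (min_le_right _ _)
  have he1' : e ≤ 1 := hees.trans (h.es1.trans (by norm_num))
  obtain ⟨N1, hN1⟩ := start e he0
  -- `y` is small
  have hyev : ∀ᶠ n in atTop, y n ≤ min e e3 := by
    have := hy.eventually (gt_mem_nhds (lt_min he0 he3))
    filter_upwards [this] with n hn using hn.le
  have hxev : ∀ᶠ n in atTop, κ * x n ≤ 1 := by
    have h1 : Tendsto (fun n => κ * x n) atTop (𝓝 (κ * 0)) := hx.const_mul κ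
    rw [mul_zero] at h1
    have := h1.eventually (gt_mem_nhds one_pos)
    filter_upwards [this] with n hn using hn.le
  obtain ⟨N2, hN2⟩ := eventually_atTop.1 (hyev.and hxev)
  obtain ⟨N, hN0, hN1', hN2'⟩ : ∃ N, N0 ≤ N ∧ N1 ≤ N ∧ N2 ≤ N :=
    ⟨max N0 (max N1 N2), le_max_left _ _, (le_max_left _ _).trans (le_max_right _ _),
      (le_max_right _ _).trans (le_max_right _ _)⟩
  have hye : ∀ n, N ≤ n → 0 < y n ∧ y n ≤ e ∧ y n ≤ e3 ∧ y n ≤ 1 := fun n hn =>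
    ⟨h.y0 _ (hN0.trans hn), ((hN2 n (hN2'.trans hn)).1).trans (min_le_left _ _),
      ((hN2 n (hN2'.trans hn)).1).trans (min_le_right _ _),
      (((hN2 n (hN2'.trans hn)).1).trans (min_le_left _ _)).trans he1'⟩
  have hsq : ∀ n, N ≤ n → y n ^ 2 ≤ e := by
    intro n hn
    obtain ⟨a1, a2, a3, a4⟩ := hye n hn
    nlinarith
  have hsq2 : ∀ n, N ≤ n → y n ^ (2 - 2 * σ) ≤ e := by
    intro n hn
    obtain ⟨a1, a2, a3, a4⟩ := hye n hn
    calc y n ^ (2 - 2 * σ) ≤ y n ^ (1 : ℝ) :=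
          Real.rpow_le_rpow_of_exponent_ge a1 a4 (by linarith)
      _ = y n := Real.rpow_one _
      _ ≤ e := a2
  -- the start of the chains
  have hs : Inv Good y e N (N, e) := ⟨le_rfl, hN1 N hN1', hsq N le_rfl, le_rfl⟩
  -- number of steps
  obtain ⟨J, hJ⟩ : ∃ J : ℕ, (5 / 8 : ℝ) ^ J * (e / y N ^ (2 - 3 * σ)) ≤ 1 := by
    have h1 : Tendsto (fun J : ℕ => (5 / 8 : ℝ) ^ J * (e / y N ^ (2 - 3 * σ))) atTop
        (𝓝 (0 * (e / y N ^ (2 - 3 * σ)))) :=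
      (tendsto_pow_atTop_nhds_zero_of_lt_one (by norm_num) (by norm_num)).mul_const _
    rw [zero_mul] at h1
    have h2 := h1.eventually (gt_mem_nhds one_pos)
    obtain ⟨J, hJ⟩ := h2.exists
    exact ⟨J, hJ.le⟩
  obtain ⟨M, hM⟩ := exists_nat_gt ((N : ℝ) + ∑ i ∈ range J, 4 * (B * Real.log (2 ^ i / e)))
  refine ⟨max M (N + w e), fun T hT => ?_⟩
  have hTM : M ≤ T := (le_max_left _ _).trans hT
  have hTN : N + w e ≤ T := (le_max_right _ _).trans hT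
  obtain ⟨j, hj1, hj2⟩ := hit h hN0 hees hsq hsq2 hs hTN
  have c := chn_ch h (T := T) hN0 hees hsq hsq2 hs
  have hinv := inv_ch h (T := T) hN0 hees hsq hsq2 hs
  have hJj : J ≤ j := by
    by_contra hlt
    push Not at hlt
    have h1 := (c.le_sum h J).2
    have h2 : (ch y w σ T (N, e) 0) = (N, e) := ch_zero _ _ _ _ _
    rw [h2] at h1
    simp only at h1
    have h3 : ((ch y w σ T (N, e) J).1 : ℝ) < T :=
      lt_of_le_of_lt h1 (hM.trans_le (by exact_mod_cast hTM))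
    have h4 : (ch y w σ T (N, e) J).1 < T := by exact_mod_cast h3
    -- the next point of the chain is `T`
    have h5 : (ch y w σ T (N, e) (j + 1)).1 = T := by
      rw [ch_succ]
      show nx w T _ = _
      unfold nx
      rw [if_pos ⟨hj1, hj2⟩]
    have h6 : (ch y w σ T (N, e) (j + 1)).1 ≤ (ch y w σ T (N, e) J).1 := c.mono h (by omega)
    omega
  -- (★)
  have hxs : ∀ i, |x (ch y w σ T (N, e) i).1| ≤ (ch y w σ T (N, e) i).2 ^ p := by
    intro i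
    have hup := hstar _ _ c (hx.comp (c.tend h))
      (fun i => (hN2 _ (hN2'.trans (hinv i).1)).2) i (((hinv i).2.2.2).trans hee1)
    have hlo := h.low _ _ (c.N i) (c.good i) (c.ye i) (c.ees i)
    exact abs_le.2 ⟨hlo, hup⟩
  have hratio : ∀ i, |Real.log (y (ch y w σ T (N, e) (i + 1)).1) -
      Real.log (y (ch y w σ T (N, e) i).1)| ≤ 1 / 10 := by
    intro i
    have h1 := (c.st h i).2
    have h2 : ((ch y w σ T (N, e) (i + 1)).1 : ℝ) - (ch y w σ T (N, e) i).1 ≤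
        4 * w (ch y w σ T (N, e) i).2 := by
      have := c.s2 i
      have h3 : (((ch y w σ T (N, e) (i + 1)).1 : ℕ) : ℝ) ≤
        (((ch y w σ T (N, e) i).1 + 4 * w (ch y w σ T (N, e) i).2 : ℕ) : ℝ) := by
        exact_mod_cast this
      push_cast at h3
      linarith
    have h3 : 0 ≤ ((ch y w σ T (N, e) (i + 1)).1 : ℝ) - (ch y w σ T (N, e) i).1 := by
      have := c.lt h i
      have h4 : (((ch y w σ T (N, e) i).1 : ℕ) : ℝ) ≤ (((ch y w σ T (N, e) (i + 1)).1 : ℕ) : ℝ) := by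
        exact_mod_cast (Nat.le_succ _).trans this
      linarith
    have h4 := hvar _ (c.e_pos h i) (((hinv i).2.2.2).trans hee2) (c.ees i) _ _ (hxs i) h3 h2
    have h5 := abs_sub (Real.log (y (ch y w σ T (N, e) (i + 1)).1) -
      Real.log (y (ch y w σ T (N, e) i).1) + κ * x (ch y w σ T (N, e) i).1 *
        (((ch y w σ T (N, e) (i + 1)).1 : ℝ) - (ch y w σ T (N, e) i).1))
      (κ * x (ch y w σ T (N, e) i).1 *
        (((ch y w σ T (N, e) (i + 1)).1 : ℝ) - (ch y w σ T (N, e) i).1))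
    rw [add_sub_cancel_right] at h5
    linarith
  have hyN := (hye N le_rfl).1
  have hR := ratio_iter (σ := σ) (R0 := e / y N ^ (2 - 3 * σ))
    (E := fun i => (ch y w σ T (N, e) i).2) (ys := fun i => y (ch y w σ T (N, e) i).1)
    hσ0 hσ1 (fun i => (hye _ (hinv i).1).1) (fun i => (hye _ (hinv i).1).2.2.2)
    (fun i => hpw _ (hye _ (hinv i).1).1.le (hye _ (hinv i).1).2.2.1) hratio
    (by rw [ch_zero, div_mul_cancel₀ _ (Real.rpow_pos_of_pos hyN _).ne']) (fun i => c.re i) j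
  have hRj : (5 / 8 : ℝ) ^ j * (e / y N ^ (2 - 3 * σ)) ≤ 1 := by
    refine le_trans (mul_le_mul_of_nonneg_right ?_ (by positivity)) hJ
    exact pow_le_pow_of_le_one (by norm_num) (by norm_num) hJj
  rw [max_eq_right hRj, one_mul] at hR
  exact ⟨(ch y w σ T (N, e) j).1, (ch y w σ T (N, e) j).2, c.N j, c.good j, c.ye j, c.ees j,
    ((hinv j).2.2.2).trans hea, hR, hxs j, hj1, hj2⟩

/-- comparison of powers of `y` over a window -/
lemma pow_cmp {a0 a1 c : ℝ} (h0 : 0 < a0) (h1 : 0 < a1) (hv : |Real.log a1 - Real.log a0| ≤ 1 / 5)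
    (hc0 : 0 ≤ c) (hc2 : c ≤ 2) : a0 ^ c ≤ 2 * a1 ^ c := by
  have h2 : Real.log a0 ≤ Real.log a1 + 1 / 5 := by
    have := (abs_le.1 hv).1
    linarith
  have h3 : a0 ≤ a1 * Real.exp (1 / 5) := by
    have := Real.exp_le_exp.2 h2
    rwa [Real.exp_add, Real.exp_log h0, Real.exp_log h1] at this
  have h4 : a0 ^ c ≤ (a1 * Real.exp (1 / 5)) ^ c := Real.rpow_le_rpow h0.le h3 hc0
  have h5 : Real.exp (1 / 5) ^ c ≤ 2 := by
    rw [← Real.exp_mul]
    have h6 : Real.exp (1 / 5 * c) ≤ Real.exp (1 / 2) := Real.exp_le_exp.2 (by linarith)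
    have h7 : Real.exp (1 / 2) ≤ 2 := by
      have h8 := Real.add_one_le_exp (-(1 / 2 : ℝ))
      have h9 : Real.exp (1 / 2) * Real.exp (-(1 / 2)) = 1 := by
        rw [← Real.exp_add]; norm_num
      nlinarith [Real.exp_pos (1 / 2 : ℝ)]
    exact h6.trans h7
  rw [Real.mul_rpow h1.le (Real.exp_pos _).le] at h4
  have h6 := mul_le_mul_of_nonneg_left h5 (Real.rpow_nonneg h1.le c)
  linarith

/-- **CLOSE, pointwise form**: for all large `T` everything holds at `T` itself with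
`ε = y_T^(2-4σ)`, and `x`, `y` satisfy one step relations. -/
theorem close_pt (h : Ind Good x y w κ B σ p p1 v1 es N0)
    (start : ∀ ε : ℝ, 0 < ε → ∃ N, ∀ n, N ≤ n → Good n ε)
    (hx : Tendsto x atTop (𝓝 0)) (hy : Tendsto y atTop (𝓝 0)) {a r1 r2 : ℝ} (ha : 0 < a)
    (hr1 : r1 < (2 - 3 * σ) * p1) (hr2 : r2 < (2 - 3 * σ) * p1) (hr3 : r2 < (2 - 3 * σ) * v1) :
    ∃ N, ∀ T, N ≤ T → 0 < y T ∧ y T ≤ 1 ∧ y T ^ (2 - 4 * σ) ≤ a ∧ y T ^ (2 - 4 * σ) ≤ es ∧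
      Good T (y T ^ (2 - 4 * σ)) ∧ |x T| ≤ y T ^ ((2 - 4 * σ) * p) ∧
      (∀ k, T ≤ k → k ≤ T + 1 → |x k - x T| ≤ y T ^ r1) ∧
      |Real.log (y (T + 1)) - Real.log (y T) + κ * x T| ≤ y T ^ r2 := by
  have hσ0 := h.σ0
  have hσ1 := h.σ1
  have hκ := h.κ0
  have hp1 := p1_pos h
  have hv1 := v1_pos h
  have hp0 := h.p0
  obtain ⟨ea, hea, hvar⟩ := y_var h (a := 1 / 10) (by norm_num)
  -- smallness of powers of `y`
  have hpow : ∀ b c : ℝ, 0 < b → 0 < c → ∀ᶠ n in atTop, y n ^ b ≤ c := by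
    intro b c hb hc
    obtain ⟨e, he, h1⟩ := small_pow hb hc
    filter_upwards [hy.eventually (gt_mem_nhds he), eventually_ge_atTop N0] with n hn hn0
    exact h1 _ (h.y0 n hn0).le hn.le
  have hpa : p < p1 := by
    have := h.pp
    nlinarith
  have hpb : p < v1 := by
    have := h.pv
    nlinarith
  have e1 := hpow σ (1 / 4) hσ0 (by norm_num)
  have e2 := hpow (2 - 4 * σ) (min a es) (by linarith) (lt_min ha h.es0)
  have e3 := hpow (σ * p / 2) (1 / 4) (by positivity) (by norm_num)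
  have e4 := hpow ((2 - 3 * σ) * p1 - r1) (1 / 4) (by linarith) (by norm_num)
  have e5 := hpow ((2 - 3 * σ) * p1 - r2) (1 / (8 * (κ + 1))) (by linarith) (by positivity)
  have e6 := hpow ((2 - 3 * σ) * v1 - r2) (1 / 8) (by linarith) (by norm_num)
  have e7 : ∀ᶠ n in atTop, y n ≤ 1 := by
    filter_upwards [hy.eventually (gt_mem_nhds one_pos)] with n hn using hn.le
  obtain ⟨N1, hN1⟩ := eventually_atTop.1 ((e1.and (e2.and (e3.and (e4.and (e5.and (e6.and e7)))))))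
  obtain ⟨N2, hN2⟩ := close h start hx hy hea
  refine ⟨max (max N1 N2) N0, fun T hT => ?_⟩
  have hTN1 : N1 ≤ T := (le_max_left _ _).trans ((le_max_left _ _).trans hT)
  have hTN2 : N2 ≤ T := (le_max_right _ _).trans ((le_max_left _ _).trans hT)
  have hTN0 : N0 ≤ T := (le_max_right _ _).trans hT
  obtain ⟨f1, f2, f3, f4, f5, f6, f7⟩ := hN1 T hTN1
  obtain ⟨n, ε, g1, g2, g3, g4, g5, g6, g7, g8, g9⟩ := hN2 T hTN2
  have hyT := h.y0 T hTN0
  have hyn := h.y0 n g1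
  have hε : 0 < ε := lt_of_lt_of_le (pow_pos hyn 2) g3
  have hε1 : ε ≤ 1 := g4.trans (h.es1.trans (by norm_num))
  have hw1 := h.w1 ε hε g4
  -- all points of `[T, T+1]` are reached from `n`
  have hst : ∀ k, T ≤ k → k ≤ T + 1 → Good k (max (ε / 2) (ε ^ (-σ) * y n ^ 2)) ∧
      |x k - x n| ≤ ε ^ p1 ∧
      |Real.log (y k) - Real.log (y n) + κ * x n * ((k : ℝ) - n)| ≤ ε ^ v1 := fun k h1 h2 =>
    h.step n k ε g1 g2 g3 g4 (by omega) (by omega)
  have hd : ∀ k, T ≤ k → k ≤ T + 1 → 0 ≤ (k : ℝ) - n ∧ (k : ℝ) - n ≤ 4 * w ε := by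
    intro k h1 h2
    have h3 : (n : ℝ) ≤ k := by exact_mod_cast (show n ≤ k by omega)
    have h4 : (k : ℝ) ≤ n + 4 * w ε := by exact_mod_cast (show k ≤ n + 4 * w ε by omega)
    exact ⟨by linarith, by linarith⟩
  have hlog : |Real.log (y T) - Real.log (y n)| ≤ 1 / 5 := by
    have h1 := (hst T le_rfl (by omega)).2.2
    obtain ⟨h2, h3⟩ := hd T le_rfl (by omega)
    have h4 := hvar ε hε g5 g4 (x n) _ g7 h2 h3
    have h5 := abs_sub (Real.log (y T) - Real.log (y n) + κ * x n * ((T : ℝ) - n))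
      (κ * x n * ((T : ℝ) - n))
    rw [add_sub_cancel_right] at h5
    linarith
  -- `ε` in terms of `y T`
  have hεT : ε ≤ 2 * y T ^ (2 - 3 * σ) :=
    g6.trans (pow_cmp hyn hyT hlog (by linarith) (by linarith))
  have hεb : ∀ b : ℝ, 0 < b → b ≤ 1 → ε ^ b ≤ 2 * y T ^ ((2 - 3 * σ) * b) := by
    intro b hb0 hb1
    have h1 : ε ^ b ≤ (2 * y T ^ (2 - 3 * σ)) ^ b := Real.rpow_le_rpow hε.le hεT hb0.le
    rw [Real.mul_rpow (by norm_num) (by positivity), ← Real.rpow_mul hyT.le] at h1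
    have h2 : (2 : ℝ) ^ b ≤ 2 := by
      conv_rhs => rw [← Real.rpow_one 2]
      exact Real.rpow_le_rpow_of_exponent_le (by norm_num) hb1
    exact h1.trans (mul_le_mul_of_nonneg_right h2 (by positivity))
  have hP := hεb p1 hp1 h.p11
  have hV := hεb v1 hv1 h.v11
  have hp := hεb p hp0 (hpa.le.trans h.p11)
  -- splitting off small factors
  have hsplit : ∀ b c : ℝ, y T ^ b = y T ^ (b - c) * y T ^ c := by
    intro b c
    rw [← Real.rpow_add hyT]; congr 1; ring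
  refine ⟨hyT, f7, f2.trans (min_le_left _ _), f2.trans (min_le_right _ _), ?_, ?_, ?_, ?_⟩
  · refine h.mono _ _ _ (hst T le_rfl (by omega)).1 ?_
    have h1 : 2 * y T ^ (2 - 3 * σ) ≤ y T ^ (2 - 4 * σ) := by
      rw [hsplit (2 - 3 * σ) (2 - 4 * σ), show 2 - 3 * σ - (2 - 4 * σ) = σ by ring]
      have := mul_le_mul_of_nonneg_right f1 (Real.rpow_nonneg hyT.le (2 - 4 * σ))
      have := Real.rpow_nonneg hyT.le (2 - 4 * σ)
      linarith
    refine max_le (by linarith) ?_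
    have h4 : ε ^ (-σ) ≤ (y n ^ 2) ^ (-σ) :=
      Real.rpow_le_rpow_of_nonpos (by positivity) g3 (by linarith)
    have h5 : (y n ^ 2) ^ (-σ) * y n ^ 2 = y n ^ (2 - 2 * σ) := by
      rw [← Real.rpow_natCast, ← Real.rpow_mul hyn.le, ← Real.rpow_add hyn]
      congr 1
      push_cast
      ring
    have h6 : ε ^ (-σ) * y n ^ 2 ≤ y n ^ (2 - 2 * σ) := by
      rw [← h5]
      exact mul_le_mul_of_nonneg_right h4 (by positivity)
    have h7 : y n ^ (2 - 2 * σ) ≤ 2 * y T ^ (2 - 2 * σ) :=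
      pow_cmp hyn hyT hlog (by linarith) (by linarith)
    have h8 : y T ^ (2 - 2 * σ) ≤ y T ^ (2 - 3 * σ) :=
      Real.rpow_le_rpow_of_exponent_ge hyT f7 (by linarith)
    linarith
  · have h1 := (hst T le_rfl (by omega)).2.1
    have h2 : |x T| ≤ ε ^ p + ε ^ p1 := by
      have h3 := abs_add_le (x T - x n) (x n)
      rw [sub_add_cancel] at h3
      linarith
    have h3 : ε ^ p1 ≤ ε ^ p := Real.rpow_le_rpow_of_exponent_ge hε hε1 hpa.le
    have h4 : 4 * y T ^ ((2 - 3 * σ) * p) ≤ y T ^ ((2 - 4 * σ) * p) := by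
      rw [hsplit ((2 - 3 * σ) * p) ((2 - 4 * σ) * p),
        show (2 - 3 * σ) * p - (2 - 4 * σ) * p = σ * p by ring]
      have h5 : y T ^ (σ * p) ≤ y T ^ (σ * p / 2) :=
        Real.rpow_le_rpow_of_exponent_ge hyT f7 (by have := mul_pos hσ0 hp0; linarith)
      have := mul_le_mul_of_nonneg_right (h5.trans f3)
        (Real.rpow_nonneg hyT.le ((2 - 4 * σ) * p))
      linarith
    linarith
  · intro k h1 h2
    have h3 := (hst T le_rfl (by omega)).2.1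
    have h4 := (hst k h1 h2).2.1
    have h5 : |x k - x T| ≤ 2 * ε ^ p1 := by
      have h6 := abs_sub (x k - x n) (x T - x n)
      rw [sub_sub_sub_cancel_right] at h6
      linarith
    have h6 : 4 * y T ^ ((2 - 3 * σ) * p1) ≤ y T ^ r1 := by
      rw [hsplit ((2 - 3 * σ) * p1) r1]
      have := mul_le_mul_of_nonneg_right f4 (Real.rpow_nonneg hyT.le r1)
      linarith
    linarith
  · have h3 := (hst T le_rfl (by omega)).2
    have h4 := (hst (T + 1) (by omega) le_rfl).2.2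
    have h5 : Real.log (y (T + 1)) - Real.log (y T) + κ * x T =
        (Real.log (y (T + 1)) - Real.log (y n) + κ * x n * (((T + 1 : ℕ) : ℝ) - n)) -
        (Real.log (y T) - Real.log (y n) + κ * x n * ((T : ℝ) - n)) + κ * (x T - x n) := by
      push_cast; ring
    have h6 : |Real.log (y (T + 1)) - Real.log (y T) + κ * x T| ≤
        ε ^ v1 + ε ^ v1 + κ * ε ^ p1 := by
      rw [h5]
      refine (abs_add_le _ _).trans (add_le_add ((abs_sub _ _).trans (add_le_add h4 h3.2)) ?_)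
      rw [abs_mul, abs_of_pos hκ]
      exact mul_le_mul_of_nonneg_left h3.1 hκ.le
    have h7 : y T ^ ((2 - 3 * σ) * p1) ≤ 1 / (8 * (κ + 1)) * y T ^ r2 := by
      rw [hsplit ((2 - 3 * σ) * p1) r2]
      exact mul_le_mul_of_nonneg_right f5 (Real.rpow_nonneg hyT.le r2)
    have h8 : y T ^ ((2 - 3 * σ) * v1) ≤ 1 / 8 * y T ^ r2 := by
      rw [hsplit ((2 - 3 * σ) * v1) r2]
      exact mul_le_mul_of_nonneg_right f6 (Real.rpow_nonneg hyT.le r2)
    have h9 : κ * ε ^ p1 ≤ κ * (2 * (1 / (8 * (κ + 1)) * y T ^ r2)) :=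
      mul_le_mul_of_nonneg_left (by linarith) hκ.le
    have h10 : κ * (2 * (1 / (8 * (κ + 1)) * y T ^ r2)) ≤ 1 / 4 * y T ^ r2 := by
      have h11 : κ * (2 * (1 / (8 * (κ + 1)) * y T ^ r2)) = κ / (κ + 1) * (1 / 4 * y T ^ r2) := by
        field_simp
        ring
      rw [h11]
      refine mul_le_of_le_one_left (by positivity) ?_
      rw [div_le_one (by positivity)]
      linarith
    have h11 := Real.rpow_nonneg hyT.le r2
    linarith

end Vale.Agent.P159.H801
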