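import Vale.Agent.P159.H801.Flow

/-!
P159 (helper801), module CLOSE, second form of the contract: the V half of the step is only required
under `log (1/y) ≤ ε^(-c1)`; a crude lower bound `log (1/y n) ≤ C (n+1)` is assumed instead.
-/

open Filter Topology Finset

namespace Vale.Agent.P159.H801

/-- data of the scalar induction, V half under `log (1/y) ≤ ε^(-c1)` -/
structure Ind2 (Good : ℕ → ℝ → Prop) (x y : ℕ → ℝ) (w : ℝ → ℕ) (κ B σ p p1 v1 es c1 : ℝ)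
    (N0 : ℕ) : Prop where
  κ0 : 0 < κ
  B0 : 0 < B
  σ0 : 0 < σ
  σ1 : σ ≤ 1 / 4
  p0 : 0 < p
  pp : 2 * p < (1 - σ) * p1
  pv : p < (1 - σ) * v1
  p11 : p1 ≤ 1
  v11 : v1 ≤ 1
  es0 : 0 < es
  es1 : es ≤ 1 / 2
  c10 : 0 < c1
  w1 : ∀ ε, 0 < ε → ε ≤ es → 1 ≤ w ε
  w2 : ∀ ε ε', 0 < ε → ε / 2 ≤ ε' → ε' ≤ es → w ε' ≤ 2 * w ε
  w3 : ∀ ε, 0 < ε → ε ≤ es → (w ε : ℝ) ≤ B * Real.log (1 / ε)
  y0 : ∀ n, N0 ≤ n → 0 < y n
  yl : ∃ C, ∀ n, N0 ≤ n → Real.log (1 / y n) ≤ C * ((n : ℝ) + 1)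
  mono : ∀ n ε ε', Good n ε → ε ≤ ε' → Good n ε'
  low : ∀ n ε, N0 ≤ n → Good n ε → y n ^ 2 ≤ ε → ε ≤ es → -(ε ^ p) ≤ x n
  stepP : ∀ n m ε, N0 ≤ n → Good n ε → y n ^ 2 ≤ ε → ε ≤ es → n + w ε ≤ m → m ≤ n + 4 * w ε →
    Good m (max (ε / 2) (ε ^ (-σ) * y n ^ 2)) ∧ |x m - x n| ≤ ε ^ p1
  stepV : ∀ n m ε, N0 ≤ n → Good n ε → y n ^ 2 ≤ ε → ε ≤ es → n + w ε ≤ m → m ≤ n + 4 * w ε →
    Real.log (1 / y n) ≤ ε ^ (-c1) →
    |Real.log (y m) - Real.log (y n) + κ * x n * ((m : ℝ) - n)| ≤ ε ^ v1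

/-- a chain of windows on which the V half is available -/
structure Ch2 (x y : ℕ → ℝ) (w : ℝ → ℕ) (κ σ p p1 v1 es : ℝ) (n : ℕ → ℕ) (ε : ℕ → ℝ) :
    Prop where
  y0 : ∀ j, 0 < y (n j)
  ye : ∀ j, y (n j) ^ 2 ≤ ε j
  ees : ∀ j, ε j ≤ es
  w1 : ∀ j, 1 ≤ w (ε j)
  s1 : ∀ j, n j + w (ε j) ≤ n (j + 1)
  s2 : ∀ j, n (j + 1) ≤ n j + 4 * w (ε j)
  re : ∀ j, ε (j + 1) = max (max (ε j / 2) (y (n j) ^ (2 - 2 * σ))) (y (n (j + 1)) ^ 2)
  low : ∀ j, -(ε j ^ p) ≤ x (n j)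
  stP : ∀ j, |x (n (j + 1)) - x (n j)| ≤ ε j ^ p1
  stV : ∀ j, |Real.log (y (n (j + 1))) - Real.log (y (n j)) +
    κ * x (n j) * ((n (j + 1) : ℝ) - n j)| ≤ ε j ^ v1

variable {Good : ℕ → ℝ → Prop} {x y : ℕ → ℝ} {w : ℝ → ℕ} {κ B σ p p1 v1 es c1 : ℝ} {N0 : ℕ}
  {n : ℕ → ℕ} {ε : ℕ → ℝ}

lemma Ch2.e_pos (c : Ch2 x y w κ σ p p1 v1 es n ε) (j : ℕ) : 0 < ε j :=
  lt_of_lt_of_le (pow_pos (c.y0 j) 2) (c.ye j)

lemma Ch2.half (c : Ch2 x y w κ σ p p1 v1 es n ε) (j : ℕ) : ε j / 2 ≤ ε (j + 1) := by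
  rw [c.re j]
  exact (le_max_left _ _).trans (le_max_left _ _)

lemma Ch2.y_le (c : Ch2 x y w κ σ p p1 v1 es n ε) (hes : es ≤ 1 / 2) (j : ℕ) : y (n j) ≤ 1 := by
  have h1 := c.ye j
  have h2 := c.ees j
  have h4 := c.y0 j
  nlinarith

lemma Ch2.lt (c : Ch2 x y w κ σ p p1 v1 es n ε) (j : ℕ) : n j + 1 ≤ n (j + 1) := by
  have h1 := c.w1 j
  have h2 := c.s1 j
  omega

lemma Ch2.ge (c : Ch2 x y w κ σ p p1 v1 es n ε) (j : ℕ) : j ≤ n j := by
  induction j with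
  | zero => exact Nat.zero_le _
  | succ j ih =>
    have := c.lt j
    omega

lemma Ch2.tend (c : Ch2 x y w κ σ p p1 v1 es n ε) : Tendsto n atTop atTop :=
  tendsto_atTop_mono c.ge tendsto_id

lemma Ch2.mono (c : Ch2 x y w κ σ p p1 v1 es n ε) : Monotone n :=
  monotone_nat_of_le_succ fun j => (Nat.le_succ _).trans (c.lt j)

/-- **(★)** in the form with numerical hypotheses only -/
theorem star2 (hκ : 0 < κ) (hσ0 : 0 < σ) (hσ1 : σ ≤ 1 / 4) (hp0 : 0 < p)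
    (hpp : 2 * p < (1 - σ) * p1) (hpv : p < (1 - σ) * v1) (hp11 : p1 ≤ 1) (hv11 : v1 ≤ 1)
    (hes : es ≤ 1 / 2) :
    ∃ e1 : ℝ, 0 < e1 ∧ ∀ (n : ℕ → ℕ) (ε : ℕ → ℝ), Ch2 x y w κ σ p p1 v1 es n ε →
      Tendsto (fun j => x (n j)) atTop (𝓝 0) → (∀ j, κ * x (n j) ≤ 1) →
      ∀ j, ε j ≤ e1 → x (n j) ≤ ε j ^ p := by
  have h1σ : 0 < 1 - σ := by linarith
  have hp1 : 0 < p1 := by
    by_contra hc
    have : (1 - σ) * p1 ≤ 0 := mul_nonpos_of_nonneg_of_nonpos h1σ.le (not_lt.1 hc)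
    linarith
  have hv1 : 0 < v1 := by
    by_contra hc
    have : (1 - σ) * v1 ≤ 0 := mul_nonpos_of_nonneg_of_nonpos h1σ.le (not_lt.1 hc)
    linarith
  have hc10 : 0 < κ * (1 - σ) * p1 / 16 := by positivity
  obtain ⟨ea, hea, ha⟩ := small_pow (a := (1 - σ) * p1 - 2 * p) (by linarith) hc10
  obtain ⟨eb, heb, hb⟩ := small_pow (a := (1 - σ) * v1 - p) (c := κ / 8) (by linarith)
    (by positivity)
  refine ⟨min ea eb, lt_min hea heb, fun n ε c hx hxb j hj => ?_⟩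
  by_contra hcon
  rw [not_le] at hcon
  have he0 : 0 < ε j := c.e_pos j
  have he1 : ε j ≤ 1 := (c.ees j).trans (hes.trans (by norm_num))
  have hep : 0 < ε j ^ p := Real.rpow_pos_of_pos he0 _
  have hX0 : 0 < x (n j) := lt_trans hep hcon
  have hA : ε j ^ ((1 - σ) * p1) ≤ κ * (1 - σ) * p1 / 16 * x (n j) ^ 2 := by
    have h1 := ha (ε j) he0.le (hj.trans (min_le_left _ _))
    have h2 : ε j ^ ((1 - σ) * p1) = ε j ^ ((1 - σ) * p1 - 2 * p) * ε j ^ (2 * p) := by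
      rw [← Real.rpow_add he0]; congr 1; ring
    have h3 : ε j ^ (2 * p) ≤ x (n j) ^ 2 := by
      have h1 : ε j ^ (2 * p) = (ε j ^ p) ^ 2 := by
        rw [mul_comm, Real.rpow_mul he0.le]; norm_num
      rw [h1]
      exact pow_le_pow_left₀ hep.le hcon.le 2
    rw [h2]
    exact mul_le_mul h1 h3 (Real.rpow_nonneg he0.le _) hc10.le
  have hB : ε j ^ ((1 - σ) * v1) ≤ κ / 8 * x (n j) := by
    have h1 := hb (ε j) he0.le (hj.trans (min_le_right _ _))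
    have h2 : ε j ^ ((1 - σ) * v1) = ε j ^ ((1 - σ) * v1 - p) * ε j ^ p := by
      rw [← Real.rpow_add he0]; congr 1; ring
    rw [h2]
    exact mul_le_mul h1 hcon.le hep.le (by positivity)
  have hcore : ∀ i, x (n j) / 2 ≤ x (n (j + i)) := by
    refine star_core (κ := κ) (σ := σ) (p1 := p1) (v1 := v1) hκ hσ0 hσ1 hp1 hp11 hv1 hv11 hX0
      (hxb j) (fun i => x (n (j + i))) (fun i => y (n (j + i))) (fun i => ε (j + i))
      (fun i => (n (j + i + 1) : ℝ) - n (j + i)) he0 he1 rfl (fun i => c.e_pos _) ?_ ?_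
      (fun i => c.y0 _) (fun i => c.y_le hes _) (c.ye j) (fun i => c.re (j + i)) ?_
      (fun i => c.stP (j + i)) (fun i => c.stV (j + i))
    · simp only [add_zero]
      have h5 : x (n j) / 2 * (κ * x (n j) * (1 - σ) * p1 / 2 / 2) =
        2 * (κ * (1 - σ) * p1 / 16 * x (n j) ^ 2) := by ring
      rw [h5]
      linarith
    · simp only [add_zero]
      linarith
    · intro i
      have h3 : ((n (j + i) + 1 : ℕ) : ℝ) ≤ (n (j + i + 1) : ℝ) := by exact_mod_cast c.lt (j + i)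
      push_cast at h3
      linarith
  have hlim : x (n j) / 2 ≤ 0 := by
    refine ge_of_tendsto hx ?_
    filter_upwards [eventually_ge_atTop j] with k hk
    obtain ⟨i, rfl⟩ := Nat.exists_eq_add_of_le hk
    exact hcore i
  linarith

lemma p1_pos2 (h : Ind2 Good x y w κ B σ p p1 v1 es c1 N0) : 0 < p1 := by
  have h1 := h.pp
  have h2 := h.p0
  have h3 := h.σ1
  by_contra hc
  have : (1 - σ) * p1 ≤ 0 := mul_nonpos_of_nonneg_of_nonpos (by linarith) (not_lt.1 hc)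
  linarith

lemma v1_pos2 (h : Ind2 Good x y w κ B σ p p1 v1 es c1 N0) : 0 < v1 := by
  have h1 := h.pv
  have h2 := h.p0
  have h3 := h.σ1
  by_contra hc
  have : (1 - σ) * v1 ≤ 0 := mul_nonpos_of_nonneg_of_nonpos (by linarith) (not_lt.1 hc)
  linarith

/-- `y` varies little over a window as soon as `|x| ≤ ε^p` -/
lemma y_var2 (h : Ind2 Good x y w κ B σ p p1 v1 es c1 N0) {a : ℝ} (ha : 0 < a) :
    ∃ e : ℝ, 0 < e ∧ ∀ ε, 0 < ε → ε ≤ e → ε ≤ es → ∀ X d : ℝ, |X| ≤ ε ^ p → 0 ≤ d →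
      d ≤ 4 * w ε → |κ * X * d| + ε ^ v1 ≤ a := by
  have hκ := h.κ0
  have hB := h.B0
  obtain ⟨ea, hea, h1⟩ := small_pow (a := v1) (c := a / 2) (v1_pos2 h) (by positivity)
  obtain ⟨eb, heb, h2⟩ := log_small (a := p) (c := a / 2 / (4 * κ * B)) h.p0 (by positivity)
  refine ⟨min ea eb, lt_min hea heb, fun ε h0 h3 h4 X d hX hd0 hd => ?_⟩
  have h5 := h1 ε h0.le (h3.trans (min_le_left _ _))
  have h6 := h2 ε h0 (h3.trans (min_le_right _ _))
  have h7 : d ≤ 4 * (B * Real.log (1 / ε)) := by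
    have := h.w3 ε h0 h4
    linarith
  have h8 : |κ * X * d| = κ * (|X| * d) := by
    rw [abs_mul, abs_mul, abs_of_pos hκ, abs_of_nonneg hd0, mul_assoc]
  have h9 : |X| * d ≤ ε ^ p * (4 * (B * Real.log (1 / ε))) :=
    mul_le_mul hX h7 hd0 (Real.rpow_nonneg h0.le _)
  rw [h8]
  have h10 : κ * (|X| * d) ≤ κ * (ε ^ p * (4 * (B * Real.log (1 / ε)))) :=
    mul_le_mul_of_nonneg_left h9 hκ.le
  have h11 : κ * (ε ^ p * (4 * (B * Real.log (1 / ε)))) =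
      (ε ^ p * Real.log (1 / ε)) * (4 * κ * B) := by ring
  rw [le_div_iff₀ (by positivity)] at h6
  linarith

/-- smallness used for `(HV)` -/
lemma hv_small {B c1 : ℝ} (hB : 0 < B) (hc : 0 < c1) :
    ∃ e : ℝ, 0 < e ∧ e ≤ 1 ∧ ∀ ε, 0 < ε → ε ≤ e →
      (8 * B + 1) * Real.log (1 / ε) + 1 ≤ ε ^ (-c1) ∧
      ε ^ (-c1) + (4 * B * Real.log (1 / ε) + 1) ≤ (ε / 2) ^ (-c1) := by
  have h2 : 1 < (2 : ℝ) ^ c1 := Real.one_lt_rpow (by norm_num) hc
  set m : ℝ := min 1 ((2 : ℝ) ^ c1 - 1) with hm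
  have hm0 : 0 < m := lt_min one_pos (by linarith)
  obtain ⟨ea, hea, ha⟩ := log_small (a := c1) (c := m / (2 * (8 * B + 1))) hc (by positivity)
  obtain ⟨eb, heb, hb⟩ := small_pow (a := c1) (c := m / 2) hc (by positivity)
  refine ⟨min (min ea eb) 1, lt_min (lt_min hea heb) one_pos, min_le_right _ _, fun ε h0 h1 => ?_⟩
  have h3 := ha ε h0 (h1.trans ((min_le_left _ _).trans (min_le_left _ _)))
  have h4 := hb ε h0.le (h1.trans ((min_le_left _ _).trans (min_le_right _ _)))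
  have h5 : ε ≤ 1 := h1.trans (min_le_right _ _)
  have hl : 0 ≤ Real.log (1 / ε) := Real.log_nonneg (by rw [one_le_div h0]; exact h5)
  have hE : 0 < ε ^ c1 := Real.rpow_pos_of_pos h0 _
  have hinv : ε ^ (-c1) = (ε ^ c1)⁻¹ := Real.rpow_neg h0.le _
  rw [le_div_iff₀ (by positivity)] at h3
  have h6 : ((8 * B + 1) * Real.log (1 / ε) + 1) * ε ^ c1 ≤ m := by
    have : ((8 * B + 1) * Real.log (1 / ε) + 1) * ε ^ c1 =
      (ε ^ c1 * Real.log (1 / ε) * (2 * (8 * B + 1))) / 2 + ε ^ c1 := by ring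
    linarith
  have h7 : (8 * B + 1) * Real.log (1 / ε) + 1 ≤ m * ε ^ (-c1) := by
    rw [hinv, ← div_eq_mul_inv, le_div_iff₀ hE]
    exact h6
  have h8 : 0 < ε ^ (-c1) := Real.rpow_pos_of_pos h0 _
  refine ⟨h7.trans (mul_le_of_le_one_left h8.le (min_le_left _ _)), ?_⟩
  have h9 : (ε / 2) ^ (-c1) = 2 ^ c1 * ε ^ (-c1) := by
    rw [Real.div_rpow h0.le (by norm_num), Real.rpow_neg (by norm_num : (0 : ℝ) ≤ 2),
      div_inv_eq_mul, mul_comm]
  have h10 : m * ε ^ (-c1) ≤ ((2 : ℝ) ^ c1 - 1) * ε ^ (-c1) :=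
    mul_le_mul_of_nonneg_right (min_le_right _ _) h8.le
  have h11 : 4 * B * Real.log (1 / ε) ≤ (8 * B + 1) * Real.log (1 / ε) :=
    mul_le_mul_of_nonneg_right (by linarith) hl
  rw [h9]
  linarith

/-- **persistence of (HV)** -/
lemma hv_step {B c1 σ ε e y0 y1 : ℝ} (hσ0 : 0 < σ) (hσ1 : σ ≤ 1 / 4) (hB : 0 < B)
    (he : ∀ ε, 0 < ε → ε ≤ e → (8 * B + 1) * Real.log (1 / ε) + 1 ≤ ε ^ (-c1) ∧
      ε ^ (-c1) + (4 * B * Real.log (1 / ε) + 1) ≤ (ε / 2) ^ (-c1)) (he1 : e ≤ 1)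
    (hε : 0 < ε) (hεe : ε ≤ e) (hy0 : 0 < y0) (hy1 : 0 < y1) (hye : y0 ^ 2 ≤ ε)
    (hX : Real.log (1 / y1) ≤ Real.log (1 / y0) + (4 * B * Real.log (1 / ε) + 1))
    (hHV : Real.log (1 / y0) ≤ ε ^ (-c1))
    (hle : max (max (ε / 2) (y0 ^ (2 - 2 * σ))) (y1 ^ 2) ≤ e) :
    Real.log (1 / y1) ≤ (max (max (ε / 2) (y0 ^ (2 - 2 * σ))) (y1 ^ 2)) ^ (-c1) := by
  have hl : 0 ≤ Real.log (1 / ε) :=
    Real.log_nonneg (by rw [one_le_div hε]; exact hεe.trans he1)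
  rcases le_total (max (ε / 2) (y0 ^ (2 - 2 * σ))) (y1 ^ 2) with h1 | h1
  · rw [max_eq_right h1] at hle ⊢
    have h2 : 0 < y1 ^ 2 := by positivity
    have h3 := (he _ h2 hle).1
    have h4 : Real.log (1 / y1 ^ 2) = 2 * Real.log (1 / y1) := by
      rw [one_div, one_div, ← inv_pow, Real.log_pow]; norm_num
    have h5 : 0 ≤ Real.log (1 / y1 ^ 2) :=
      Real.log_nonneg (by rw [one_le_div h2]; exact hle.trans he1)
    have h6 : 0 ≤ 8 * B * Real.log (1 / y1 ^ 2) := by positivity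
    linarith
  · rw [max_eq_left h1] at hle ⊢
    rcases le_total (ε / 2) (y0 ^ (2 - 2 * σ)) with h2 | h2
    · rw [max_eq_right h2] at hle ⊢
      have h3 : 0 < y0 ^ (2 - 2 * σ) := Real.rpow_pos_of_pos hy0 _
      have h4 := (he _ h3 hle).1
      have h5 : Real.log (1 / y0 ^ (2 - 2 * σ)) = (2 - 2 * σ) * Real.log (1 / y0) := by
        rw [one_div, one_div, ← Real.inv_rpow hy0.le, Real.log_rpow (by positivity)]
      have h6 : 0 ≤ Real.log (1 / y0 ^ (2 - 2 * σ)) :=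
        Real.log_nonneg (by rw [one_le_div h3]; exact hle.trans he1)
      have h7 : 0 ≤ Real.log (1 / y0) := by
        rw [h5] at h6
        exact nonneg_of_mul_nonneg_right h6 (by linarith)
      have h8 : Real.log (1 / ε) ≤ 2 * Real.log (1 / y0) := by
        have h9 : Real.log (1 / ε) ≤ Real.log (1 / y0 ^ 2) := by
          apply Real.log_le_log (by positivity)
          exact one_div_le_one_div_of_le (by positivity) hye
        have h10 : Real.log (1 / y0 ^ 2) = 2 * Real.log (1 / y0) := by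
          rw [one_div, one_div, ← inv_pow, Real.log_pow]; norm_num
        linarith
      have h9 : 4 * B * Real.log (1 / ε) ≤ 4 * B * (2 * Real.log (1 / y0)) :=
        mul_le_mul_of_nonneg_left h8 (by positivity)
      have h10 : (8 * B + 1) * Real.log (1 / y0) ≤
          (8 * B + 1) * Real.log (1 / y0 ^ (2 - 2 * σ)) := by
        apply mul_le_mul_of_nonneg_left _ (by positivity)
        rw [h5]
        nlinarith
      linarith
    · rw [max_eq_left h2] at hle ⊢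
      have h3 := (he ε hε hεe).2
      linarith

/-! ### the chain -/

lemma inv_nxt2 (h : Ind2 Good x y w κ B σ p p1 v1 es c1 N0) {e : ℝ} {N T : ℕ} (hN : N0 ≤ N)
    (he : e ≤ es) (h1 : ∀ n, N ≤ n → y n ^ 2 ≤ e) (h2 : ∀ n, N ≤ n → y n ^ (2 - 2 * σ) ≤ e)
    {s : ℕ × ℝ} (hs : Inv Good y e N s) : Inv Good y e N (nxt y w σ T s) := by
  obtain ⟨a1, a2, a3, a4⟩ := hs
  have b1 : N ≤ nx w T s := a1.trans ((Nat.le_add_right _ _).trans (nx_ge w T s))
  have hy := h.y0 _ (hN.trans a1)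
  have hs0 : 0 < s.2 := lt_of_lt_of_le (pow_pos hy 2) a3
  refine ⟨b1, ?_, le_max_right _ _, ?_⟩
  · have h3 := (h.stepP s.1 (nx w T s) s.2 (hN.trans a1) a2 a3 (a4.trans he) (nx_ge w T s)
      ((nx_le w T s).trans (by omega))).1
    refine h.mono _ _ _ h3 (le_trans (max_le_max le_rfl ?_) (le_max_left _ _))
    have h4 : s.2 ^ (-σ) ≤ (y s.1 ^ 2) ^ (-σ) :=
      Real.rpow_le_rpow_of_nonpos (by positivity) a3 (by linarith [h.σ0])
    have h5 : (y s.1 ^ 2) ^ (-σ) * y s.1 ^ 2 = y s.1 ^ (2 - 2 * σ) := by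
      rw [← Real.rpow_natCast, ← Real.rpow_mul hy.le, ← Real.rpow_add hy]
      congr 1
      push_cast
      ring
    calc s.2 ^ (-σ) * y s.1 ^ 2 ≤ (y s.1 ^ 2) ^ (-σ) * y s.1 ^ 2 :=
          mul_le_mul_of_nonneg_right h4 (by positivity)
      _ = _ := h5
  · refine max_le (max_le ?_ (h2 _ a1)) (h1 _ b1)
    have : s.2 ≤ e := a4
    linarith

/-- the invariant with (HV) -/
def InvV (Good : ℕ → ℝ → Prop) (y : ℕ → ℝ) (e c1 : ℝ) (N : ℕ) (s : ℕ × ℝ) : Prop :=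
  Inv Good y e N s ∧ Real.log (1 / y s.1) ≤ s.2 ^ (-c1)

/-- numerical threshold for (HV) -/
def HVe (B c1 e : ℝ) : Prop := ∀ ε, 0 < ε → ε ≤ e →
  (8 * B + 1) * Real.log (1 / ε) + 1 ≤ ε ^ (-c1) ∧
    ε ^ (-c1) + (4 * B * Real.log (1 / ε) + 1) ≤ (ε / 2) ^ (-c1)

lemma invV_nxt (h : Ind2 Good x y w κ B σ p p1 v1 es c1 N0) {e : ℝ} {N T : ℕ} (hN : N0 ≤ N)
    (he : e ≤ es) (h1 : ∀ n, N ≤ n → y n ^ 2 ≤ e) (h2 : ∀ n, N ≤ n → y n ^ (2 - 2 * σ) ≤ e)
    (h3 : ∀ n, N ≤ n → κ * x n ≤ 1) (hv : HVe B c1 e)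
    {s : ℕ × ℝ} (hs : InvV Good y e c1 N s) : InvV Good y e c1 N (nxt y w σ T s) := by
  have hI := inv_nxt2 h (T := T) hN he h1 h2 hs.1
  refine ⟨hI, ?_⟩
  obtain ⟨⟨a1, a2, a3, a4⟩, a5⟩ := hs
  have hy := h.y0 _ (hN.trans a1)
  have hy1 : 0 < y (nx w T s) := h.y0 _ (hN.trans hI.1)
  have hs0 : 0 < s.2 := lt_of_lt_of_le (pow_pos hy 2) a3
  have he1 : e ≤ 1 := he.trans (h.es1.trans (by norm_num))
  have hV := h.stepV s.1 (nx w T s) s.2 (hN.trans a1) a2 a3 (a4.trans he) (nx_ge w T s)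
      ((nx_le w T s).trans (by omega)) a5
  refine hv_step (e := e) h.σ0 h.σ1 h.B0 hv he1 hs0 a4 hy hy1 a3 ?_ a5 hI.2.2.2
  have h4 := (abs_le.1 hV).1
  have hd0 : 0 ≤ (nx w T s : ℝ) - s.1 := by
    have : s.1 ≤ nx w T s := (Nat.le_add_right _ _).trans (nx_ge w T s)
    have : (s.1 : ℝ) ≤ (nx w T s : ℝ) := by exact_mod_cast this
    linarith
  have hd1 : (nx w T s : ℝ) - s.1 ≤ 4 * w s.2 := by
    have : nx w T s ≤ s.1 + 4 * w s.2 := (nx_le w T s).trans (by omega)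
    have : (nx w T s : ℝ) ≤ s.1 + 4 * w s.2 := by exact_mod_cast this
    linarith
  have h5 : κ * x s.1 * ((nx w T s : ℝ) - s.1) ≤ 1 * ((nx w T s : ℝ) - s.1) :=
    mul_le_mul_of_nonneg_right (h3 _ a1) hd0
  have h6 := h.w3 _ hs0 (a4.trans he)
  have h7 : s.2 ^ v1 ≤ 1 := Real.rpow_le_one hs0.le (a4.trans he1) (v1_pos2 h).le
  show Real.log (1 / y (nx w T s)) ≤ _
  rw [one_div, one_div, Real.log_inv, Real.log_inv]
  linarith

lemma invV_ch (h : Ind2 Good x y w κ B σ p p1 v1 es c1 N0) {e : ℝ} {N T : ℕ} (hN : N0 ≤ N)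
    (he : e ≤ es) (h1 : ∀ n, N ≤ n → y n ^ 2 ≤ e) (h2 : ∀ n, N ≤ n → y n ^ (2 - 2 * σ) ≤ e)
    (h3 : ∀ n, N ≤ n → κ * x n ≤ 1) (hv : HVe B c1 e)
    {s : ℕ × ℝ} (hs : InvV Good y e c1 N s) (j : ℕ) : InvV Good y e c1 N (ch y w σ T s j) := by
  induction j with
  | zero => exact hs
  | succ j ih =>
    rw [ch_succ]
    exact invV_nxt h hN he h1 h2 h3 hv ih

lemma inv_ch2 (h : Ind2 Good x y w κ B σ p p1 v1 es c1 N0) {e : ℝ} {N T : ℕ} (hN : N0 ≤ N)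
    (he : e ≤ es) (h1 : ∀ n, N ≤ n → y n ^ 2 ≤ e) (h2 : ∀ n, N ≤ n → y n ^ (2 - 2 * σ) ≤ e)
    {s : ℕ × ℝ} (hs : Inv Good y e N s) (j : ℕ) : Inv Good y e N (ch y w σ T s j) := by
  induction j with
  | zero => exact hs
  | succ j ih =>
    rw [ch_succ]
    exact inv_nxt2 h hN he h1 h2 ih

/-- (HV) is reached along the plain chain -/
lemma hv_start (h : Ind2 Good x y w κ B σ p p1 v1 es c1 N0) {e : ℝ} {N : ℕ} (hN : N0 ≤ N)
    (he : e ≤ es) (h1 : ∀ n, N ≤ n → y n ^ 2 ≤ e) (h2 : ∀ n, N ≤ n → y n ^ (2 - 2 * σ) ≤ e)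
    (hv : HVe B c1 e) {s : ℕ × ℝ} (hs : Inv Good y e N s) :
    ∃ j, Real.log (1 / y (ch y w σ 0 s j).1) ≤ (ch y w σ 0 s j).2 ^ (-c1) := by
  by_contra hcon
  push Not at hcon
  have hI := inv_ch2 h (T := 0) hN he h1 h2 hs
  have he1 : e ≤ 1 := he.trans (h.es1.trans (by norm_num))
  have hpos : ∀ j, 0 < (ch y w σ 0 s j).2 := fun j =>
    lt_of_lt_of_le (pow_pos (h.y0 _ (hN.trans (hI j).1)) 2) (hI j).2.2.1
  have hyp : ∀ j, 0 < y (ch y w σ 0 s j).1 := fun j => h.y0 _ (hN.trans (hI j).1)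
  -- `ε` halves at every step
  have hhalf : ∀ j, (ch y w σ 0 s (j + 1)).2 = (ch y w σ 0 s j).2 / 2 := by
    intro j
    have hre : (ch y w σ 0 s (j + 1)).2 = max (max ((ch y w σ 0 s j).2 / 2)
        (y (ch y w σ 0 s j).1 ^ (2 - 2 * σ))) (y (ch y w σ 0 s (j + 1)).1 ^ 2) := by
      rw [ch_succ]; rfl
    have h3 := hcon j
    have h4 := hcon (j + 1)
    have h5 := (hv _ (hpos j) (hI j).2.2.2).1
    have h6 := (hv _ (hpos (j + 1)) (hI (j + 1)).2.2.2).1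
    have hB := h.B0
    have hl : 0 ≤ Real.log (1 / (ch y w σ 0 s j).2) :=
      Real.log_nonneg (by rw [one_le_div (hpos j)]; exact (hI j).2.2.2.trans he1)
    have hl1 : 0 ≤ Real.log (1 / (ch y w σ 0 s (j + 1)).2) :=
      Real.log_nonneg (by rw [one_le_div (hpos _)]; exact (hI _).2.2.2.trans he1)
    have h7 : y (ch y w σ 0 s j).1 ^ (2 - 2 * σ) ≤ (ch y w σ 0 s j).2 / 2 := by
      have hy := hyp j
      have h8 : Real.log (1 / (ch y w σ 0 s j).2) + 1 ≤ Real.log (1 / y (ch y w σ 0 s j).1) := by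
        have : 0 ≤ 8 * B * Real.log (1 / (ch y w σ 0 s j).2) := by positivity
        linarith
      rw [one_div, one_div, Real.log_inv, Real.log_inv] at h8
      have hly : Real.log (y (ch y w σ 0 s j).1) ≤ 0 := by
        rw [one_div, Real.log_inv] at hl
        linarith
      have h9 : y (ch y w σ 0 s j).1 ^ (2 - 2 * σ) ≤
          Real.exp (Real.log (ch y w σ 0 s j).2 - 1) := by
        rw [Real.rpow_def_of_pos hy]
        apply Real.exp_le_exp.2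
        have h10 : Real.log (y (ch y w σ 0 s j).1) * (2 - 2 * σ) ≤
            Real.log (y (ch y w σ 0 s j).1) * 1 :=
          mul_le_mul_of_nonpos_left (by linarith [h.σ1]) hly
        linarith
      rw [Real.exp_sub, Real.exp_log (hpos j)] at h9
      refine h9.trans (div_le_div_of_nonneg_left (hpos j).le (by norm_num) ?_)
      have := Real.add_one_le_exp (1 : ℝ)
      linarith
    have h8 : y (ch y w σ 0 s (j + 1)).1 ^ 2 ≤ (ch y w σ 0 s j).2 / 2 := by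
      by_contra h9
      push Not at h9
      have h10 : (ch y w σ 0 s (j + 1)).2 = y (ch y w σ 0 s (j + 1)).1 ^ 2 := by
        rw [hre]
        exact max_eq_right ((max_le le_rfl h7).trans h9.le)
      have h11 : Real.log (1 / (ch y w σ 0 s (j + 1)).2) =
          2 * Real.log (1 / y (ch y w σ 0 s (j + 1)).1) := by
        rw [h10, one_div, one_div, ← inv_pow, Real.log_pow]; norm_num
      have : 0 ≤ 8 * B * Real.log (1 / (ch y w σ 0 s (j + 1)).2) := by positivity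
      linarith
    rw [hre, max_eq_left h7, max_eq_left h8]
  have heps : ∀ j, (ch y w σ 0 s j).2 = s.2 / 2 ^ j := by
    intro j
    induction j with
    | zero => rw [ch_zero]; simp
    | succ j ih => rw [hhalf, ih, pow_succ, div_div]
  -- position of the chain
  have hs0 : 0 < s.2 := by have := hpos 0; rwa [ch_zero] at this
  have hn : ∀ j, ((ch y w σ 0 s j).1 : ℝ) ≤
      s.1 + 4 * B * (j * (Real.log (1 / s.2) + j * Real.log 2)) := by
    intro j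
    induction j with
    | zero => rw [ch_zero]; simp
    | succ j ih =>
      have h3 : (ch y w σ 0 s (j + 1)).1 ≤ (ch y w σ 0 s j).1 + 3 * w (ch y w σ 0 s j).2 := by
        rw [ch_succ]
        exact nx_le w 0 _
      have h4 : ((ch y w σ 0 s (j + 1)).1 : ℝ) ≤
          (ch y w σ 0 s j).1 + 3 * w (ch y w σ 0 s j).2 := by exact_mod_cast h3
      have h5 := h.w3 _ (hpos j) ((hI j).2.2.2.trans he)
      have h6 : Real.log (1 / (ch y w σ 0 s j).2) = Real.log (1 / s.2) + j * Real.log 2 := by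
        rw [heps j, one_div_div, Real.log_div (by positivity) hs0.ne', Real.log_pow, one_div,
          Real.log_inv]
        ring
      rw [h6] at h5
      have hl0 : 0 ≤ Real.log (1 / s.2) := Real.log_nonneg (by
        rw [one_le_div hs0]; exact hs.2.2.2.trans he1)
      have hl2 : 0 < Real.log 2 := Real.log_pos (by norm_num)
      have hB := h.B0
      have h7 : 0 ≤ B * (Real.log (1 / s.2) + j * Real.log 2) := by positivity
      have h8 : 0 ≤ B * ((j + 1) * Real.log 2) := by positivity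
      push_cast
      nlinarith
  obtain ⟨C, hC⟩ := h.yl
  -- contradiction
  have hlim : Tendsto (fun j : ℕ => |C| * ((s.1 : ℝ) + 1) * ((j : ℝ) ^ 0 / (2 ^ c1) ^ j) +
      |C| * (4 * B * Real.log (1 / s.2)) * ((j : ℝ) ^ 1 / (2 ^ c1) ^ j) +
      |C| * (4 * B * Real.log 2) * ((j : ℝ) ^ 2 / (2 ^ c1) ^ j)) atTop
      (𝓝 (|C| * ((s.1 : ℝ) + 1) * 0 + |C| * (4 * B * Real.log (1 / s.2)) * 0 +
        |C| * (4 * B * Real.log 2) * 0)) := by
    have h2c : 1 < (2 : ℝ) ^ c1 := Real.one_lt_rpow (by norm_num) h.c10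
    exact (((tendsto_pow_const_div_const_pow_of_one_lt 0 h2c).const_mul _).add
      ((tendsto_pow_const_div_const_pow_of_one_lt 1 h2c).const_mul _)).add
      ((tendsto_pow_const_div_const_pow_of_one_lt 2 h2c).const_mul _)
  rw [mul_zero, mul_zero, mul_zero, add_zero, add_zero] at hlim
  obtain ⟨j, hj⟩ := (hlim.eventually (gt_mem_nhds (show (0 : ℝ) < s.2 ^ (-c1) from
    Real.rpow_pos_of_pos hs0 _))).exists
  have h3 := hcon j
  have h4 := hC _ (hN.trans (hI j).1)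
  have h5 := hn j
  have hP : 0 < ((2 : ℝ) ^ c1) ^ j := by positivity
  have h6 : (ch y w σ 0 s j).2 ^ (-c1) = s.2 ^ (-c1) * (2 ^ c1) ^ j := by
    have h10 : ((2 : ℝ) ^ j) ^ (-c1) = (((2 : ℝ) ^ c1) ^ j)⁻¹ := by
      rw [Real.rpow_neg (by positivity), ← Real.rpow_natCast (2 : ℝ) j,
        ← Real.rpow_natCast ((2 : ℝ) ^ c1) j, ← Real.rpow_mul (by norm_num),
        ← Real.rpow_mul (by norm_num), mul_comm (j : ℝ) c1]
    rw [heps j, Real.div_rpow hs0.le (by positivity), h10, div_inv_eq_mul]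
  have h7 := mul_lt_mul_of_pos_right hj hP
  have h8 : (|C| * ((s.1 : ℝ) + 1) * ((j : ℝ) ^ 0 / (2 ^ c1) ^ j) +
      |C| * (4 * B * Real.log (1 / s.2)) * ((j : ℝ) ^ 1 / (2 ^ c1) ^ j) +
      |C| * (4 * B * Real.log 2) * ((j : ℝ) ^ 2 / (2 ^ c1) ^ j)) * ((2 : ℝ) ^ c1) ^ j =
      |C| * (s.1 + 4 * B * (j * (Real.log (1 / s.2) + j * Real.log 2)) + 1) := by
    field_simp
    ring
  rw [h8] at h7
  have h9 : C * (((ch y w σ 0 s j).1 : ℝ) + 1) ≤
      |C| * (s.1 + 4 * B * (j * (Real.log (1 / s.2) + j * Real.log 2)) + 1) := by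
    calc C * (((ch y w σ 0 s j).1 : ℝ) + 1) ≤ |C| * (((ch y w σ 0 s j).1 : ℝ) + 1) :=
          mul_le_mul_of_nonneg_right (le_abs_self C) (by positivity)
      _ ≤ _ := mul_le_mul_of_nonneg_left (by linarith) (abs_nonneg C)
  linarith

lemma ch2_ch (h : Ind2 Good x y w κ B σ p p1 v1 es c1 N0) {e : ℝ} {N T : ℕ} (hN : N0 ≤ N)
    (he : e ≤ es) (h1 : ∀ n, N ≤ n → y n ^ 2 ≤ e) (h2 : ∀ n, N ≤ n → y n ^ (2 - 2 * σ) ≤ e)
    (h3 : ∀ n, N ≤ n → κ * x n ≤ 1) (hv : HVe B c1 e)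
    {s : ℕ × ℝ} (hs : InvV Good y e c1 N s) :
    Ch2 x y w κ σ p p1 v1 es (fun j => (ch y w σ T s j).1) (fun j => (ch y w σ T s j).2) := by
  have hI := invV_ch h (T := T) hN he h1 h2 h3 hv hs
  have hpos : ∀ j, 0 < (ch y w σ T s j).2 := fun j =>
    lt_of_lt_of_le (pow_pos (h.y0 _ (hN.trans (hI j).1.1)) 2) (hI j).1.2.2.1
  have hs1 : ∀ j, (ch y w σ T s j).1 + w (ch y w σ T s j).2 ≤ (ch y w σ T s (j + 1)).1 :=
    fun j => by rw [ch_succ]; exact nx_ge w T _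
  have hs2 : ∀ j, (ch y w σ T s (j + 1)).1 ≤ (ch y w σ T s j).1 + 4 * w (ch y w σ T s j).2 :=
    fun j => by rw [ch_succ]; exact (nx_le w T _).trans (by omega)
  exact
    { y0 := fun j => h.y0 _ (hN.trans (hI j).1.1)
      ye := fun j => (hI j).1.2.2.1
      ees := fun j => (hI j).1.2.2.2.trans he
      w1 := fun j => h.w1 _ (hpos j) ((hI j).1.2.2.2.trans he)
      s1 := hs1
      s2 := hs2
      re := fun j => by rw [ch_succ]; rfl
      low := fun j => h.low _ _ (hN.trans (hI j).1.1) (hI j).1.2.1 (hI j).1.2.2.1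
        ((hI j).1.2.2.2.trans he)
      stP := fun j => (h.stepP _ _ _ (hN.trans (hI j).1.1) (hI j).1.2.1 (hI j).1.2.2.1
        ((hI j).1.2.2.2.trans he) (hs1 j) (hs2 j)).2
      stV := fun j => h.stepV _ _ _ (hN.trans (hI j).1.1) (hI j).1.2.1 (hI j).1.2.2.1
        ((hI j).1.2.2.2.trans he) (hs1 j) (hs2 j) (hI j).2 }

/-- the length of the chain -/
lemma Ch2.le_sum (c : Ch2 x y w κ σ p p1 v1 es n ε) (hB : 0 < B)
    (w3 : ∀ ε, 0 < ε → ε ≤ es → (w ε : ℝ) ≤ B * Real.log (1 / ε)) (j : ℕ) :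
    ε 0 / 2 ^ j ≤ ε j ∧
      (n j : ℝ) ≤ n 0 + ∑ i ∈ range j, 4 * (B * Real.log (2 ^ i / ε 0)) := by
  induction j with
  | zero => simp
  | succ j ih =>
    refine ⟨?_, ?_⟩
    · have h1 := c.half j
      have h2 := ih.1
      rw [pow_succ, ← div_div]
      linarith
    · have h1 : (n (j + 1) : ℝ) ≤ n j + 4 * w (ε j) := by exact_mod_cast c.s2 j
      have h2 := w3 _ (c.e_pos j) (c.ees j)
      have h3 : Real.log (1 / ε j) ≤ Real.log (2 ^ j / ε 0) := by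
        apply Real.log_le_log (by have := c.e_pos j; positivity)
        have h4 := c.e_pos 0
        have h5 : 0 < ε 0 / 2 ^ j := by positivity
        calc 1 / ε j ≤ 1 / (ε 0 / 2 ^ j) := one_div_le_one_div_of_le h5 ih.1
          _ = 2 ^ j / ε 0 := by rw [one_div_div]
      have h4 := mul_le_mul_of_nonneg_left h3 hB.le
      rw [sum_range_succ]
      linarith [ih.2]

/-- the chain aimed at `T` hits `T` -/
lemma hit2 (h : Ind2 Good x y w κ B σ p p1 v1 es c1 N0) {T : ℕ} {s : ℕ × ℝ}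
    (c : Ch2 x y w κ σ p p1 v1 es (fun j => (ch y w σ T s j).1) (fun j => (ch y w σ T s j).2))
    (hT : s.1 + w s.2 ≤ T) :
    ∃ j, (ch y w σ T s j).1 + w (ch y w σ T s j).2 ≤ T ∧
      T ≤ (ch y w σ T s j).1 + 3 * w (ch y w σ T s j).2 := by
  by_contra hcon
  push Not at hcon
  have key : ∀ j, (ch y w σ T s j).1 + w (ch y w σ T s j).2 ≤ T := by
    intro j
    induction j with
    | zero => exact hT
    | succ j ih =>
      have h3 := hcon j ih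
      have h4 : (ch y w σ T s (j + 1)).1 = (ch y w σ T s j).1 + w (ch y w σ T s j).2 := by
        rw [ch_succ]
        show nx w T _ = _
        unfold nx
        rw [if_neg]
        rintro ⟨-, h5⟩
        omega
      have h5 : w (ch y w σ T s (j + 1)).2 ≤ 2 * w (ch y w σ T s j).2 :=
        h.w2 _ _ (c.e_pos j) (c.half j) (c.ees (j + 1))
      omega
  have h3 := c.ge (T + 1)
  have h4 := key (T + 1)
  omega

/-- **CLOSE**, second form -/
theorem close2 (h : Ind2 Good x y w κ B σ p p1 v1 es c1 N0)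
    (start : ∀ ε : ℝ, 0 < ε → ∃ N, ∀ n, N ≤ n → Good n ε)
    (hx : Tendsto x atTop (𝓝 0)) (hy : Tendsto y atTop (𝓝 0)) {a : ℝ} (ha : 0 < a) :
    ∃ N, ∀ T, N ≤ T → ∃ n ε, N0 ≤ n ∧ Good n ε ∧ y n ^ 2 ≤ ε ∧ ε ≤ es ∧ ε ≤ a ∧
      ε ≤ y n ^ (2 - 3 * σ) ∧ |x n| ≤ ε ^ p ∧ Real.log (1 / y n) ≤ ε ^ (-c1) ∧
      n + w ε ≤ T ∧ T ≤ n + 3 * w ε := by
  have hσ0 := h.σ0
  have hσ1 := h.σ1
  obtain ⟨e1, he1, hstar⟩ := star2 (x := x) (y := y) (w := w) h.κ0 h.σ0 h.σ1 h.p0 h.pp h.pv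
    h.p11 h.v11 h.es1
  obtain ⟨e2, he2, hvar⟩ := y_var2 h (a := 1 / 10) (by norm_num)
  obtain ⟨e3, he3, hpw⟩ := small_pow (a := σ) (c := 4 / 5) hσ0 (by norm_num)
  obtain ⟨e4, he4, -, hhv⟩ := hv_small h.B0 h.c10
  -- the threshold
  obtain ⟨e, he0, hee1, hee2, hees, hea, hee4⟩ :
      ∃ e, 0 < e ∧ e ≤ e1 ∧ e ≤ e2 ∧ e ≤ es ∧ e ≤ a ∧ e ≤ e4 := by
    refine ⟨min (min e1 e2) (min (min es a) e4),
      lt_min (lt_min he1 he2) (lt_min (lt_min h.es0 ha) he4), ?_, ?_, ?_, ?_, ?_⟩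
    · exact (min_le_left _ _).trans (min_le_left _ _)
    · exact (min_le_left _ _).trans (min_le_right _ _)
    · exact (min_le_right _ _).trans ((min_le_left _ _).trans (min_le_left _ _))
    · exact (min_le_right _ _).trans ((min_le_left _ _).trans (min_le_right _ _))
    · exact (min_le_right _ _).trans (min_le_right _ _)
  have hv : HVe B c1 e := fun ε h0 h1 => hhv ε h0 (h1.trans hee4)
  have he1' : e ≤ 1 := hees.trans (h.es1.trans (by norm_num))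
  obtain ⟨N1, hN1⟩ := start e he0
  have hyev : ∀ᶠ n in atTop, y n ≤ min e e3 := by
    have := hy.eventually (gt_mem_nhds (lt_min he0 he3))
    filter_upwards [this] with n hn using hn.le
  have hxev : ∀ᶠ n in atTop, κ * x n ≤ 1 := by
    have h1 : Tendsto (fun n => κ * x n) atTop (𝓝 (κ * 0)) := hx.const_mul κ
    rw [mul_zero] at h1
    have := h1.eventually (gt_mem_nhds one_pos)
    filter_upwards [this] with n hn using hn.le
  obtain ⟨N2, hN2⟩ := eventually_atTop.1 (hyev.and hxev)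
  obtain ⟨N, hN0, hN1', hN2'⟩ : ∃ N, N0 ≤ N ∧ N1 ≤ N ∧ N2 ≤ N :=
    ⟨max N0 (max N1 N2), le_max_left _ _, (le_max_left _ _).trans (le_max_right _ _),
      (le_max_right _ _).trans (le_max_right _ _)⟩
  have hye : ∀ n, N ≤ n → 0 < y n ∧ y n ≤ e ∧ y n ≤ e3 ∧ y n ≤ 1 := fun n hn =>
    ⟨h.y0 _ (hN0.trans hn), ((hN2 n (hN2'.trans hn)).1).trans (min_le_left _ _),
      ((hN2 n (hN2'.trans hn)).1).trans (min_le_right _ _),
      (((hN2 n (hN2'.trans hn)).1).trans (min_le_left _ _)).trans he1'⟩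
  have hκx : ∀ n, N ≤ n → κ * x n ≤ 1 := fun n hn => (hN2 n (hN2'.trans hn)).2
  have hsq : ∀ n, N ≤ n → y n ^ 2 ≤ e := by
    intro n hn
    obtain ⟨a1, a2, a3, a4⟩ := hye n hn
    nlinarith
  have hsq2 : ∀ n, N ≤ n → y n ^ (2 - 2 * σ) ≤ e := by
    intro n hn
    obtain ⟨a1, a2, a3, a4⟩ := hye n hn
    calc y n ^ (2 - 2 * σ) ≤ y n ^ (1 : ℝ) :=
          Real.rpow_le_rpow_of_exponent_ge a1 a4 (by linarith)
      _ = y n := Real.rpow_one _
      _ ≤ e := a2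
  -- the start of the chains
  have hs0 : Inv Good y e N (N, e) := ⟨le_rfl, hN1 N hN1', hsq N le_rfl, le_rfl⟩
  obtain ⟨j0, hj0⟩ := hv_start h hN0 hees hsq hsq2 hv hs0
  have hs0' := inv_ch2 h (T := 0) hN0 hees hsq hsq2 hs0 j0
  obtain ⟨s, hsI, hsV⟩ : ∃ s, Inv Good y e N s ∧ Real.log (1 / y s.1) ≤ s.2 ^ (-c1) :=
    ⟨_, hs0', hj0⟩
  have hs : InvV Good y e c1 N s := ⟨hsI, hsV⟩
  have hys : 0 < y s.1 := (hye _ hsI.1).1
  have hse : 0 < s.2 := lt_of_lt_of_le (pow_pos hys 2) hsI.2.2.1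
  -- number of steps
  obtain ⟨J, hJ⟩ : ∃ J : ℕ, (5 / 8 : ℝ) ^ J * (s.2 / y s.1 ^ (2 - 3 * σ)) ≤ 1 := by
    have h1 : Tendsto (fun J : ℕ => (5 / 8 : ℝ) ^ J * (s.2 / y s.1 ^ (2 - 3 * σ))) atTop
        (𝓝 (0 * (s.2 / y s.1 ^ (2 - 3 * σ)))) :=
      (tendsto_pow_atTop_nhds_zero_of_lt_one (by norm_num) (by norm_num)).mul_const _
    rw [zero_mul] at h1
    have h2 := h1.eventually (gt_mem_nhds one_pos)
    obtain ⟨J, hJ⟩ := h2.exists
    exact ⟨J, hJ.le⟩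
  obtain ⟨M, hM⟩ := exists_nat_gt
    ((s.1 : ℝ) + ∑ i ∈ range J, 4 * (B * Real.log (2 ^ i / s.2)))
  refine ⟨max M (s.1 + w s.2), fun T hT => ?_⟩
  have hTM : M ≤ T := (le_max_left _ _).trans hT
  have hTN : s.1 + w s.2 ≤ T := (le_max_right _ _).trans hT
  have c := ch2_ch h (T := T) hN0 hees hsq hsq2 hκx hv hs
  obtain ⟨j, hj1, hj2⟩ := hit2 h c hTN
  have hinv := invV_ch h (T := T) hN0 hees hsq hsq2 hκx hv hs
  have hJj : J ≤ j := by
    by_contra hlt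
    push Not at hlt
    have h1 := (c.le_sum h.B0 h.w3 J).2
    have h2 : (ch y w σ T s 0) = s := ch_zero _ _ _ _ _
    rw [h2] at h1
    have h3 : ((ch y w σ T s J).1 : ℝ) < T :=
      lt_of_le_of_lt h1 (hM.trans_le (by exact_mod_cast hTM))
    have h4 : (ch y w σ T s J).1 < T := by exact_mod_cast h3
    have h5 : (ch y w σ T s (j + 1)).1 = T := by
      rw [ch_succ]
      show nx w T _ = _
      unfold nx
      rw [if_pos ⟨hj1, hj2⟩]
    have h6 : (ch y w σ T s (j + 1)).1 ≤ (ch y w σ T s J).1 := c.mono (by omega)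
    omega
  have hxs : ∀ i, |x (ch y w σ T s i).1| ≤ (ch y w σ T s i).2 ^ p := by
    intro i
    have hup := hstar _ _ c (hx.comp c.tend) (fun i => hκx _ (hinv i).1.1) i
      (((hinv i).1.2.2.2).trans hee1)
    exact abs_le.2 ⟨c.low i, hup⟩
  have hratio : ∀ i, |Real.log (y (ch y w σ T s (i + 1)).1) -
      Real.log (y (ch y w σ T s i).1)| ≤ 1 / 10 := by
    intro i
    have h1 := c.stV i
    have h2 : ((ch y w σ T s (i + 1)).1 : ℝ) - (ch y w σ T s i).1 ≤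
        4 * w (ch y w σ T s i).2 := by
      have h3 : (((ch y w σ T s (i + 1)).1 : ℕ) : ℝ) ≤
        (((ch y w σ T s i).1 + 4 * w (ch y w σ T s i).2 : ℕ) : ℝ) := by
        exact_mod_cast c.s2 i
      push_cast at h3
      linarith
    have h3 : 0 ≤ ((ch y w σ T s (i + 1)).1 : ℝ) - (ch y w σ T s i).1 := by
      have h4 : (((ch y w σ T s i).1 : ℕ) : ℝ) ≤ (((ch y w σ T s (i + 1)).1 : ℕ) : ℝ) := by
        exact_mod_cast (Nat.le_succ _).trans (c.lt i)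
      linarith
    have h4 := hvar _ (c.e_pos i) (((hinv i).1.2.2.2).trans hee2) (c.ees i) _ _ (hxs i) h3 h2
    have h5 := abs_sub (Real.log (y (ch y w σ T s (i + 1)).1) -
      Real.log (y (ch y w σ T s i).1) + κ * x (ch y w σ T s i).1 *
        (((ch y w σ T s (i + 1)).1 : ℝ) - (ch y w σ T s i).1))
      (κ * x (ch y w σ T s i).1 *
        (((ch y w σ T s (i + 1)).1 : ℝ) - (ch y w σ T s i).1))
    rw [add_sub_cancel_right] at h5
    linarith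
  have hR := ratio_iter (σ := σ) (R0 := s.2 / y s.1 ^ (2 - 3 * σ))
    (E := fun i => (ch y w σ T s i).2) (ys := fun i => y (ch y w σ T s i).1)
    hσ0 hσ1 (fun i => (hye _ (hinv i).1.1).1) (fun i => (hye _ (hinv i).1.1).2.2.2)
    (fun i => hpw _ (hye _ (hinv i).1.1).1.le (hye _ (hinv i).1.1).2.2.1) hratio
    (by rw [ch_zero, div_mul_cancel₀ _ (Real.rpow_pos_of_pos hys _).ne']) (fun i => c.re i) j
  have hRj : (5 / 8 : ℝ) ^ j * (s.2 / y s.1 ^ (2 - 3 * σ)) ≤ 1 := by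
    refine le_trans (mul_le_mul_of_nonneg_right ?_ (by positivity)) hJ
    exact pow_le_pow_of_le_one (by norm_num) (by norm_num) hJj
  rw [max_eq_right hRj, one_mul] at hR
  exact ⟨(ch y w σ T s j).1, (ch y w σ T s j).2, hN0.trans (hinv j).1.1, (hinv j).1.2.1, c.ye j,
    c.ees j, ((hinv j).1.2.2.2).trans hea, hR, hxs j, (hinv j).2, hj1, hj2⟩

/-- (HV) holds automatically at `ε = y^(2-4σ)` -/
lemma hv_final (hy0 : ∀ᶠ n in atTop, 0 < y n) (hy : Tendsto y atTop (𝓝 0)) {b : ℝ} (hb : 0 < b)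
    (hc : 0 < c1) : ∀ᶠ n in atTop, Real.log (1 / y n) ≤ (y n ^ b) ^ (-c1) := by
  obtain ⟨e, he, h⟩ := log_small (a := b * c1) (c := 1) (by positivity) one_pos
  filter_upwards [hy.eventually (gt_mem_nhds he), hy0] with n hn hp
  have h1 := h _ hp hn.le
  have h2 : 0 < y n ^ (b * c1) := Real.rpow_pos_of_pos hp _
  rw [← Real.rpow_mul hp.le, mul_neg, Real.rpow_neg hp.le, ← one_div, le_div_iff₀ h2]
  linarith

/-- **CLOSE, pointwise form**, second contract -/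
theorem close_pt2 (h : Ind2 Good x y w κ B σ p p1 v1 es c1 N0)
    (start : ∀ ε : ℝ, 0 < ε → ∃ N, ∀ n, N ≤ n → Good n ε)
    (hx : Tendsto x atTop (𝓝 0)) (hy : Tendsto y atTop (𝓝 0)) {a r1 r2 : ℝ} (ha : 0 < a)
    (hr1 : r1 < (2 - 3 * σ) * p1) (hr2 : r2 < (2 - 3 * σ) * p1) (hr3 : r2 < (2 - 3 * σ) * v1) :
    ∃ N, ∀ T, N ≤ T → 0 < y T ∧ y T ≤ 1 ∧ y T ^ (2 - 4 * σ) ≤ a ∧ y T ^ (2 - 4 * σ) ≤ es ∧
      Good T (y T ^ (2 - 4 * σ)) ∧ Real.log (1 / y T) ≤ (y T ^ (2 - 4 * σ)) ^ (-c1) ∧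
      |x T| ≤ y T ^ ((2 - 4 * σ) * p) ∧
      (∀ k, T ≤ k → k ≤ T + 1 → |x k - x T| ≤ y T ^ r1) ∧
      |Real.log (y (T + 1)) - Real.log (y T) + κ * x T| ≤ y T ^ r2 := by
  have hσ0 := h.σ0
  have hσ1 := h.σ1
  have hκ := h.κ0
  have hp1 := p1_pos2 h
  have hv1 := v1_pos2 h
  have hp0 := h.p0
  obtain ⟨ea, hea, hvar⟩ := y_var2 h (a := 1 / 10) (by norm_num)
  have hy0' : ∀ᶠ n in atTop, 0 < y n := by
    filter_upwards [eventually_ge_atTop N0] with n hn using h.y0 n hn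
  -- smallness of powers of `y`
  have hpow : ∀ b c : ℝ, 0 < b → 0 < c → ∀ᶠ n in atTop, y n ^ b ≤ c := by
    intro b c hb hc
    obtain ⟨e, he, h1⟩ := small_pow hb hc
    filter_upwards [hy.eventually (gt_mem_nhds he), hy0'] with n hn hn0
    exact h1 _ hn0.le hn.le
  have hpa : p < p1 := by
    have := h.pp
    nlinarith
  have hpb : p < v1 := by
    have := h.pv
    nlinarith
  have e0 := hv_final hy0' hy (b := 2 - 4 * σ) (by linarith) h.c10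
  have e1 := hpow σ (1 / 4) hσ0 (by norm_num)
  have e2 := hpow (2 - 4 * σ) (min a es) (by linarith) (lt_min ha h.es0)
  have e3 := hpow (σ * p / 2) (1 / 4) (by positivity) (by norm_num)
  have e4 := hpow ((2 - 3 * σ) * p1 - r1) (1 / 4) (by linarith) (by norm_num)
  have e5 := hpow ((2 - 3 * σ) * p1 - r2) (1 / (8 * (κ + 1))) (by linarith) (by positivity)
  have e6 := hpow ((2 - 3 * σ) * v1 - r2) (1 / 8) (by linarith) (by norm_num)
  have e7 : ∀ᶠ n in atTop, y n ≤ 1 := by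
    filter_upwards [hy.eventually (gt_mem_nhds one_pos)] with n hn using hn.le
  obtain ⟨N1, hN1⟩ := eventually_atTop.1
    (e0.and (e1.and (e2.and (e3.and (e4.and (e5.and (e6.and e7)))))))
  obtain ⟨N2, hN2⟩ := close2 h start hx hy hea
  refine ⟨max (max N1 N2) N0, fun T hT => ?_⟩
  have hTN1 : N1 ≤ T := (le_max_left _ _).trans ((le_max_left _ _).trans hT)
  have hTN2 : N2 ≤ T := (le_max_right _ _).trans ((le_max_left _ _).trans hT)
  have hTN0 : N0 ≤ T := (le_max_right _ _).trans hT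
  obtain ⟨f0, f1, f2, f3, f4, f5, f6, f7⟩ := hN1 T hTN1
  obtain ⟨n, ε, g1, g2, g3, g4, g5, g6, g7, g7', g8, g9⟩ := hN2 T hTN2
  have hyT := h.y0 T hTN0
  have hyn := h.y0 n g1
  have hε : 0 < ε := lt_of_lt_of_le (pow_pos hyn 2) g3
  have hε1 : ε ≤ 1 := g4.trans (h.es1.trans (by norm_num))
  have hw1 := h.w1 ε hε g4
  have hst : ∀ k, T ≤ k → k ≤ T + 1 → Good k (max (ε / 2) (ε ^ (-σ) * y n ^ 2)) ∧
      |x k - x n| ≤ ε ^ p1 ∧
      |Real.log (y k) - Real.log (y n) + κ * x n * ((k : ℝ) - n)| ≤ ε ^ v1 := fun k h1 h2 =>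
    ⟨(h.stepP n k ε g1 g2 g3 g4 (by omega) (by omega)).1,
      (h.stepP n k ε g1 g2 g3 g4 (by omega) (by omega)).2,
      h.stepV n k ε g1 g2 g3 g4 (by omega) (by omega) g7'⟩
  have hd : ∀ k, T ≤ k → k ≤ T + 1 → 0 ≤ (k : ℝ) - n ∧ (k : ℝ) - n ≤ 4 * w ε := by
    intro k h1 h2
    have h3 : (n : ℝ) ≤ k := by exact_mod_cast (show n ≤ k by omega)
    have h4 : (k : ℝ) ≤ n + 4 * w ε := by exact_mod_cast (show k ≤ n + 4 * w ε by omega)
    exact ⟨by linarith, by linarith⟩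
  have hlog : |Real.log (y T) - Real.log (y n)| ≤ 1 / 5 := by
    have h1 := (hst T le_rfl (by omega)).2.2
    obtain ⟨h2, h3⟩ := hd T le_rfl (by omega)
    have h4 := hvar ε hε g5 g4 (x n) _ g7 h2 h3
    have h5 := abs_sub (Real.log (y T) - Real.log (y n) + κ * x n * ((T : ℝ) - n))
      (κ * x n * ((T : ℝ) - n))
    rw [add_sub_cancel_right] at h5
    linarith
  have hεT : ε ≤ 2 * y T ^ (2 - 3 * σ) :=
    g6.trans (pow_cmp hyn hyT hlog (by linarith) (by linarith))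
  have hεb : ∀ b : ℝ, 0 < b → b ≤ 1 → ε ^ b ≤ 2 * y T ^ ((2 - 3 * σ) * b) := by
    intro b hb0 hb1
    have h1 : ε ^ b ≤ (2 * y T ^ (2 - 3 * σ)) ^ b := Real.rpow_le_rpow hε.le hεT hb0.le
    rw [Real.mul_rpow (by norm_num) (by positivity), ← Real.rpow_mul hyT.le] at h1
    have h2 : (2 : ℝ) ^ b ≤ 2 := by
      conv_rhs => rw [← Real.rpow_one 2]
      exact Real.rpow_le_rpow_of_exponent_le (by norm_num) hb1
    exact h1.trans (mul_le_mul_of_nonneg_right h2 (by positivity))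
  have hP := hεb p1 hp1 h.p11
  have hV := hεb v1 hv1 h.v11
  have hp := hεb p hp0 (hpa.le.trans h.p11)
  have hsplit : ∀ b c : ℝ, y T ^ b = y T ^ (b - c) * y T ^ c := by
    intro b c
    rw [← Real.rpow_add hyT]; congr 1; ring
  refine ⟨hyT, f7, f2.trans (min_le_left _ _), f2.trans (min_le_right _ _), ?_, f0, ?_, ?_, ?_⟩
  · refine h.mono _ _ _ (hst T le_rfl (by omega)).1 ?_
    have h1 : 2 * y T ^ (2 - 3 * σ) ≤ y T ^ (2 - 4 * σ) := by
      rw [hsplit (2 - 3 * σ) (2 - 4 * σ), show 2 - 3 * σ - (2 - 4 * σ) = σ by ring]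
      have := mul_le_mul_of_nonneg_right f1 (Real.rpow_nonneg hyT.le (2 - 4 * σ))
      have := Real.rpow_nonneg hyT.le (2 - 4 * σ)
      linarith
    refine max_le (by linarith) ?_
    have h4 : ε ^ (-σ) ≤ (y n ^ 2) ^ (-σ) :=
      Real.rpow_le_rpow_of_nonpos (by positivity) g3 (by linarith)
    have h5 : (y n ^ 2) ^ (-σ) * y n ^ 2 = y n ^ (2 - 2 * σ) := by
      rw [← Real.rpow_natCast, ← Real.rpow_mul hyn.le, ← Real.rpow_add hyn]
      congr 1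
      push_cast
      ring
    have h6 : ε ^ (-σ) * y n ^ 2 ≤ y n ^ (2 - 2 * σ) := by
      rw [← h5]
      exact mul_le_mul_of_nonneg_right h4 (by positivity)
    have h7 : y n ^ (2 - 2 * σ) ≤ 2 * y T ^ (2 - 2 * σ) :=
      pow_cmp hyn hyT hlog (by linarith) (by linarith)
    have h8 : y T ^ (2 - 2 * σ) ≤ y T ^ (2 - 3 * σ) :=
      Real.rpow_le_rpow_of_exponent_ge hyT f7 (by linarith)
    linarith
  · have h1 := (hst T le_rfl (by omega)).2.1
    have h2 : |x T| ≤ ε ^ p + ε ^ p1 := by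
      have h3 := abs_add_le (x T - x n) (x n)
      rw [sub_add_cancel] at h3
      linarith
    have h3 : ε ^ p1 ≤ ε ^ p := Real.rpow_le_rpow_of_exponent_ge hε hε1 hpa.le
    have h4 : 4 * y T ^ ((2 - 3 * σ) * p) ≤ y T ^ ((2 - 4 * σ) * p) := by
      rw [hsplit ((2 - 3 * σ) * p) ((2 - 4 * σ) * p),
        show (2 - 3 * σ) * p - (2 - 4 * σ) * p = σ * p by ring]
      have h5 : y T ^ (σ * p) ≤ y T ^ (σ * p / 2) :=
        Real.rpow_le_rpow_of_exponent_ge hyT f7 (by have := mul_pos hσ0 hp0; linarith)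
      have := mul_le_mul_of_nonneg_right (h5.trans f3)
        (Real.rpow_nonneg hyT.le ((2 - 4 * σ) * p))
      linarith
    linarith
  · intro k h1 h2
    have h3 := (hst T le_rfl (by omega)).2.1
    have h4 := (hst k h1 h2).2.1
    have h5 : |x k - x T| ≤ 2 * ε ^ p1 := by
      have h6 := abs_sub (x k - x n) (x T - x n)
      rw [sub_sub_sub_cancel_right] at h6
      linarith
    have h6 : 4 * y T ^ ((2 - 3 * σ) * p1) ≤ y T ^ r1 := by
      rw [hsplit ((2 - 3 * σ) * p1) r1]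
      have := mul_le_mul_of_nonneg_right f4 (Real.rpow_nonneg hyT.le r1)
      linarith
    linarith
  · have h3 := (hst T le_rfl (by omega)).2
    have h4 := (hst (T + 1) (by omega) le_rfl).2.2
    have h5 : Real.log (y (T + 1)) - Real.log (y T) + κ * x T =
        (Real.log (y (T + 1)) - Real.log (y n) + κ * x n * (((T + 1 : ℕ) : ℝ) - n)) -
        (Real.log (y T) - Real.log (y n) + κ * x n * ((T : ℝ) - n)) + κ * (x T - x n) := by
      push_cast; ring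
    have h6 : |Real.log (y (T + 1)) - Real.log (y T) + κ * x T| ≤
        ε ^ v1 + ε ^ v1 + κ * ε ^ p1 := by
      rw [h5]
      refine (abs_add_le _ _).trans (add_le_add ((abs_sub _ _).trans (add_le_add h4 h3.2)) ?_)
      rw [abs_mul, abs_of_pos hκ]
      exact mul_le_mul_of_nonneg_left h3.1 hκ.le
    have h7 : y T ^ ((2 - 3 * σ) * p1) ≤ 1 / (8 * (κ + 1)) * y T ^ r2 := by
      rw [hsplit ((2 - 3 * σ) * p1) r2]
      exact mul_le_mul_of_nonneg_right f5 (Real.rpow_nonneg hyT.le r2)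
    have h8 : y T ^ ((2 - 3 * σ) * v1) ≤ 1 / 8 * y T ^ r2 := by
      rw [hsplit ((2 - 3 * σ) * v1) r2]
      exact mul_le_mul_of_nonneg_right f6 (Real.rpow_nonneg hyT.le r2)
    have h9 : κ * ε ^ p1 ≤ κ * (2 * (1 / (8 * (κ + 1)) * y T ^ r2)) :=
      mul_le_mul_of_nonneg_left (by linarith) hκ.le
    have h10 : κ * (2 * (1 / (8 * (κ + 1)) * y T ^ r2)) ≤ 1 / 4 * y T ^ r2 := by
      have h11 : κ * (2 * (1 / (8 * (κ + 1)) * y T ^ r2)) = κ / (κ + 1) * (1 / 4 * y T ^ r2) := by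
        field_simp
        ring
      rw [h11]
      refine mul_le_of_le_one_left (by positivity) ?_
      rw [div_le_one (by positivity)]
      linarith
    have h11 := Real.rpow_nonneg hyT.le r2
    linarith

/-- CLOSE (second contract) gives the flow structure -/
theorem fl_of_ind2 {c r q : ℝ} (h : Ind2 Good x y w κ B σ p p1 v1 es c1 N0)
    (start : ∀ ε : ℝ, 0 < ε → ∃ N, ∀ n, N ≤ n → Good n ε)
    (hx : Tendsto x atTop (𝓝 0)) (hy : Tendsto y atTop (𝓝 0)) (hy0 : ∀ n, 0 < y n)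
    (hc : 0 < c) (hr : 0 < r) (hq : 0 < q) (hq1 : q ≤ 1) (hq2 : q ≤ (2 - 4 * σ) * p)
    (h1 : 1 + c < (2 - 3 * σ) * p1) (h2 : 1 + c < (2 - 3 * σ) * v1) (h3 : r < (2 - 3 * σ) * p1) :
    ∃ N, N0 ≤ N ∧ Fl x y κ c r q N ∧ Wn y (wf y w σ) (2 * B) N ∧
      ∀ n, N ≤ n → Good n (y n ^ (2 - 4 * σ)) ∧ y n ^ 2 ≤ y n ^ (2 - 4 * σ) ∧
        y n ^ (2 - 4 * σ) ≤ es ∧ Real.log (1 / y n) ≤ (y n ^ (2 - 4 * σ)) ^ (-c1) ∧ y n ≤ 1 := by
  obtain ⟨N1, hN1⟩ := close_pt2 h start hx hy one_pos h3 h1 h2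
  have hσ0 := h.σ0
  have hσ1 := h.σ1
  refine ⟨max N0 N1, le_max_left _ _, ⟨h.κ0, hc, hr, hq, hq1, hy0, ?_, ?_, ?_, hy⟩,
    ⟨by have := h.B0; positivity, ?_, ?_⟩, ?_⟩
  · intro n hn
    obtain ⟨a1, a2, a3, a4, a5, a5', a6, a7, a8⟩ := hN1 n ((le_max_right _ _).trans hn)
    exact a6.trans (Real.rpow_le_rpow_of_exponent_ge a1 a2 hq2)
  · intro n hn
    exact (hN1 n ((le_max_right _ _).trans hn)).2.2.2.2.2.2.2.2
  · intro n hn
    exact (hN1 n ((le_max_right _ _).trans hn)).2.2.2.2.2.2.2.1 (n + 1) (Nat.le_succ _) le_rfl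
  · intro n hn
    obtain ⟨a1, a2, a3, a4, -⟩ := hN1 n ((le_max_right _ _).trans hn)
    exact h.w1 _ (Real.rpow_pos_of_pos a1 _) a4
  · intro n hn
    obtain ⟨a1, a2, a3, a4, -⟩ := hN1 n ((le_max_right _ _).trans hn)
    have h4 := h.w3 _ (Real.rpow_pos_of_pos a1 _) a4
    have h5 : Real.log (1 / y n ^ (2 - 4 * σ)) = (2 - 4 * σ) * Real.log (1 / y n) := by
      rw [one_div, one_div, ← Real.inv_rpow a1.le, Real.log_rpow (by positivity)]
    have h6 : 0 ≤ Real.log (1 / y n) := Real.log_nonneg (by rw [one_le_div a1]; exact a2)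
    rw [h5] at h4
    refine h4.trans ?_
    have h7 : (2 - 4 * σ) * Real.log (1 / y n) ≤ 2 * Real.log (1 / y n) :=
      mul_le_mul_of_nonneg_right (by linarith) h6
    have h8 := mul_le_mul_of_nonneg_left h7 h.B0.le
    linarith
  · intro n hn
    obtain ⟨a1, a2, a3, a4, a5, a5', -⟩ := hN1 n ((le_max_right _ _).trans hn)
    refine ⟨a5, ?_, a4, a5', a2⟩
    rw [← Real.rpow_natCast]
    exact Real.rpow_le_rpow_of_exponent_ge a1 a2 (by push_cast; linarith)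

/-- exponents: room between `1` and `(2-3σ) p1`, `(2-3σ) v1` -/
lemma exists_room {u v : ℝ} (hu : 1 < u) (hv : 1 < v) : ∃ c, 0 < c ∧ 1 + c < u ∧ 1 + c < v := by
  have h0 : 0 < min (u - 1) (v - 1) := lt_min (by linarith) (by linarith)
  have h1 := min_le_left (u - 1) (v - 1)
  have h2 := min_le_right (u - 1) (v - 1)
  exact ⟨min (u - 1) (v - 1) / 2, by positivity, by linarith, by linarith⟩

/-- CLOSE (second contract) and P-sharp give T3 -/
theorem T3_of_ind2 {A : ℝ} (h : Ind2 Good x y w κ B σ p p1 v1 es c1 N0)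
    (start : ∀ ε : ℝ, 0 < ε → ∃ N, ∀ n, N ≤ n → Good n ε)
    (hx : Tendsto x atTop (𝓝 0)) (hy : Tendsto y atTop (𝓝 0)) (hy0 : ∀ n, 0 < y n)
    (h1 : 1 < (2 - 3 * σ) * p1) (h2 : 1 < (2 - 3 * σ) * v1) (hA : 0 < A)
    (hP : PSh Good x y w σ A N0) :
    ∃ c r q N, T3 x y κ c r q (2 * B) A (wf y w σ) N := by
  have hσ0 := h.σ0
  have hσ1 := h.σ1
  have hp0 := h.p0
  obtain ⟨c, hc, hc1, hc2⟩ := exists_room h1 h2
  have hq0 : 0 < min 1 ((2 - 4 * σ) * p) := lt_min one_pos (mul_pos (by linarith) hp0)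
  obtain ⟨N, hN, hfl, hwn, hG⟩ := fl_of_ind2 h start hx hy hy0 (c := c) (r := 1 + c)
    (q := min 1 ((2 - 4 * σ) * p)) hc (by linarith) hq0 (min_le_left _ _) (min_le_right _ _)
    hc1 hc2 hc1
  refine ⟨c, 1 + c, min 1 ((2 - 4 * σ) * p), N, hfl, hwn, by linarith, hA, fun η hη => ?_⟩
  obtain ⟨e, he, hPe⟩ := hP η hη
  filter_upwards [hy.eventually (gt_mem_nhds he), eventually_ge_atTop N] with n hn hn'
  exact hPe n (hN.trans hn') hn.le (hG n hn').1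

/-- an `Ind` with a crude lower bound of `y` is an `Ind2` -/
theorem Ind.toInd2 (h : Ind Good x y w κ B σ p p1 v1 es N0) (hc : 0 < c1)
    (yl : ∃ C, ∀ n, N0 ≤ n → Real.log (1 / y n) ≤ C * ((n : ℝ) + 1)) :
    Ind2 Good x y w κ B σ p p1 v1 es c1 N0 where
  κ0 := h.κ0
  B0 := h.B0
  σ0 := h.σ0
  σ1 := h.σ1
  p0 := h.p0
  pp := h.pp
  pv := h.pv
  p11 := h.p11
  v11 := h.v11
  es0 := h.es0
  es1 := h.es1
  c10 := hc
  w1 := h.w1
  w2 := h.w2
  w3 := h.w3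
  y0 := h.y0
  yl := yl
  mono := h.mono
  low := h.low
  stepP := fun n m ε h1 h2 h3 h4 h5 h6 =>
    ⟨(h.step n m ε h1 h2 h3 h4 h5 h6).1, (h.step n m ε h1 h2 h3 h4 h5 h6).2.1⟩
  stepV := fun n m ε h1 h2 h3 h4 h5 h6 _ => (h.step n m ε h1 h2 h3 h4 h5 h6).2.2

end Vale.Agent.P159.H801
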