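import Vale.Agent.P159.H801.Close2

/-!
P159 (helper801), module CLOSE, third (weakest) form of the contract: one total state `S n ε`, no
monotonicity in `ε`, a single starting point; everything under `log (1/y) ≤ ε^(-c1)`.
-/

open Filter Topology Finset

namespace Vale.Agent.P159.H801

/-- data of the scalar induction for a total state `S n ε` -/
structure Ind3 (S : ℕ → ℝ → Prop) (x y : ℕ → ℝ) (w : ℝ → ℕ) (κ B σ p p1 v1 es c1 : ℝ)
    (N0 : ℕ) : Prop where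
  κ0 : 0 < κ
  B0 : 0 < B
  σ0 : 0 < σ
  σ1 : σ ≤ 1 / 4
  p0 : 0 < p
  pp : 2 * p < (1 - σ) * p1
  pv : p < (1 - σ) * v1
  p11 : p1 ≤ 1
  v11 : v1 ≤ 1
  es0 : 0 < es
  es1 : es ≤ 1 / 2
  c10 : 0 < c1
  w1 : ∀ ε, 0 < ε → ε ≤ es → 1 ≤ w ε
  w2 : ∀ ε ε', 0 < ε → ε / 2 ≤ ε' → ε' ≤ es → w ε' ≤ 2 * w ε
  w3 : ∀ ε, 0 < ε → ε ≤ es → (w ε : ℝ) ≤ B * Real.log (1 / ε)
  y0 : ∀ n, N0 ≤ n → 0 < y n
  low : ∀ n ε, N0 ≤ n → S n ε → y n ^ 2 ≤ ε → ε ≤ es → Real.log (1 / y n) ≤ ε ^ (-c1) →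
    -(ε ^ p) ≤ x n
  stepX : ∀ n m ε, N0 ≤ n → S n ε → y n ^ 2 ≤ ε → ε ≤ es → Real.log (1 / y n) ≤ ε ^ (-c1) →
    n + w ε ≤ m → m ≤ n + 4 * w ε → |x m - x n| ≤ ε ^ p1
  stepV : ∀ n m ε, N0 ≤ n → S n ε → y n ^ 2 ≤ ε → ε ≤ es → Real.log (1 / y n) ≤ ε ^ (-c1) →
    n + w ε ≤ m → m ≤ n + 4 * w ε →
    |Real.log (y m) - Real.log (y n) + κ * x n * ((m : ℝ) - n)| ≤ ε ^ v1
  stepS : ∀ n m ε ε', N0 ≤ n → S n ε → y n ^ 2 ≤ ε → ε ≤ es → Real.log (1 / y n) ≤ ε ^ (-c1) →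
    n + w ε ≤ m → m ≤ n + 4 * w ε → max (ε / 2) (ε ^ (-σ) * y n ^ 2) ≤ ε' → y m ^ 2 ≤ ε' →
    ε' ≤ es → Real.log (1 / y m) ≤ ε' ^ (-c1) → S m ε'

/-- the starting points -/
def Start3 (S : ℕ → ℝ → Prop) (y : ℕ → ℝ) (c1 : ℝ) : Prop :=
  ∀ e : ℝ, 0 < e → ∀ N : ℕ, ∃ n ε, N ≤ n ∧ ε ≤ e ∧ S n ε ∧ y n ^ 2 ≤ ε ∧
    Real.log (1 / y n) ≤ ε ^ (-c1)

variable {S : ℕ → ℝ → Prop} {x y : ℕ → ℝ} {w : ℝ → ℕ} {κ B σ p p1 v1 es c1 : ℝ} {N0 : ℕ}
  {n : ℕ → ℕ} {ε : ℕ → ℝ}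

lemma p1_pos3 (h : Ind3 S x y w κ B σ p p1 v1 es c1 N0) : 0 < p1 := by
  have h1 := h.pp
  have h2 := h.p0
  have h3 := h.σ1
  by_contra hc
  have : (1 - σ) * p1 ≤ 0 := mul_nonpos_of_nonneg_of_nonpos (by linarith) (not_lt.1 hc)
  linarith

lemma v1_pos3 (h : Ind3 S x y w κ B σ p p1 v1 es c1 N0) : 0 < v1 := by
  have h1 := h.pv
  have h2 := h.p0
  have h3 := h.σ1
  by_contra hc
  have : (1 - σ) * v1 ≤ 0 := mul_nonpos_of_nonneg_of_nonpos (by linarith) (not_lt.1 hc)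
  linarith

/-- `y` varies little over a window as soon as `|x| ≤ ε^p` -/
lemma y_var3 (h : Ind3 S x y w κ B σ p p1 v1 es c1 N0) {a : ℝ} (ha : 0 < a) :
    ∃ e : ℝ, 0 < e ∧ ∀ ε, 0 < ε → ε ≤ e → ε ≤ es → ∀ X d : ℝ, |X| ≤ ε ^ p → 0 ≤ d →
      d ≤ 4 * w ε → |κ * X * d| + ε ^ v1 ≤ a := by
  have hκ := h.κ0
  have hB := h.B0
  obtain ⟨ea, hea, h1⟩ := small_pow (a := v1) (c := a / 2) (v1_pos3 h) (by positivity)
  obtain ⟨eb, heb, h2⟩ := log_small (a := p) (c := a / 2 / (4 * κ * B)) h.p0 (by positivity)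
  refine ⟨min ea eb, lt_min hea heb, fun ε h0 h3 h4 X d hX hd0 hd => ?_⟩
  have h5 := h1 ε h0.le (h3.trans (min_le_left _ _))
  have h6 := h2 ε h0 (h3.trans (min_le_right _ _))
  have h7 : d ≤ 4 * (B * Real.log (1 / ε)) := by
    have := h.w3 ε h0 h4
    linarith
  have h8 : |κ * X * d| = κ * (|X| * d) := by
    rw [abs_mul, abs_mul, abs_of_pos hκ, abs_of_nonneg hd0, mul_assoc]
  have h9 : |X| * d ≤ ε ^ p * (4 * (B * Real.log (1 / ε))) :=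
    mul_le_mul hX h7 hd0 (Real.rpow_nonneg h0.le _)
  rw [h8]
  have h10 : κ * (|X| * d) ≤ κ * (ε ^ p * (4 * (B * Real.log (1 / ε)))) :=
    mul_le_mul_of_nonneg_left h9 hκ.le
  have h11 : κ * (ε ^ p * (4 * (B * Real.log (1 / ε)))) =
      (ε ^ p * Real.log (1 / ε)) * (4 * κ * B) := by ring
  rw [le_div_iff₀ (by positivity)] at h6
  linarith

/-- the invariant of the chain -/
def Inv3 (S : ℕ → ℝ → Prop) (y : ℕ → ℝ) (e c1 : ℝ) (N : ℕ) (s : ℕ × ℝ) : Prop :=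
  N ≤ s.1 ∧ S s.1 s.2 ∧ y s.1 ^ 2 ≤ s.2 ∧ s.2 ≤ e ∧ Real.log (1 / y s.1) ≤ s.2 ^ (-c1)

lemma inv3_nxt (h : Ind3 S x y w κ B σ p p1 v1 es c1 N0) {e : ℝ} {N T : ℕ} (hN : N0 ≤ N)
    (he : e ≤ es) (h1 : ∀ n, N ≤ n → y n ^ 2 ≤ e) (h2 : ∀ n, N ≤ n → y n ^ (2 - 2 * σ) ≤ e)
    (h3 : ∀ n, N ≤ n → κ * x n ≤ 1) (hv : HVe B c1 e)
    {s : ℕ × ℝ} (hs : Inv3 S y e c1 N s) : Inv3 S y e c1 N (nxt y w σ T s) := by
  obtain ⟨a1, a2, a3, a4, a5⟩ := hs
  have b1 : N ≤ nx w T s := a1.trans ((Nat.le_add_right _ _).trans (nx_ge w T s))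
  have hle : nx w T s ≤ s.1 + 4 * w s.2 := (nx_le w T s).trans (by omega)
  have hy := h.y0 _ (hN.trans a1)
  have hy1 : 0 < y (nx w T s) := h.y0 _ (hN.trans b1)
  have hs0 : 0 < s.2 := lt_of_lt_of_le (pow_pos hy 2) a3
  have he1 : e ≤ 1 := he.trans (h.es1.trans (by norm_num))
  have hee : (nxt y w σ T s).2 ≤ e := by
    refine max_le (max_le ?_ (h2 _ a1)) (h1 _ b1)
    have : s.2 ≤ e := a4
    linarith
  have hhv : Real.log (1 / y (nx w T s)) ≤ (nxt y w σ T s).2 ^ (-c1) := by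
    have hV := h.stepV s.1 (nx w T s) s.2 (hN.trans a1) a2 a3 (a4.trans he) a5 (nx_ge w T s) hle
    refine hv_step (e := e) h.σ0 h.σ1 h.B0 hv he1 hs0 a4 hy hy1 a3 ?_ a5 hee
    have h4 := (abs_le.1 hV).1
    have hd0 : 0 ≤ (nx w T s : ℝ) - s.1 := by
      have : s.1 ≤ nx w T s := (Nat.le_add_right _ _).trans (nx_ge w T s)
      have : (s.1 : ℝ) ≤ (nx w T s : ℝ) := by exact_mod_cast this
      linarith
    have hd1 : (nx w T s : ℝ) - s.1 ≤ 4 * w s.2 := by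
      have : (nx w T s : ℝ) ≤ s.1 + 4 * w s.2 := by exact_mod_cast hle
      linarith
    have h5 : κ * x s.1 * ((nx w T s : ℝ) - s.1) ≤ 1 * ((nx w T s : ℝ) - s.1) :=
      mul_le_mul_of_nonneg_right (h3 _ a1) hd0
    have h6 := h.w3 _ hs0 (a4.trans he)
    have h7 : s.2 ^ v1 ≤ 1 := Real.rpow_le_one hs0.le (a4.trans he1) (v1_pos3 h).le
    rw [one_div, one_div, Real.log_inv, Real.log_inv]
    linarith
  refine ⟨b1, ?_, le_max_right _ _, hee, hhv⟩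
  refine h.stepS s.1 (nx w T s) s.2 _ (hN.trans a1) a2 a3 (a4.trans he) a5 (nx_ge w T s) hle ?_
    (le_max_right _ _) (hee.trans he) hhv
  refine le_trans (max_le_max le_rfl ?_) (le_max_left _ _)
  have h4 : s.2 ^ (-σ) ≤ (y s.1 ^ 2) ^ (-σ) :=
    Real.rpow_le_rpow_of_nonpos (by positivity) a3 (by linarith [h.σ0])
  have h5 : (y s.1 ^ 2) ^ (-σ) * y s.1 ^ 2 = y s.1 ^ (2 - 2 * σ) := by
    rw [← Real.rpow_natCast, ← Real.rpow_mul hy.le, ← Real.rpow_add hy]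
    congr 1
    push_cast
    ring
  calc s.2 ^ (-σ) * y s.1 ^ 2 ≤ (y s.1 ^ 2) ^ (-σ) * y s.1 ^ 2 :=
        mul_le_mul_of_nonneg_right h4 (by positivity)
    _ = _ := h5

lemma inv3_ch (h : Ind3 S x y w κ B σ p p1 v1 es c1 N0) {e : ℝ} {N T : ℕ} (hN : N0 ≤ N)
    (he : e ≤ es) (h1 : ∀ n, N ≤ n → y n ^ 2 ≤ e) (h2 : ∀ n, N ≤ n → y n ^ (2 - 2 * σ) ≤ e)
    (h3 : ∀ n, N ≤ n → κ * x n ≤ 1) (hv : HVe B c1 e)
    {s : ℕ × ℝ} (hs : Inv3 S y e c1 N s) (j : ℕ) : Inv3 S y e c1 N (ch y w σ T s j) := by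
  induction j with
  | zero => exact hs
  | succ j ih =>
    rw [ch_succ]
    exact inv3_nxt h hN he h1 h2 h3 hv ih

lemma ch3_ch (h : Ind3 S x y w κ B σ p p1 v1 es c1 N0) {e : ℝ} {N T : ℕ} (hN : N0 ≤ N)
    (he : e ≤ es) (h1 : ∀ n, N ≤ n → y n ^ 2 ≤ e) (h2 : ∀ n, N ≤ n → y n ^ (2 - 2 * σ) ≤ e)
    (h3 : ∀ n, N ≤ n → κ * x n ≤ 1) (hv : HVe B c1 e)
    {s : ℕ × ℝ} (hs : Inv3 S y e c1 N s) :
    Ch2 x y w κ σ p p1 v1 es (fun j => (ch y w σ T s j).1) (fun j => (ch y w σ T s j).2) := by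
  have hI := inv3_ch h (T := T) hN he h1 h2 h3 hv hs
  have hpos : ∀ j, 0 < (ch y w σ T s j).2 := fun j =>
    lt_of_lt_of_le (pow_pos (h.y0 _ (hN.trans (hI j).1)) 2) (hI j).2.2.1
  have hs1 : ∀ j, (ch y w σ T s j).1 + w (ch y w σ T s j).2 ≤ (ch y w σ T s (j + 1)).1 :=
    fun j => by rw [ch_succ]; exact nx_ge w T _
  have hs2 : ∀ j, (ch y w σ T s (j + 1)).1 ≤ (ch y w σ T s j).1 + 4 * w (ch y w σ T s j).2 :=
    fun j => by rw [ch_succ]; exact (nx_le w T _).trans (by omega)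
  exact
    { y0 := fun j => h.y0 _ (hN.trans (hI j).1)
      ye := fun j => (hI j).2.2.1
      ees := fun j => (hI j).2.2.2.1.trans he
      w1 := fun j => h.w1 _ (hpos j) ((hI j).2.2.2.1.trans he)
      s1 := hs1
      s2 := hs2
      re := fun j => by rw [ch_succ]; rfl
      low := fun j => h.low _ _ (hN.trans (hI j).1) (hI j).2.1 (hI j).2.2.1
        ((hI j).2.2.2.1.trans he) (hI j).2.2.2.2
      stP := fun j => h.stepX _ _ _ (hN.trans (hI j).1) (hI j).2.1 (hI j).2.2.1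
        ((hI j).2.2.2.1.trans he) (hI j).2.2.2.2 (hs1 j) (hs2 j)
      stV := fun j => h.stepV _ _ _ (hN.trans (hI j).1) (hI j).2.1 (hI j).2.2.1
        ((hI j).2.2.2.1.trans he) (hI j).2.2.2.2 (hs1 j) (hs2 j) }

/-- the chain aimed at `T` hits `T` -/
lemma hit3 (w2 : ∀ ε ε', 0 < ε → ε / 2 ≤ ε' → ε' ≤ es → w ε' ≤ 2 * w ε) {T : ℕ} {s : ℕ × ℝ}
    (c : Ch2 x y w κ σ p p1 v1 es (fun j => (ch y w σ T s j).1) (fun j => (ch y w σ T s j).2))
    (hT : s.1 + w s.2 ≤ T) :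
    ∃ j, (ch y w σ T s j).1 + w (ch y w σ T s j).2 ≤ T ∧
      T ≤ (ch y w σ T s j).1 + 3 * w (ch y w σ T s j).2 := by
  by_contra hcon
  push Not at hcon
  have key : ∀ j, (ch y w σ T s j).1 + w (ch y w σ T s j).2 ≤ T := by
    intro j
    induction j with
    | zero => exact hT
    | succ j ih =>
      have h3 := hcon j ih
      have h4 : (ch y w σ T s (j + 1)).1 = (ch y w σ T s j).1 + w (ch y w σ T s j).2 := by
        rw [ch_succ]
        show nx w T _ = _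
        unfold nx
        rw [if_neg]
        rintro ⟨-, h5⟩
        omega
      have h5 : w (ch y w σ T s (j + 1)).2 ≤ 2 * w (ch y w σ T s j).2 :=
        w2 _ _ (c.e_pos j) (c.half j) (c.ees (j + 1))
      omega
  have h3 := c.ge (T + 1)
  have h4 := key (T + 1)
  omega

/-- **CLOSE**, third form -/
theorem close3 (h : Ind3 S x y w κ B σ p p1 v1 es c1 N0) (start : Start3 S y c1)
    (hx : Tendsto x atTop (𝓝 0)) (hy : Tendsto y atTop (𝓝 0)) {a : ℝ} (ha : 0 < a) :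
    ∃ N, ∀ T, N ≤ T → ∃ n ε, N0 ≤ n ∧ S n ε ∧ y n ^ 2 ≤ ε ∧ ε ≤ es ∧ ε ≤ a ∧
      ε ≤ y n ^ (2 - 3 * σ) ∧ |x n| ≤ ε ^ p ∧ Real.log (1 / y n) ≤ ε ^ (-c1) ∧
      n + w ε ≤ T ∧ T ≤ n + 3 * w ε := by
  have hσ0 := h.σ0
  have hσ1 := h.σ1
  obtain ⟨e1, he1, hstar⟩ := star2 (x := x) (y := y) (w := w) h.κ0 h.σ0 h.σ1 h.p0 h.pp h.pv
    h.p11 h.v11 h.es1
  obtain ⟨e2, he2, hvar⟩ := y_var3 h (a := 1 / 10) (by norm_num)
  obtain ⟨e3, he3, hpw⟩ := small_pow (a := σ) (c := 4 / 5) hσ0 (by norm_num)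
  obtain ⟨e4, he4, -, hhv⟩ := hv_small h.B0 h.c10
  -- the threshold
  obtain ⟨e, he0, hee1, hee2, hees, hea, hee4⟩ :
      ∃ e, 0 < e ∧ e ≤ e1 ∧ e ≤ e2 ∧ e ≤ es ∧ e ≤ a ∧ e ≤ e4 := by
    refine ⟨min (min e1 e2) (min (min es a) e4),
      lt_min (lt_min he1 he2) (lt_min (lt_min h.es0 ha) he4), ?_, ?_, ?_, ?_, ?_⟩
    · exact (min_le_left _ _).trans (min_le_left _ _)
    · exact (min_le_left _ _).trans (min_le_right _ _)
    · exact (min_le_right _ _).trans ((min_le_left _ _).trans (min_le_left _ _))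
    · exact (min_le_right _ _).trans ((min_le_left _ _).trans (min_le_right _ _))
    · exact (min_le_right _ _).trans (min_le_right _ _)
  have hv : HVe B c1 e := fun ε h0 h1 => hhv ε h0 (h1.trans hee4)
  have he1' : e ≤ 1 := hees.trans (h.es1.trans (by norm_num))
  have hyev : ∀ᶠ n in atTop, y n ≤ min e e3 := by
    have := hy.eventually (gt_mem_nhds (lt_min he0 he3))
    filter_upwards [this] with n hn using hn.le
  have hxev : ∀ᶠ n in atTop, κ * x n ≤ 1 := by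
    have h1 : Tendsto (fun n => κ * x n) atTop (𝓝 (κ * 0)) := hx.const_mul κ
    rw [mul_zero] at h1
    have := h1.eventually (gt_mem_nhds one_pos)
    filter_upwards [this] with n hn using hn.le
  obtain ⟨N2, hN2⟩ := eventually_atTop.1 (hyev.and hxev)
  obtain ⟨N, hN0, hN2'⟩ : ∃ N, N0 ≤ N ∧ N2 ≤ N := ⟨max N0 N2, le_max_left _ _, le_max_right _ _⟩
  have hye : ∀ n, N ≤ n → 0 < y n ∧ y n ≤ e ∧ y n ≤ e3 ∧ y n ≤ 1 := fun n hn =>
    ⟨h.y0 _ (hN0.trans hn), ((hN2 n (hN2'.trans hn)).1).trans (min_le_left _ _),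
      ((hN2 n (hN2'.trans hn)).1).trans (min_le_right _ _),
      (((hN2 n (hN2'.trans hn)).1).trans (min_le_left _ _)).trans he1'⟩
  have hκx : ∀ n, N ≤ n → κ * x n ≤ 1 := fun n hn => (hN2 n (hN2'.trans hn)).2
  have hsq : ∀ n, N ≤ n → y n ^ 2 ≤ e := by
    intro n hn
    obtain ⟨a1, a2, a3, a4⟩ := hye n hn
    nlinarith
  have hsq2 : ∀ n, N ≤ n → y n ^ (2 - 2 * σ) ≤ e := by
    intro n hn
    obtain ⟨a1, a2, a3, a4⟩ := hye n hn
    calc y n ^ (2 - 2 * σ) ≤ y n ^ (1 : ℝ) :=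
          Real.rpow_le_rpow_of_exponent_ge a1 a4 (by linarith)
      _ = y n := Real.rpow_one _
      _ ≤ e := a2
  -- the start of the chains
  obtain ⟨s, hs⟩ : ∃ s, Inv3 S y e c1 N s := by
    obtain ⟨n, ε, b1, b2, b3, b4, b5⟩ := start e he0 N
    exact ⟨(n, ε), b1, b3, b4, b2, b5⟩
  have hys : 0 < y s.1 := (hye _ hs.1).1
  have hse : 0 < s.2 := lt_of_lt_of_le (pow_pos hys 2) hs.2.2.1
  -- number of steps
  obtain ⟨J, hJ⟩ : ∃ J : ℕ, (5 / 8 : ℝ) ^ J * (s.2 / y s.1 ^ (2 - 3 * σ)) ≤ 1 := by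
    have h1 : Tendsto (fun J : ℕ => (5 / 8 : ℝ) ^ J * (s.2 / y s.1 ^ (2 - 3 * σ))) atTop
        (𝓝 (0 * (s.2 / y s.1 ^ (2 - 3 * σ)))) :=
      (tendsto_pow_atTop_nhds_zero_of_lt_one (by norm_num) (by norm_num)).mul_const _
    rw [zero_mul] at h1
    have h2 := h1.eventually (gt_mem_nhds one_pos)
    obtain ⟨J, hJ⟩ := h2.exists
    exact ⟨J, hJ.le⟩
  obtain ⟨M, hM⟩ := exists_nat_gt
    ((s.1 : ℝ) + ∑ i ∈ range J, 4 * (B * Real.log (2 ^ i / s.2)))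
  refine ⟨max M (s.1 + w s.2), fun T hT => ?_⟩
  have hTM : M ≤ T := (le_max_left _ _).trans hT
  have hTN : s.1 + w s.2 ≤ T := (le_max_right _ _).trans hT
  have c := ch3_ch h (T := T) hN0 hees hsq hsq2 hκx hv hs
  obtain ⟨j, hj1, hj2⟩ := hit3 h.w2 c hTN
  have hinv := inv3_ch h (T := T) hN0 hees hsq hsq2 hκx hv hs
  have hJj : J ≤ j := by
    by_contra hlt
    push Not at hlt
    have h1 := (c.le_sum h.B0 h.w3 J).2
    have h2 : (ch y w σ T s 0) = s := ch_zero _ _ _ _ _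
    rw [h2] at h1
    have h3 : ((ch y w σ T s J).1 : ℝ) < T :=
      lt_of_le_of_lt h1 (hM.trans_le (by exact_mod_cast hTM))
    have h4 : (ch y w σ T s J).1 < T := by exact_mod_cast h3
    have h5 : (ch y w σ T s (j + 1)).1 = T := by
      rw [ch_succ]
      show nx w T _ = _
      unfold nx
      rw [if_pos ⟨hj1, hj2⟩]
    have h6 : (ch y w σ T s (j + 1)).1 ≤ (ch y w σ T s J).1 := c.mono (by omega)
    omega
  have hxs : ∀ i, |x (ch y w σ T s i).1| ≤ (ch y w σ T s i).2 ^ p := by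
    intro i
    have hup := hstar _ _ c (hx.comp c.tend) (fun i => hκx _ (hinv i).1) i
      (((hinv i).2.2.2.1).trans hee1)
    exact abs_le.2 ⟨c.low i, hup⟩
  have hratio : ∀ i, |Real.log (y (ch y w σ T s (i + 1)).1) -
      Real.log (y (ch y w σ T s i).1)| ≤ 1 / 10 := by
    intro i
    have h1 := c.stV i
    have h2 : ((ch y w σ T s (i + 1)).1 : ℝ) - (ch y w σ T s i).1 ≤
        4 * w (ch y w σ T s i).2 := by
      have h3 : (((ch y w σ T s (i + 1)).1 : ℕ) : ℝ) ≤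
        (((ch y w σ T s i).1 + 4 * w (ch y w σ T s i).2 : ℕ) : ℝ) := by
        exact_mod_cast c.s2 i
      push_cast at h3
      linarith
    have h3 : 0 ≤ ((ch y w σ T s (i + 1)).1 : ℝ) - (ch y w σ T s i).1 := by
      have h4 : (((ch y w σ T s i).1 : ℕ) : ℝ) ≤ (((ch y w σ T s (i + 1)).1 : ℕ) : ℝ) := by
        exact_mod_cast (Nat.le_succ _).trans (c.lt i)
      linarith
    have h4 := hvar _ (c.e_pos i) (((hinv i).2.2.2.1).trans hee2) (c.ees i) _ _ (hxs i) h3 h2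
    have h5 := abs_sub (Real.log (y (ch y w σ T s (i + 1)).1) -
      Real.log (y (ch y w σ T s i).1) + κ * x (ch y w σ T s i).1 *
        (((ch y w σ T s (i + 1)).1 : ℝ) - (ch y w σ T s i).1))
      (κ * x (ch y w σ T s i).1 *
        (((ch y w σ T s (i + 1)).1 : ℝ) - (ch y w σ T s i).1))
    rw [add_sub_cancel_right] at h5
    linarith
  have hR := ratio_iter (σ := σ) (R0 := s.2 / y s.1 ^ (2 - 3 * σ))
    (E := fun i => (ch y w σ T s i).2) (ys := fun i => y (ch y w σ T s i).1)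
    hσ0 hσ1 (fun i => (hye _ (hinv i).1).1) (fun i => (hye _ (hinv i).1).2.2.2)
    (fun i => hpw _ (hye _ (hinv i).1).1.le (hye _ (hinv i).1).2.2.1) hratio
    (by rw [ch_zero, div_mul_cancel₀ _ (Real.rpow_pos_of_pos hys _).ne']) (fun i => c.re i) j
  have hRj : (5 / 8 : ℝ) ^ j * (s.2 / y s.1 ^ (2 - 3 * σ)) ≤ 1 := by
    refine le_trans (mul_le_mul_of_nonneg_right ?_ (by positivity)) hJ
    exact pow_le_pow_of_le_one (by norm_num) (by norm_num) hJj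
  rw [max_eq_right hRj, one_mul] at hR
  exact ⟨(ch y w σ T s j).1, (ch y w σ T s j).2, hN0.trans (hinv j).1, (hinv j).2.1, c.ye j,
    c.ees j, ((hinv j).2.2.2.1).trans hea, hR, hxs j, (hinv j).2.2.2.2, hj1, hj2⟩

/-- **CLOSE, pointwise form**, third contract -/
theorem close_pt3 (h : Ind3 S x y w κ B σ p p1 v1 es c1 N0) (start : Start3 S y c1)
    (hx : Tendsto x atTop (𝓝 0)) (hy : Tendsto y atTop (𝓝 0)) {a r1 r2 : ℝ} (ha : 0 < a)
    (hr1 : r1 < (2 - 3 * σ) * p1) (hr2 : r2 < (2 - 3 * σ) * p1) (hr3 : r2 < (2 - 3 * σ) * v1) :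
    ∃ N, ∀ T, N ≤ T → 0 < y T ∧ y T ≤ 1 ∧ y T ^ (2 - 4 * σ) ≤ a ∧ y T ^ (2 - 4 * σ) ≤ es ∧
      S T (y T ^ (2 - 4 * σ)) ∧ Real.log (1 / y T) ≤ (y T ^ (2 - 4 * σ)) ^ (-c1) ∧
      |x T| ≤ y T ^ ((2 - 4 * σ) * p) ∧
      (∀ k, T ≤ k → k ≤ T + 1 → |x k - x T| ≤ y T ^ r1) ∧
      |Real.log (y (T + 1)) - Real.log (y T) + κ * x T| ≤ y T ^ r2 := by
  have hσ0 := h.σ0
  have hσ1 := h.σ1
  have hκ := h.κ0
  have hp1 := p1_pos3 h
  have hv1 := v1_pos3 h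
  have hp0 := h.p0
  obtain ⟨ea, hea, hvar⟩ := y_var3 h (a := 1 / 10) (by norm_num)
  have hy0' : ∀ᶠ n in atTop, 0 < y n := by
    filter_upwards [eventually_ge_atTop N0] with n hn using h.y0 n hn
  -- smallness of powers of `y`
  have hpow : ∀ b c : ℝ, 0 < b → 0 < c → ∀ᶠ n in atTop, y n ^ b ≤ c := by
    intro b c hb hc
    obtain ⟨e, he, h1⟩ := small_pow hb hc
    filter_upwards [hy.eventually (gt_mem_nhds he), hy0'] with n hn hn0
    exact h1 _ hn0.le hn.le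
  have hpa : p < p1 := by
    have := h.pp
    nlinarith
  have hpb : p < v1 := by
    have := h.pv
    nlinarith
  have e0 := hv_final hy0' hy (b := 2 - 4 * σ) (by linarith) h.c10
  have e1 := hpow σ (1 / 4) hσ0 (by norm_num)
  have e2 := hpow (2 - 4 * σ) (min a es) (by linarith) (lt_min ha h.es0)
  have e3 := hpow (σ * p / 2) (1 / 4) (by positivity) (by norm_num)
  have e4 := hpow ((2 - 3 * σ) * p1 - r1) (1 / 4) (by linarith) (by norm_num)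
  have e5 := hpow ((2 - 3 * σ) * p1 - r2) (1 / (8 * (κ + 1))) (by linarith) (by positivity)
  have e6 := hpow ((2 - 3 * σ) * v1 - r2) (1 / 8) (by linarith) (by norm_num)
  have e7 : ∀ᶠ n in atTop, y n ≤ 1 := by
    filter_upwards [hy.eventually (gt_mem_nhds one_pos)] with n hn using hn.le
  obtain ⟨N1, hN1⟩ := eventually_atTop.1
    (e0.and (e1.and (e2.and (e3.and (e4.and (e5.and (e6.and e7)))))))
  obtain ⟨N2, hN2⟩ := close3 h start hx hy hea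
  refine ⟨max (max N1 N2) N0, fun T hT => ?_⟩
  have hTN1 : N1 ≤ T := (le_max_left _ _).trans ((le_max_left _ _).trans hT)
  have hTN2 : N2 ≤ T := (le_max_right _ _).trans ((le_max_left _ _).trans hT)
  have hTN0 : N0 ≤ T := (le_max_right _ _).trans hT
  obtain ⟨f0, f1, f2, f3, f4, f5, f6, f7⟩ := hN1 T hTN1
  obtain ⟨n, ε, g1, g2, g3, g4, g5, g6, g7, g7', g8, g9⟩ := hN2 T hTN2
  have hyT := h.y0 T hTN0
  have hyn := h.y0 n g1
  have hε : 0 < ε := lt_of_lt_of_le (pow_pos hyn 2) g3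
  have hε1 : ε ≤ 1 := g4.trans (h.es1.trans (by norm_num))
  have hw1 := h.w1 ε hε g4
  have hst : ∀ k, T ≤ k → k ≤ T + 1 → |x k - x n| ≤ ε ^ p1 ∧
      |Real.log (y k) - Real.log (y n) + κ * x n * ((k : ℝ) - n)| ≤ ε ^ v1 := fun k h1 h2 =>
    ⟨h.stepX n k ε g1 g2 g3 g4 g7' (by omega) (by omega),
      h.stepV n k ε g1 g2 g3 g4 g7' (by omega) (by omega)⟩
  have hd : ∀ k, T ≤ k → k ≤ T + 1 → 0 ≤ (k : ℝ) - n ∧ (k : ℝ) - n ≤ 4 * w ε := by
    intro k h1 h2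
    have h3 : (n : ℝ) ≤ k := by exact_mod_cast (show n ≤ k by omega)
    have h4 : (k : ℝ) ≤ n + 4 * w ε := by exact_mod_cast (show k ≤ n + 4 * w ε by omega)
    exact ⟨by linarith, by linarith⟩
  have hlog : |Real.log (y T) - Real.log (y n)| ≤ 1 / 5 := by
    have h1 := (hst T le_rfl (by omega)).2
    obtain ⟨h2, h3⟩ := hd T le_rfl (by omega)
    have h4 := hvar ε hε g5 g4 (x n) _ g7 h2 h3
    have h5 := abs_sub (Real.log (y T) - Real.log (y n) + κ * x n * ((T : ℝ) - n))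
      (κ * x n * ((T : ℝ) - n))
    rw [add_sub_cancel_right] at h5
    linarith
  have hεT : ε ≤ 2 * y T ^ (2 - 3 * σ) :=
    g6.trans (pow_cmp hyn hyT hlog (by linarith) (by linarith))
  have hεb : ∀ b : ℝ, 0 < b → b ≤ 1 → ε ^ b ≤ 2 * y T ^ ((2 - 3 * σ) * b) := by
    intro b hb0 hb1
    have h1 : ε ^ b ≤ (2 * y T ^ (2 - 3 * σ)) ^ b := Real.rpow_le_rpow hε.le hεT hb0.le
    rw [Real.mul_rpow (by norm_num) (by positivity), ← Real.rpow_mul hyT.le] at h1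
    have h2 : (2 : ℝ) ^ b ≤ 2 := by
      conv_rhs => rw [← Real.rpow_one 2]
      exact Real.rpow_le_rpow_of_exponent_le (by norm_num) hb1
    exact h1.trans (mul_le_mul_of_nonneg_right h2 (by positivity))
  have hP := hεb p1 hp1 h.p11
  have hV := hεb v1 hv1 h.v11
  have hp := hεb p hp0 (hpa.le.trans h.p11)
  have hsplit : ∀ b c : ℝ, y T ^ b = y T ^ (b - c) * y T ^ c := by
    intro b c
    rw [← Real.rpow_add hyT]; congr 1; ring
  refine ⟨hyT, f7, f2.trans (min_le_left _ _), f2.trans (min_le_right _ _), ?_, f0, ?_, ?_, ?_⟩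
  · refine h.stepS n T ε _ g1 g2 g3 g4 g7' (by omega) (by omega) ?_ ?_
      (f2.trans (min_le_right _ _)) f0
    swap
    · rw [← Real.rpow_natCast]
      exact Real.rpow_le_rpow_of_exponent_ge hyT f7 (by push_cast; linarith)
    have h1 : 2 * y T ^ (2 - 3 * σ) ≤ y T ^ (2 - 4 * σ) := by
      rw [hsplit (2 - 3 * σ) (2 - 4 * σ), show 2 - 3 * σ - (2 - 4 * σ) = σ by ring]
      have := mul_le_mul_of_nonneg_right f1 (Real.rpow_nonneg hyT.le (2 - 4 * σ))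
      have := Real.rpow_nonneg hyT.le (2 - 4 * σ)
      linarith
    refine max_le (by linarith) ?_
    have h4 : ε ^ (-σ) ≤ (y n ^ 2) ^ (-σ) :=
      Real.rpow_le_rpow_of_nonpos (by positivity) g3 (by linarith)
    have h5 : (y n ^ 2) ^ (-σ) * y n ^ 2 = y n ^ (2 - 2 * σ) := by
      rw [← Real.rpow_natCast, ← Real.rpow_mul hyn.le, ← Real.rpow_add hyn]
      congr 1
      push_cast
      ring
    have h6 : ε ^ (-σ) * y n ^ 2 ≤ y n ^ (2 - 2 * σ) := by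
      rw [← h5]
      exact mul_le_mul_of_nonneg_right h4 (by positivity)
    have h7 : y n ^ (2 - 2 * σ) ≤ 2 * y T ^ (2 - 2 * σ) :=
      pow_cmp hyn hyT hlog (by linarith) (by linarith)
    have h8 : y T ^ (2 - 2 * σ) ≤ y T ^ (2 - 3 * σ) :=
      Real.rpow_le_rpow_of_exponent_ge hyT f7 (by linarith)
    linarith
  · have h1 := (hst T le_rfl (by omega)).1
    have h2 : |x T| ≤ ε ^ p + ε ^ p1 := by
      have h3 := abs_add_le (x T - x n) (x n)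
      rw [sub_add_cancel] at h3
      linarith
    have h3 : ε ^ p1 ≤ ε ^ p := Real.rpow_le_rpow_of_exponent_ge hε hε1 hpa.le
    have h4 : 4 * y T ^ ((2 - 3 * σ) * p) ≤ y T ^ ((2 - 4 * σ) * p) := by
      rw [hsplit ((2 - 3 * σ) * p) ((2 - 4 * σ) * p),
        show (2 - 3 * σ) * p - (2 - 4 * σ) * p = σ * p by ring]
      have h5 : y T ^ (σ * p) ≤ y T ^ (σ * p / 2) :=
        Real.rpow_le_rpow_of_exponent_ge hyT f7 (by have := mul_pos hσ0 hp0; linarith)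
      have := mul_le_mul_of_nonneg_right (h5.trans f3)
        (Real.rpow_nonneg hyT.le ((2 - 4 * σ) * p))
      linarith
    linarith
  · intro k h1 h2
    have h3 := (hst T le_rfl (by omega)).1
    have h4 := (hst k h1 h2).1
    have h5 : |x k - x T| ≤ 2 * ε ^ p1 := by
      have h6 := abs_sub (x k - x n) (x T - x n)
      rw [sub_sub_sub_cancel_right] at h6
      linarith
    have h6 : 4 * y T ^ ((2 - 3 * σ) * p1) ≤ y T ^ r1 := by
      rw [hsplit ((2 - 3 * σ) * p1) r1]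
      have := mul_le_mul_of_nonneg_right f4 (Real.rpow_nonneg hyT.le r1)
      linarith
    linarith
  · have h3 := hst T le_rfl (by omega)
    have h4 := (hst (T + 1) (by omega) le_rfl).2
    have h5 : Real.log (y (T + 1)) - Real.log (y T) + κ * x T =
        (Real.log (y (T + 1)) - Real.log (y n) + κ * x n * (((T + 1 : ℕ) : ℝ) - n)) -
        (Real.log (y T) - Real.log (y n) + κ * x n * ((T : ℝ) - n)) + κ * (x T - x n) := by
      push_cast; ring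
    have h6 : |Real.log (y (T + 1)) - Real.log (y T) + κ * x T| ≤
        ε ^ v1 + ε ^ v1 + κ * ε ^ p1 := by
      rw [h5]
      refine (abs_add_le _ _).trans (add_le_add ((abs_sub _ _).trans (add_le_add h4 h3.2)) ?_)
      rw [abs_mul, abs_of_pos hκ]
      exact mul_le_mul_of_nonneg_left h3.1 hκ.le
    have h7 : y T ^ ((2 - 3 * σ) * p1) ≤ 1 / (8 * (κ + 1)) * y T ^ r2 := by
      rw [hsplit ((2 - 3 * σ) * p1) r2]
      exact mul_le_mul_of_nonneg_right f5 (Real.rpow_nonneg hyT.le r2)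
    have h8 : y T ^ ((2 - 3 * σ) * v1) ≤ 1 / 8 * y T ^ r2 := by
      rw [hsplit ((2 - 3 * σ) * v1) r2]
      exact mul_le_mul_of_nonneg_right f6 (Real.rpow_nonneg hyT.le r2)
    have h9 : κ * ε ^ p1 ≤ κ * (2 * (1 / (8 * (κ + 1)) * y T ^ r2)) :=
      mul_le_mul_of_nonneg_left (by linarith) hκ.le
    have h10 : κ * (2 * (1 / (8 * (κ + 1)) * y T ^ r2)) ≤ 1 / 4 * y T ^ r2 := by
      have h11 : κ * (2 * (1 / (8 * (κ + 1)) * y T ^ r2)) = κ / (κ + 1) * (1 / 4 * y T ^ r2) := by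
        field_simp
        ring
      rw [h11]
      refine mul_le_of_le_one_left (by positivity) ?_
      rw [div_le_one (by positivity)]
      linarith
    have h11 := Real.rpow_nonneg hyT.le r2
    linarith

/-- CLOSE (third contract) gives the flow structure -/
theorem fl_of_ind3 {c r q : ℝ} (h : Ind3 S x y w κ B σ p p1 v1 es c1 N0)
    (start : Start3 S y c1)
    (hx : Tendsto x atTop (𝓝 0)) (hy : Tendsto y atTop (𝓝 0)) (hy0 : ∀ n, 0 < y n)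
    (hc : 0 < c) (hr : 0 < r) (hq : 0 < q) (hq1 : q ≤ 1) (hq2 : q ≤ (2 - 4 * σ) * p)
    (h1 : 1 + c < (2 - 3 * σ) * p1) (h2 : 1 + c < (2 - 3 * σ) * v1) (h3 : r < (2 - 3 * σ) * p1) :
    ∃ N, N0 ≤ N ∧ Fl x y κ c r q N ∧ Wn y (wf y w σ) (2 * B) N ∧
      ∀ n, N ≤ n → S n (y n ^ (2 - 4 * σ)) ∧ y n ^ 2 ≤ y n ^ (2 - 4 * σ) ∧
        y n ^ (2 - 4 * σ) ≤ es ∧ Real.log (1 / y n) ≤ (y n ^ (2 - 4 * σ)) ^ (-c1) ∧ y n ≤ 1 := by
  obtain ⟨N1, hN1⟩ := close_pt3 h start hx hy one_pos h3 h1 h2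
  have hσ0 := h.σ0
  have hσ1 := h.σ1
  refine ⟨max N0 N1, le_max_left _ _, ⟨h.κ0, hc, hr, hq, hq1, hy0, ?_, ?_, ?_, hy⟩,
    ⟨by have := h.B0; positivity, ?_, ?_⟩, ?_⟩
  · intro n hn
    obtain ⟨a1, a2, a3, a4, a5, a5', a6, a7, a8⟩ := hN1 n ((le_max_right _ _).trans hn)
    exact a6.trans (Real.rpow_le_rpow_of_exponent_ge a1 a2 hq2)
  · intro n hn
    exact (hN1 n ((le_max_right _ _).trans hn)).2.2.2.2.2.2.2.2
  · intro n hn
    exact (hN1 n ((le_max_right _ _).trans hn)).2.2.2.2.2.2.2.1 (n + 1) (Nat.le_succ _) le_rfl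
  · intro n hn
    obtain ⟨a1, a2, a3, a4, -⟩ := hN1 n ((le_max_right _ _).trans hn)
    exact h.w1 _ (Real.rpow_pos_of_pos a1 _) a4
  · intro n hn
    obtain ⟨a1, a2, a3, a4, -⟩ := hN1 n ((le_max_right _ _).trans hn)
    have h4 := h.w3 _ (Real.rpow_pos_of_pos a1 _) a4
    have h5 : Real.log (1 / y n ^ (2 - 4 * σ)) = (2 - 4 * σ) * Real.log (1 / y n) := by
      rw [one_div, one_div, ← Real.inv_rpow a1.le, Real.log_rpow (by positivity)]
    have h6 : 0 ≤ Real.log (1 / y n) := Real.log_nonneg (by rw [one_le_div a1]; exact a2)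
    rw [h5] at h4
    refine h4.trans ?_
    have h7 : (2 - 4 * σ) * Real.log (1 / y n) ≤ 2 * Real.log (1 / y n) :=
      mul_le_mul_of_nonneg_right (by linarith) h6
    have h8 := mul_le_mul_of_nonneg_left h7 h.B0.le
    linarith
  · intro n hn
    obtain ⟨a1, a2, a3, a4, a5, a5', -⟩ := hN1 n ((le_max_right _ _).trans hn)
    refine ⟨a5, ?_, a4, a5', a2⟩
    rw [← Real.rpow_natCast]
    exact Real.rpow_le_rpow_of_exponent_ge a1 a2 (by push_cast; linarith)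

/-- CLOSE (third contract) and P-sharp give T3 -/
theorem T3_of_ind3 {A : ℝ} (h : Ind3 S x y w κ B σ p p1 v1 es c1 N0)
    (start : Start3 S y c1)
    (hx : Tendsto x atTop (𝓝 0)) (hy : Tendsto y atTop (𝓝 0)) (hy0 : ∀ n, 0 < y n)
    (h1 : 1 < (2 - 3 * σ) * p1) (h2 : 1 < (2 - 3 * σ) * v1) (hA : 0 < A)
    (hP : PSh S x y w σ A N0) :
    ∃ c r q N, T3 x y κ c r q (2 * B) A (wf y w σ) N := by
  have hσ0 := h.σ0
  have hσ1 := h.σ1
  have hp0 := h.p0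
  obtain ⟨c, hc, hc1, hc2⟩ := exists_room h1 h2
  have hq0 : 0 < min 1 ((2 - 4 * σ) * p) := lt_min one_pos (mul_pos (by linarith) hp0)
  obtain ⟨N, hN, hfl, hwn, hG⟩ := fl_of_ind3 h start hx hy hy0 (c := c) (r := 1 + c)
    (q := min 1 ((2 - 4 * σ) * p)) hc (by linarith) hq0 (min_le_left _ _) (min_le_right _ _)
    hc1 hc2 hc1
  refine ⟨c, 1 + c, min 1 ((2 - 4 * σ) * p), N, hfl, hwn, by linarith, hA, fun η hη => ?_⟩
  obtain ⟨e, he, hPe⟩ := hP η hη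
  filter_upwards [hy.eventually (gt_mem_nhds he), eventually_ge_atTop N] with n hn hn'
  exact hPe n (hN.trans hn') hn.le (hG n hn').1

/-- the second contract implies the third one -/
theorem Ind2.toInd3 {Good : ℕ → ℝ → Prop} (h : Ind2 Good x y w κ B σ p p1 v1 es c1 N0) :
    Ind3 Good x y w κ B σ p p1 v1 es c1 N0 where
  κ0 := h.κ0
  B0 := h.B0
  σ0 := h.σ0
  σ1 := h.σ1
  p0 := h.p0
  pp := h.pp
  pv := h.pv
  p11 := h.p11
  v11 := h.v11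
  es0 := h.es0
  es1 := h.es1
  c10 := h.c10
  w1 := h.w1
  w2 := h.w2
  w3 := h.w3
  y0 := h.y0
  low := fun n ε h1 h2 h3 h4 _ => h.low n ε h1 h2 h3 h4
  stepX := fun n m ε h1 h2 h3 h4 _ h5 h6 => (h.stepP n m ε h1 h2 h3 h4 h5 h6).2
  stepV := fun n m ε h1 h2 h3 h4 h7 h5 h6 => h.stepV n m ε h1 h2 h3 h4 h5 h6 h7
  stepS := fun n m ε _ h1 h2 h3 h4 _ h5 h6 h7 _ _ _ =>
    h.mono _ _ _ (h.stepP n m ε h1 h2 h3 h4 h5 h6).1 h7

end Vale.Agent.P159.H801
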