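import Vale.Agent.P159.H801.Close3

/-!
P159 (helper801), module CLOSE, fourth form of the contract: the activity `y` is carried by the
state `S n ε y` and is not a function of the scale.
-/

open Filter Topology Finset

namespace Vale.Agent.P159.H801

/-- data of the scalar induction for a state `S n ε y` which carries the activity -/
structure Ind4 (S : ℕ → ℝ → ℝ → Prop) (x : ℕ → ℝ) (w : ℝ → ℕ) (κ B σ p p1 v1 es c1 : ℝ)
    (N0 : ℕ) : Prop where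
  κ0 : 0 < κ
  B0 : 0 < B
  σ0 : 0 < σ
  σ1 : σ ≤ 1 / 4
  p0 : 0 < p
  pp : 2 * p < (1 - σ) * p1
  pv : p < (1 - σ) * v1
  p11 : p1 ≤ 1
  v11 : v1 ≤ 1
  es0 : 0 < es
  es1 : es ≤ 1 / 2
  c10 : 0 < c1
  w1 : ∀ ε, 0 < ε → ε ≤ es → 1 ≤ w ε
  w2 : ∀ ε ε', 0 < ε → ε / 2 ≤ ε' → ε' ≤ es → w ε' ≤ 2 * w ε
  w3 : ∀ ε, 0 < ε → ε ≤ es → (w ε : ℝ) ≤ B * Real.log (1 / ε)
  y0 : ∀ n ε y, N0 ≤ n → S n ε y → 0 < y
  ysm : ∀ δ, 0 < δ → ∃ N, ∀ n ε y, N ≤ n → S n ε y → y ^ 2 ≤ ε → ε ≤ es → y ≤ δ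
  low : ∀ n ε y, N0 ≤ n → S n ε y → y ^ 2 ≤ ε → ε ≤ es → Real.log (1 / y) ≤ ε ^ (-c1) →
    -(ε ^ p) ≤ x n
  stepX : ∀ n m ε y, N0 ≤ n → S n ε y → y ^ 2 ≤ ε → ε ≤ es → Real.log (1 / y) ≤ ε ^ (-c1) →
    n + w ε ≤ m → m ≤ n + 4 * w ε → |x m - x n| ≤ ε ^ p1
  stepS : ∀ n m ε y, N0 ≤ n → S n ε y → y ^ 2 ≤ ε → ε ≤ es → Real.log (1 / y) ≤ ε ^ (-c1) →
    n + w ε ≤ m → m ≤ n + 4 * w ε →
    ∃ y', S m (max (ε / 2) (y ^ (2 - 2 * σ))) y' ∧
      |Real.log y' - Real.log y + κ * x n * ((m : ℝ) - n)| ≤ ε ^ v1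

/-- the starting points -/
def Start4 (S : ℕ → ℝ → ℝ → Prop) (c1 : ℝ) : Prop :=
  ∀ e : ℝ, 0 < e → ∀ N : ℕ, ∃ n ε y, N ≤ n ∧ ε ≤ e ∧ S n ε y ∧ y ^ 2 ≤ ε ∧
    Real.log (1 / y) ≤ ε ^ (-c1)

/-- the next `ε` -/
noncomputable def nE (σ ε y : ℝ) : ℝ := max (ε / 2) (y ^ (2 - 2 * σ))

/-- the invariant -/
structure Iv (S : ℕ → ℝ → ℝ → Prop) (e c1 : ℝ) (N n : ℕ) (ε y : ℝ) : Prop where
  hN : N ≤ n
  hS : S n ε y
  hy : 0 < y
  ye : y ^ 2 ≤ ε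
  he : ε ≤ e
  hv : Real.log (1 / y) ≤ ε ^ (-c1)

variable {S : ℕ → ℝ → ℝ → Prop} {x : ℕ → ℝ} {w : ℝ → ℕ} {κ B σ p p1 v1 es c1 : ℝ} {N0 : ℕ}

/-- thresholds -/
structure Thr (S : ℕ → ℝ → ℝ → Prop) (x : ℕ → ℝ) (κ B σ es c1 : ℝ) (N0 : ℕ) (e : ℝ) (N : ℕ) :
    Prop where
  hN : N0 ≤ N
  e0 : 0 < e
  hes : e ≤ es
  e1 : e ≤ 1
  sm : ∀ n ε y, N ≤ n → S n ε y → y ^ 2 ≤ ε → ε ≤ es → y ≤ e
  hx : ∀ n, N ≤ n → κ * |x n| ≤ 1 ∧ κ * |x n| * (16 * B) ≤ σ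
  hv : HVe B c1 e
  hl : 2 ≤ σ * Real.log (1 / e)

lemma Iv.ep {e : ℝ} {N n : ℕ} {ε y : ℝ} (h : Iv S e c1 N n ε y) : 0 < ε :=
  lt_of_lt_of_le (pow_pos h.hy 2) h.ye

lemma p1_pos4 (h : Ind4 S x w κ B σ p p1 v1 es c1 N0) : 0 < p1 := by
  have h1 := h.pp
  have h2 := h.p0
  have h3 := h.σ1
  by_contra hc
  have : (1 - σ) * p1 ≤ 0 := mul_nonpos_of_nonneg_of_nonpos (by linarith) (not_lt.1 hc)
  linarith

lemma v1_pos4 (h : Ind4 S x w κ B σ p p1 v1 es c1 N0) : 0 < v1 := by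
  have h1 := h.pv
  have h2 := h.p0
  have h3 := h.σ1
  by_contra hc
  have : (1 - σ) * v1 ≤ 0 := mul_nonpos_of_nonneg_of_nonpos (by linarith) (not_lt.1 hc)
  linarith

/-- numerical part of the persistence of `y² ≤ ε` -/
lemma ysq_next {κ B σ ε y y' X d δ e : ℝ} (hκ : 0 ≤ κ) (hB : 0 < B) (hy : 0 < y) (hy' : 0 < y')
    (hye : y ^ 2 ≤ ε) (hyl : y ≤ e) (he1 : e ≤ 1)
    (hX : κ * |X| * (16 * B) ≤ σ) (hl : 2 ≤ σ * Real.log (1 / e)) (hσ0 : 0 < σ)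
    (hd0 : 0 ≤ d) (hd : d ≤ 4 * (B * Real.log (1 / ε))) (hδ : δ ≤ 1)
    (h : |Real.log y' - Real.log y + κ * X * d| ≤ δ) : y' ^ 2 ≤ y ^ (2 - 2 * σ) := by
  have hε : 0 < ε := lt_of_lt_of_le (pow_pos hy 2) hye
  have he0 : 0 < e := hy.trans_le hyl
  have hly : Real.log (1 / ε) ≤ 2 * Real.log (1 / y) := by
    have h9 : Real.log (1 / ε) ≤ Real.log (1 / y ^ 2) := by
      apply Real.log_le_log (by positivity)
      exact one_div_le_one_div_of_le (by positivity) hye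
    have h10 : Real.log (1 / y ^ 2) = 2 * Real.log (1 / y) := by
      rw [one_div, one_div, ← inv_pow, Real.log_pow]; norm_num
    linarith
  have hle : Real.log (1 / e) ≤ Real.log (1 / y) := by
    apply Real.log_le_log (by positivity)
    exact one_div_le_one_div_of_le hy hyl
  have hly0 : 0 ≤ Real.log (1 / y) :=
    le_trans (Real.log_nonneg (by rw [one_le_div he0]; exact he1)) hle
  have h1 := (abs_le.1 h).2
  have h2 : -(κ * X * d) ≤ κ * |X| * d := by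
    have h3 := neg_abs_le X
    have h4 : -(κ * X * d) = (κ * d) * (-X) := by ring
    have h5 : κ * |X| * d = (κ * d) * |X| := by ring
    rw [h4, h5]
    exact mul_le_mul_of_nonneg_left (by linarith) (by positivity)
  have h3 : κ * |X| * d ≤ κ * |X| * (8 * B * Real.log (1 / y)) := by
    apply mul_le_mul_of_nonneg_left _ (by positivity)
    have := mul_le_mul_of_nonneg_left hly hB.le
    linarith
  have h4 : κ * |X| * (8 * B * Real.log (1 / y)) ≤ σ / 2 * Real.log (1 / y) := by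
    have := mul_le_mul_of_nonneg_right hX hly0
    linarith
  have h5 : 2 ≤ σ * Real.log (1 / y) := hl.trans (mul_le_mul_of_nonneg_left hle hσ0.le)
  have h6 : 2 * Real.log y' ≤ (2 - 2 * σ) * Real.log y := by
    have h7 : Real.log (1 / y) = -Real.log y := by rw [one_div, Real.log_inv]
    rw [h7] at h3 h4 h5
    linarith
  have h8 : y' ^ 2 = Real.exp (2 * Real.log y') := by
    rw [two_mul, Real.exp_add, Real.exp_log hy', sq]
  rw [h8, Real.rpow_def_of_pos hy]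
  exact Real.exp_le_exp.2 (by linarith)

/-- **one step of the invariant** -/
lemma iv_step (h : Ind4 S x w κ B σ p p1 v1 es c1 N0) {e : ℝ} {N : ℕ}
    (t : Thr S x κ B σ es c1 N0 e N) {n m : ℕ} {ε y : ℝ} (hs : Iv S e c1 N n ε y)
    (h1 : n + w ε ≤ m) (h2 : m ≤ n + 4 * w ε) :
    ∃ y', Iv S e c1 N m (nE σ ε y) y' ∧
      |Real.log y' - Real.log y + κ * x n * ((m : ℝ) - n)| ≤ ε ^ v1 := by
  have hε := hs.ep
  have hεs : ε ≤ es := hs.he.trans t.hes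
  have hε1 : ε ≤ 1 := hs.he.trans t.e1
  obtain ⟨y', hS, hV⟩ := h.stepS n m ε y (t.hN.trans hs.hN) hs.hS hs.ye hεs hs.hv h1 h2
  have hmN : N ≤ m := hs.hN.trans (by omega)
  have hy' : 0 < y' := h.y0 m _ y' (t.hN.trans hmN) hS
  have hye : y ≤ e := t.sm n ε y hs.hN hs.hS hs.ye hεs
  have hnm : (n : ℝ) ≤ m := by exact_mod_cast (show n ≤ m by omega)
  have hd0 : 0 ≤ (m : ℝ) - n := by linarith
  have hd1 : (m : ℝ) - n ≤ 4 * w ε := by
    have : (m : ℝ) ≤ n + 4 * w ε := by exact_mod_cast h2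
    linarith
  have hw := h.w3 ε hε hεs
  have hv1 : ε ^ v1 ≤ 1 := Real.rpow_le_one hε.le hε1 (v1_pos4 h).le
  have hysq : y' ^ 2 ≤ y ^ (2 - 2 * σ) :=
    ysq_next h.κ0.le h.B0 hs.hy hy' hs.ye hye t.e1 (t.hx n hs.hN).2 t.hl h.σ0 hd0 (by linarith)
      hv1 hV
  have hnee : nE σ ε y ≤ e := by
    refine max_le (by have := hs.he; linarith) ?_
    calc y ^ (2 - 2 * σ) ≤ y ^ (1 : ℝ) :=
          Real.rpow_le_rpow_of_exponent_ge hs.hy (hye.trans t.e1) (by linarith [h.σ1])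
      _ = y := Real.rpow_one _
      _ ≤ e := hye
  have hmx : max (max (ε / 2) (y ^ (2 - 2 * σ))) (y' ^ 2) = nE σ ε y :=
    max_eq_left (hysq.trans (le_max_right _ _))
  refine ⟨y', ⟨hmN, hS, hy', hysq.trans (le_max_right _ _), hnee, ?_⟩, hV⟩
  have h4 := (abs_le.1 hV).1
  have h5 : κ * x n * ((m : ℝ) - n) ≤ 1 * ((m : ℝ) - n) := by
    apply mul_le_mul_of_nonneg_right _ hd0
    have h6 := mul_le_mul_of_nonneg_left (le_abs_self (x n)) h.κ0.le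
    linarith [(t.hx n hs.hN).1]
  have h6 := hv_step (e := e) (y1 := y') h.σ0 h.σ1 h.B0 t.hv t.e1 hε hs.he hs.hy hy' hs.ye (by
    rw [one_div, one_div, Real.log_inv, Real.log_inv]
    linarith) hs.hv (by rw [hmx]; exact hnee)
  rwa [hmx] at h6

/-- a plain chain -/
structure Pc (S : ℕ → ℝ → ℝ → Prop) (x : ℕ → ℝ) (w : ℝ → ℕ) (κ σ v1 c1 e : ℝ) (N : ℕ)
    (n : ℕ → ℕ) (ε y : ℕ → ℝ) : Prop where
  iv : ∀ j, Iv S e c1 N (n j) (ε j) (y j)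
  nn : ∀ j, n (j + 1) = n j + w (ε j)
  ee : ∀ j, ε (j + 1) = nE σ (ε j) (y j)
  V : ∀ j, |Real.log (y (j + 1)) - Real.log (y j) + κ * x (n j) * ((n (j + 1) : ℝ) - n j)| ≤
    ε j ^ v1

lemma pc_exists (h : Ind4 S x w κ B σ p p1 v1 es c1 N0) {e : ℝ} {N : ℕ}
    (t : Thr S x κ B σ es c1 N0 e N) {n0 : ℕ} {ε0 y0 : ℝ} (hs : Iv S e c1 N n0 ε0 y0) :
    ∃ n ε y, Pc S x w κ σ v1 c1 e N n ε y := by
  classical
  let St := {s : ℕ × ℝ × ℝ // Iv S e c1 N s.1 s.2.1 s.2.2}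
  have key : ∀ s : St, ∃ s' : St, s'.1.1 = s.1.1 + w s.1.2.1 ∧
      s'.1.2.1 = nE σ s.1.2.1 s.1.2.2 ∧
      |Real.log s'.1.2.2 - Real.log s.1.2.2 + κ * x s.1.1 * ((s'.1.1 : ℝ) - s.1.1)| ≤
        s.1.2.1 ^ v1 := by
    intro s
    obtain ⟨y', h1, h2⟩ := iv_step h t s.2 (m := s.1.1 + w s.1.2.1) le_rfl (by omega)
    exact ⟨⟨(s.1.1 + w s.1.2.1, nE σ s.1.2.1 s.1.2.2, y'), h1⟩, rfl, rfl, h2⟩
  choose F hF using key
  let s0 : St := ⟨(n0, ε0, y0), hs⟩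
  have hit : ∀ j, (F^[j + 1]) s0 = F ((F^[j]) s0) := fun j => Function.iterate_succ_apply' F j s0
  refine ⟨fun j => ((F^[j]) s0).1.1, fun j => ((F^[j]) s0).1.2.1, fun j => ((F^[j]) s0).1.2.2,
    fun j => ((F^[j]) s0).2, fun j => ?_, fun j => ?_, fun j => ?_⟩
  · simp only [hit]; exact (hF _).1
  · simp only [hit]; exact (hF _).2.1
  · simp only [hit]; exact (hF _).2.2

section chain
variable {e : ℝ} {N : ℕ} {n : ℕ → ℕ} {ε y : ℕ → ℝ}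

lemma Pc.w1 (c : Pc S x w κ σ v1 c1 e N n ε y) (h : Ind4 S x w κ B σ p p1 v1 es c1 N0)
    (hes : e ≤ es) (j : ℕ) : 1 ≤ w (ε j) := h.w1 _ (c.iv j).ep ((c.iv j).he.trans hes)

lemma Pc.lt (c : Pc S x w κ σ v1 c1 e N n ε y) (h : Ind4 S x w κ B σ p p1 v1 es c1 N0)
    (hes : e ≤ es) (j : ℕ) : n j + 1 ≤ n (j + 1) := by
  have := c.w1 h hes j
  rw [c.nn]
  omega

lemma Pc.ge (c : Pc S x w κ σ v1 c1 e N n ε y) (h : Ind4 S x w κ B σ p p1 v1 es c1 N0)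
    (hes : e ≤ es) (j : ℕ) : j ≤ n j := by
  induction j with
  | zero => exact Nat.zero_le _
  | succ j ih =>
    have := c.lt h hes j
    omega

lemma Pc.mono (c : Pc S x w κ σ v1 c1 e N n ε y) (h : Ind4 S x w κ B σ p p1 v1 es c1 N0)
    (hes : e ≤ es) : Monotone n :=
  monotone_nat_of_le_succ fun j => (Nat.le_succ _).trans (c.lt h hes j)

lemma Pc.tend (c : Pc S x w κ σ v1 c1 e N n ε y) (h : Ind4 S x w κ B σ p p1 v1 es c1 N0)
    (hes : e ≤ es) : Tendsto n atTop atTop :=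
  tendsto_atTop_mono (c.ge h hes) tendsto_id

lemma Pc.w2 (c : Pc S x w κ σ v1 c1 e N n ε y) (h : Ind4 S x w κ B σ p p1 v1 es c1 N0)
    (hes : e ≤ es) (j : ℕ) : w (ε (j + 1)) ≤ 2 * w (ε j) := by
  refine h.w2 _ _ (c.iv j).ep ?_ ((c.iv (j + 1)).he.trans hes)
  rw [c.ee]
  exact le_max_left _ _

/-- **(★)** along a plain chain -/
lemma Pc.star (h : Ind4 S x w κ B σ p p1 v1 es c1 N0) :
    ∃ e1 : ℝ, 0 < e1 ∧ ∀ (e : ℝ) (N : ℕ) (n : ℕ → ℕ) (ε y : ℕ → ℝ),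
      Thr S x κ B σ es c1 N0 e N → Pc S x w κ σ v1 c1 e N n ε y → e ≤ e1 →
      Tendsto x atTop (𝓝 0) → ∀ j, |x (n j)| ≤ ε j ^ p := by
  have hκ := h.κ0
  have hσ1 := h.σ1
  have h1σ : 0 < 1 - σ := by linarith
  have hp1 := p1_pos4 h
  have hv1 := v1_pos4 h
  have hc10 : 0 < κ * (1 - σ) * p1 / 16 := by positivity
  obtain ⟨ea, hea, ha⟩ := small_pow (a := (1 - σ) * p1 - 2 * p) (by linarith [h.pp]) hc10
  obtain ⟨eb, heb, hb⟩ := small_pow (a := (1 - σ) * v1 - p) (c := κ / 8) (by linarith [h.pv])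
    (by positivity)
  refine ⟨min ea eb, lt_min hea heb, fun e N n ε y t c hee hx j => ?_⟩
  have hj : ε j ≤ min ea eb := (c.iv j).he.trans hee
  have hes := t.hes
  have he0 : 0 < ε j := (c.iv j).ep
  have he1 : ε j ≤ 1 := (c.iv j).he.trans t.e1
  refine abs_le.2 ⟨h.low _ _ _ (t.hN.trans (c.iv j).hN) (c.iv j).hS (c.iv j).ye
    ((c.iv j).he.trans hes) (c.iv j).hv, ?_⟩
  by_contra hcon
  rw [not_le] at hcon
  have hep : 0 < ε j ^ p := Real.rpow_pos_of_pos he0 _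
  have hX0 : 0 < x (n j) := lt_trans hep hcon
  have hA : ε j ^ ((1 - σ) * p1) ≤ κ * (1 - σ) * p1 / 16 * x (n j) ^ 2 := by
    have h1 := ha (ε j) he0.le (hj.trans (min_le_left _ _))
    have h2 : ε j ^ ((1 - σ) * p1) = ε j ^ ((1 - σ) * p1 - 2 * p) * ε j ^ (2 * p) := by
      rw [← Real.rpow_add he0]; congr 1; ring
    have h3 : ε j ^ (2 * p) ≤ x (n j) ^ 2 := by
      have h1 : ε j ^ (2 * p) = (ε j ^ p) ^ 2 := by
        rw [mul_comm, Real.rpow_mul he0.le]; norm_num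
      rw [h1]
      exact pow_le_pow_left₀ hep.le hcon.le 2
    rw [h2]
    exact mul_le_mul h1 h3 (Real.rpow_nonneg he0.le _) hc10.le
  have hB : ε j ^ ((1 - σ) * v1) ≤ κ / 8 * x (n j) := by
    have h1 := hb (ε j) he0.le (hj.trans (min_le_right _ _))
    have h2 : ε j ^ ((1 - σ) * v1) = ε j ^ ((1 - σ) * v1 - p) * ε j ^ p := by
      rw [← Real.rpow_add he0]; congr 1; ring
    rw [h2]
    exact mul_le_mul h1 hcon.le hep.le (by positivity)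
  have hy1 : ∀ i, y i ≤ 1 := fun i =>
    (t.sm _ _ _ (c.iv i).hN (c.iv i).hS (c.iv i).ye ((c.iv i).he.trans hes)).trans t.e1
  have hmx : ∀ i, ε (i + 1) = max (max (ε i / 2) (y i ^ (2 - 2 * σ))) (y (i + 1) ^ 2) := by
    intro i
    have h1 := (c.iv (i + 1)).ye
    rw [c.ee] at h1 ⊢
    exact (max_eq_left h1).symm
  have hκX : κ * x (n j) ≤ 1 := by
    have h1 := (t.hx _ (c.iv j).hN).1
    have h2 := mul_le_mul_of_nonneg_left (le_abs_self (x (n j))) hκ.le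
    linarith
  have hcore : ∀ i, x (n j) / 2 ≤ x (n (j + i)) := by
    refine star_core (κ := κ) (σ := σ) (p1 := p1) (v1 := v1) hκ h.σ0 hσ1 hp1 h.p11 hv1 h.v11 hX0
      hκX (fun i => x (n (j + i))) (fun i => y (j + i)) (fun i => ε (j + i))
      (fun i => (n (j + i + 1) : ℝ) - n (j + i)) he0 he1 rfl (fun i => (c.iv _).ep) ?_ ?_
      (fun i => (c.iv _).hy) (fun i => hy1 _) (c.iv j).ye (fun i => hmx (j + i)) ?_
      ?_ (fun i => c.V (j + i))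
    · simp only [add_zero]
      have h5 : x (n j) / 2 * (κ * x (n j) * (1 - σ) * p1 / 2 / 2) =
        2 * (κ * (1 - σ) * p1 / 16 * x (n j) ^ 2) := by ring
      rw [h5]
      linarith
    · simp only [add_zero]
      linarith
    · intro i
      have h3 : ((n (j + i) + 1 : ℕ) : ℝ) ≤ (n (j + i + 1) : ℝ) := by
        exact_mod_cast c.lt h hes (j + i)
      push_cast at h3
      linarith
    · intro i
      have hw := c.nn (j + i)
      exact h.stepX (n (j + i)) (n (j + i + 1)) (ε (j + i)) (y (j + i))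
        (t.hN.trans (c.iv _).hN) (c.iv _).hS (c.iv _).ye ((c.iv _).he.trans hes) (c.iv _).hv
        (by omega) (by omega)
  have hlim : x (n j) / 2 ≤ 0 := by
    refine ge_of_tendsto (hx.comp (c.tend h hes)) ?_
    filter_upwards [eventually_ge_atTop j] with k hk
    obtain ⟨i, rfl⟩ := Nat.exists_eq_add_of_le hk
    exact hcore i
  linarith

end chain

end Vale.Agent.P159.H801
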