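import Vale.Agent.P159.H801.Wode
import Vale.Agent.P159.H264.Asm4
import Mathlib.Analysis.Asymptotics.Lemmas

/-!
P159 (helper801), module WODE, part T3: (V) in one step form and (P) with a relative error `o(1)` on
logarithmic windows give `κ T_n - log n → ℓ`.
-/

open Filter Topology Finset

namespace Vale.Agent.P159.H801

open Vale.Agent.P159.H264 (TT kap stolz_zero exp_slope)

variable {x y : ℕ → ℝ} {κ c r q B A : ℝ} {N : ℕ} {w : ℕ → ℕ}

/-- tail sums of `y²` -/
noncomputable def zz (y : ℕ → ℝ) (n : ℕ) : ℝ := (∑' k, y k ^ 2) - ∑ k ∈ range n, y k ^ 2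

lemma zz_sub (y : ℕ → ℝ) (n : ℕ) : zz y n - zz y (n + 1) = y n ^ 2 := by
  rw [zz, zz, sum_range_succ]; ring

lemma zz_Ico (y : ℕ → ℝ) {n M : ℕ} (h : n ≤ M) : ∑ k ∈ Ico n M, y k ^ 2 = zz y n - zz y M := by
  rw [zz, zz, sum_Ico_eq_sub _ h]; ring

lemma zz_tend (hs : Summable fun n => y n ^ 2) : Tendsto (zz y) atTop (𝓝 0) := by
  have h1 := hs.hasSum.tendsto_sum_nat
  have h2 := (tendsto_const_nhds (x := ∑' k, y k ^ 2)).sub h1
  rw [sub_self] at h2
  exact h2

lemma zz_anti (hy : ∀ n, 0 < y n) (n : ℕ) : zz y (n + 1) < zz y n := by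
  have h1 := zz_sub y n
  have h2 := pow_pos (hy n) 2
  linarith

lemma zz_pos (hy : ∀ n, 0 < y n) (hs : Summable fun n => y n ^ 2) (n : ℕ) : 0 < zz y n := by
  have h1 : Antitone (zz y) := antitone_nat_of_succ_le fun n => (zz_anti hy n).le
  have h2 := h1.le_of_tendsto (zz_tend hs) (n + 1)
  exact lt_of_le_of_lt h2 (zz_anti hy n)

lemma rpow2 (y : ℝ) : y ^ (2 : ℝ) = y ^ 2 := Real.rpow_two y

/-- `u n = log y_n - log y_{n+1}` -/
noncomputable def uu (y : ℕ → ℝ) (n : ℕ) : ℝ := Real.log (y n) - Real.log (y (n + 1))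

/-- hypotheses of T3 -/
structure T3 (x y : ℕ → ℝ) (κ c r q B A : ℝ) (w : ℕ → ℕ) (N : ℕ) : Prop where
  fl : Fl x y κ c r q N
  wn : Wn y w B N
  r1 : 1 < r
  A0 : 0 < A
  P : ∀ η, 0 < η → ∀ᶠ n in atTop,
    |x n - x (n + w n) - A * (w n * y n ^ 2)| ≤ η * (w n * y n ^ 2)

theorem T3.low (h : T3 x y κ c r q B A w N) {η : ℝ} (hη : 0 < η) :
    ∀ᶠ n in atTop, (A - η) * (w n * y n ^ (2 : ℝ)) ≤ x n - x (n + w n) := by
  filter_upwards [h.P η hη] with n hn
  have := (abs_le.1 hn).1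
  rw [rpow2]
  linarith

theorem T3.up (h : T3 x y κ c r q B A w N) {η : ℝ} (hη : 0 < η) :
    ∀ᶠ n in atTop, x n - x (n + w n) ≤ (A + η) * (w n * y n ^ (2 : ℝ)) := by
  filter_upwards [h.P η hη] with n hn
  have := (abs_le.1 hn).2
  rw [rpow2]
  linarith

/-- `y² ≤ K x²`, `x > 0` -/
theorem T3.lower (h : T3 x y κ c r q B A w N) :
    ∃ K, 0 < K ∧ ∀ᶠ n in atTop, 0 < x n ∧ y n ^ 2 ≤ K * x n ^ 2 := by
  have hc := h.fl.c0
  have hr := h.r1
  have hA := h.A0
  have hc' : 0 < min c ((r - 1) / 2) := lt_min hc (by linarith)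
  obtain ⟨K, hK, h1⟩ := h.fl.lower h.wn (a := 2) (c0 := A / 2) (c' := min c ((r - 1) / 2))
    (by norm_num) hc' (min_le_left _ _)
    (by have := min_le_right c ((r - 1) / 2); linarith) (by linarith) (by positivity)
    (by
      have := h.low (η := A / 2) (by positivity)
      rwa [show A - A / 2 = A / 2 by ring] at this)
  refine ⟨K, hK, ?_⟩
  simpa only [rpow2] using h1

theorem T3.summ (h : T3 x y κ c r q B A w N) {s : ℝ} (hs : 1 < s) :
    Summable fun n => y n ^ s := by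
  obtain ⟨K, hK, h1⟩ := h.lower
  obtain ⟨C, hC, h2⟩ := h.fl.decay (a := 2) (K := K) (by norm_num)
    (by have := h.fl.c0; linarith) hK (by simpa only [rpow2] using h1)
  exact summ_pow h.fl.y0 (by norm_num) hC h2 (by linarith)

theorem T3.summ2 (h : T3 x y κ c r q B A w N) : Summable fun n => y n ^ 2 := by
  have := h.summ (s := 2) (by norm_num)
  simpa only [rpow2] using this

/-- `x_n / z_n → A` -/
theorem T3.xz (h : T3 x y κ c r q B A w N) :
    Tendsto (fun n => x n / zz y n) atTop (𝓝 A) := by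
  have hA := h.A0
  have hy := h.fl.y0
  have hs := h.summ2
  have hz := zz_pos hy hs
  rw [Metric.tendsto_atTop']
  intro ε hε
  -- the two bounds
  obtain ⟨η, hη, hηε, hηA⟩ : ∃ η, 0 < η ∧ η < ε ∧ η < A :=
    ⟨min ε A / 2, by positivity, by have := min_le_left ε A; have := lt_min hε hA; linarith,
      by have := min_le_right ε A; have := lt_min hε hA; linarith⟩
  have e1 := h.fl.low_win h.wn (a := 2) (c0 := A - η / 2) (c1 := A - η) (by norm_num)
    (by linarith) (by linarith) (h.low (by positivity))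
  have e2 := h.fl.up_win h.wn (a := 2) (c0 := A + η / 2) (c1 := A + η) (by norm_num)
    (by positivity) (by linarith) (h.up (by positivity))
  obtain ⟨N1, hN1⟩ := eventually_atTop.1 (e1.and (e2.and (eventually_ge_atTop N)))
  have hw1 : ∀ n, N1 ≤ n → 1 ≤ w n := fun n hn => h.wn.w1 n (hN1 n hn).2.2
  refine ⟨N1, fun n hn => ?_⟩
  have hn' : N1 ≤ n := le_of_lt hn
  have h1 : (A - η) * zz y n ≤ x n := by
    have h2 : ∀ M, (A - η) * ∑ k ∈ Ico n M, y k ^ 2 ≤ x n := fun M =>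
      sum_le_x (f := fun k => y k ^ 2) (fun k => sq_nonneg _) (by linarith) hw1 h.fl.xt
        (fun k hk => by have := (hN1 k hk).1; simpa only [rpow2] using this) hn'
    have h3 : Tendsto (fun M => (A - η) * (zz y n - zz y M)) atTop
        (𝓝 ((A - η) * (zz y n - 0))) :=
      (tendsto_const_nhds.sub (zz_tend hs)).const_mul _
    rw [sub_zero] at h3
    refine le_of_tendsto h3 ?_
    filter_upwards [eventually_ge_atTop n] with M hM
    rw [← zz_Ico y hM]
    exact h2 M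
  have h2 : x n ≤ (A + η) * zz y n := by
    refine x_le_sum (f := fun k => y k ^ 2) (by positivity) hw1 h.fl.xt
      (fun k hk => by have := (hN1 k hk).2.1; simpa only [rpow2] using this) (fun M => ?_) hn'
    rcases le_total n M with hM | hM
    · rw [zz_Ico y hM]
      linarith [hz M]
    · rw [Ico_eq_empty (by omega), sum_empty]
      exact (hz n).le
  have hzn := hz n
  rw [Real.dist_eq, abs_lt]
  constructor
  · have h4 : A - η ≤ x n / zz y n := by rwa [le_div_iff₀ hzn]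
    linarith
  · have h4 : x n / zz y n ≤ A + η := by rwa [div_le_iff₀ hzn]
    linarith

/-- `y^{1+c}/x → 0` -/
theorem T3.small (h : T3 x y κ c r q B A w N) {e : ℕ → ℝ}
    (he : ∀ᶠ n in atTop, |e n| ≤ y n ^ (1 + c)) :
    Tendsto (fun n => e n / y n) atTop (𝓝 0) := by
  have h1 : Tendsto (fun n => y n ^ c) atTop (𝓝 (0 ^ c)) :=
    h.fl.yt.rpow_const (Or.inr h.fl.c0.le)
  rw [Real.zero_rpow h.fl.c0.ne'] at h1
  refine squeeze_zero_norm' ?_ h1
  filter_upwards [he] with n hn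
  have hy := h.fl.y0 n
  rw [Real.norm_eq_abs, abs_div, abs_of_pos hy, div_le_iff₀ hy]
  calc |e n| ≤ y n ^ (1 + c) := hn
    _ = y n ^ c * y n := by rw [add_comm, Real.rpow_add hy, Real.rpow_one]

theorem T3.e_bd (h : T3 x y κ c r q B A w N) :
    ∀ᶠ n in atTop, |uu y n - κ * x n| ≤ y n ^ (1 + c) := by
  filter_upwards [eventually_ge_atTop N] with n hn
  have h1 := h.fl.V n hn
  rw [uu, abs_sub_comm]
  convert h1 using 2
  ring

/-- `y_n ≤ C x_n` -/
theorem T3.y_le_x (h : T3 x y κ c r q B A w N) :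
    ∃ C, 0 < C ∧ ∀ᶠ n in atTop, 0 < x n ∧ y n ≤ C * x n := by
  obtain ⟨K, hK, h1⟩ := h.lower
  refine ⟨Real.sqrt K, Real.sqrt_pos.2 hK, ?_⟩
  filter_upwards [h1] with n hn
  refine ⟨hn.1, le_of_sq_le_sq ?_ (by have := hn.1; positivity)⟩
  rw [mul_pow, Real.sq_sqrt hK.le]
  exact hn.2

theorem T3.ex (h : T3 x y κ c r q B A w N) :
    Tendsto (fun n => (uu y n - κ * x n) / x n) atTop (𝓝 0) := by
  obtain ⟨C, hC, h1⟩ := h.y_le_x
  have h2 := h.small h.e_bd
  have h3 : Tendsto (fun n => C * |(uu y n - κ * x n) / y n|) atTop (𝓝 (C * 0)) := by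
    have := h2.abs
    rw [abs_zero] at this
    exact this.const_mul C
  rw [mul_zero] at h3
  refine squeeze_zero_norm' ?_ h3
  filter_upwards [h1] with n hn
  have hy := h.fl.y0 n
  rw [Real.norm_eq_abs, abs_div, abs_div, abs_of_pos hn.1, abs_of_pos hy]
  rw [div_le_iff₀ hn.1]
  have h4 : C * (|uu y n - κ * x n| / y n) * x n = |uu y n - κ * x n| * (C * x n / y n) := by
    field_simp
  rw [h4]
  have h5 : 1 ≤ C * x n / y n := by rw [one_le_div hy]; exact hn.2
  exact le_mul_of_one_le_right (abs_nonneg _) h5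

/-- `u_n / x_n → κ` -/
theorem T3.ux (h : T3 x y κ c r q B A w N) :
    Tendsto (fun n => uu y n / x n) atTop (𝓝 κ) := by
  obtain ⟨C, hC, h1⟩ := h.y_le_x
  have h2 := h.ex.add_const κ
  rw [zero_add] at h2
  refine h2.congr' ?_
  filter_upwards [h1] with n hn
  have := hn.1.ne'
  field_simp
  ring

theorem T3.u_tend (h : T3 x y κ c r q B A w N) : Tendsto (uu y) atTop (𝓝 0) := by
  obtain ⟨C, hC, h1⟩ := h.y_le_x
  have h2 := h.ux.mul h.fl.xt
  rw [mul_zero] at h2
  refine h2.congr' ?_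
  filter_upwards [h1] with n hn
  exact div_mul_cancel₀ _ hn.1.ne'

theorem T3.u_pos (h : T3 x y κ c r q B A w N) : ∀ᶠ n in atTop, 0 < uu y n := by
  obtain ⟨C, hC, h1⟩ := h.y_le_x
  filter_upwards [h1, h.ux.eventually (lt_mem_nhds h.fl.κ0)] with n hn h2
  have := mul_pos h2 hn.1
  rwa [div_mul_cancel₀ _ hn.1.ne'] at this

/-- `y²/z² → κ A` -/
theorem T3.yz (h : T3 x y κ c r q B A w N) :
    Tendsto (fun n => y n ^ 2 / zz y n ^ 2) atTop (𝓝 (κ * A)) := by
  have hy := h.fl.y0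
  have hs := h.summ2
  have hz := zz_pos hy hs
  have hA := h.A0
  obtain ⟨C, hC, hyx⟩ := h.y_le_x
  have ha : Tendsto (fun n => y n ^ 2) atTop (𝓝 0) := by
    have := h.fl.yt.pow 2
    simpa using this
  have hb : Tendsto (fun n => zz y n ^ 2) atTop (𝓝 0) := by
    have := (zz_tend hs).pow 2
    simpa using this
  refine stolz_zero ha hb ?_ ?_
  · refine Eventually.of_forall fun n => ?_
    exact pow_lt_pow_left₀ (zz_anti hy n) (hz (n + 1)).le (by norm_num)
  -- `y²/(2z) → 0`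
  have h1 : Tendsto (fun n => y n ^ 2 / zz y n) atTop (𝓝 0) := by
    have h2 : Tendsto (fun n => C * (x n / zz y n) * y n) atTop (𝓝 (C * A * 0)) :=
      (h.xz.const_mul C).mul h.fl.yt
    rw [mul_zero] at h2
    refine squeeze_zero' (Eventually.of_forall fun n => ?_) ?_ h2
    · have := hz n
      positivity
    · filter_upwards [hyx] with n hn
      have hzn := hz n
      have hyn := hy n
      rw [div_le_iff₀ hzn]
      have h3 : C * (x n / zz y n) * y n * zz y n = (C * x n) * y n := by field_simp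
      rw [h3, sq]
      exact mul_le_mul_of_nonneg_right hn.2 hyn.le
  have h2 : Tendsto (fun n => -(2 * uu y n)) atTop (𝓝 0) := by
    have := (h.u_tend.const_mul 2).neg
    simpa using this
  have h3 : ∀ᶠ n in atTop, -(2 * uu y n) ≠ 0 := by
    filter_upwards [h.u_pos] with n hn
    have h9 : 0 < 2 * uu y n := by positivity
    exact neg_ne_zero.2 h9.ne'
  have h4 := exp_slope h2 h3
  have h5 : Tendsto (fun n => uu y n / x n * (x n / zz y n)) atTop (𝓝 (κ * A)) := h.ux.mul h.xz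
  have h6 : Tendsto (fun n => (1 - y n ^ 2 / zz y n / 2)⁻¹) atTop (𝓝 (1 - 0 / 2)⁻¹) :=
    (tendsto_const_nhds.sub (h1.div_const 2)).inv₀ (by norm_num)
  have h7 := (h4.mul h5).mul h6
  rw [show (1 : ℝ) * (κ * A) * (1 - 0 / 2)⁻¹ = κ * A by norm_num] at h7
  refine h7.congr' ?_
  filter_upwards [hyx, h.u_pos, h1.eventually (gt_mem_nhds one_pos)] with n hn hu hlt
  have hzn := hz n
  have hyn := hy n
  have hb1 : zz y n ^ 2 - zz y (n + 1) ^ 2 = y n ^ 2 * (2 * zz y n - y n ^ 2) := by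
    have h8 := zz_sub y n
    have h9 : zz y (n + 1) = zz y n - y n ^ 2 := by linarith
    rw [h9]; ring
  have ha1 : y n ^ 2 - y (n + 1) ^ 2 = y n ^ 2 * (1 - Real.exp (-(2 * uu y n))) := by
    have h8 : y (n + 1) ^ 2 = y n ^ 2 * Real.exp (-(2 * uu y n)) := by
      have h9 : Real.exp (-(2 * uu y n)) = (y (n + 1) / y n) ^ 2 := by
        rw [uu, show -(2 * (Real.log (y n) - Real.log (y (n + 1)))) =
          Real.log (y (n + 1)) + Real.log (y (n + 1)) - Real.log (y n) - Real.log (y n) by ring,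
          Real.exp_sub, Real.exp_sub, Real.exp_add, Real.exp_log (hy (n + 1)), Real.exp_log hyn]
        field_simp
      rw [h9]; field_simp
    rw [h8]; ring
  rw [ha1, hb1]
  have h10 : 0 < 2 * zz y n - y n ^ 2 := by
    rw [div_lt_one hzn] at hlt
    linarith
  have h11 : 1 - y n ^ 2 / zz y n / 2 = (2 * zz y n - y n ^ 2) / (2 * zz y n) := by
    field_simp
  rw [h11]
  have h12 : y n ^ 2 ≠ 0 := (pow_pos hyn 2).ne'
  have h13 := hn.1.ne'
  field_simp
  ring

/-- `y/x → √(κ/A)` -/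
theorem T3.yx (h : T3 x y κ c r q B A w N) :
    Tendsto (fun n => y n / x n) atTop (𝓝 (Real.sqrt (κ / A))) := by
  have hy := h.fl.y0
  have hs := h.summ2
  have hz := zz_pos hy hs
  have hA := h.A0
  have hκ := h.fl.κ0
  obtain ⟨C, hC, hyx⟩ := h.y_le_x
  have h1 : Tendsto (fun n => y n ^ 2 / zz y n ^ 2 / (x n / zz y n) ^ 2) atTop
      (𝓝 (κ * A / A ^ 2)) := h.yz.div (h.xz.pow 2) (by positivity)
  rw [show κ * A / A ^ 2 = κ / A by field_simp] at h1
  have h2 := (Real.continuous_sqrt.tendsto _).comp h1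
  refine h2.congr' ?_
  filter_upwards [hyx] with n hn
  have h3 : y n ^ 2 / zz y n ^ 2 / (x n / zz y n) ^ 2 = (y n / x n) ^ 2 := by
    have := (hz n).ne'
    have := hn.1.ne'
    field_simp
  rw [Function.comp, h3]
  exact Real.sqrt_sq (div_nonneg (hy n).le hn.1.le)

/-- `u_n / y_n → √(κ A)` -/
theorem T3.uy (h : T3 x y κ c r q B A w N) :
    Tendsto (fun n => uu y n / y n) atTop (𝓝 (Real.sqrt (κ * A))) := by
  have hA := h.A0
  have hκ := h.fl.κ0
  obtain ⟨C, hC, hyx⟩ := h.y_le_x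
  have h0 : 0 < Real.sqrt (κ / A) := Real.sqrt_pos.2 (by positivity)
  have h1 := h.ux.div h.yx h0.ne'
  have h2 : κ / Real.sqrt (κ / A) = Real.sqrt (κ * A) := by
    rw [div_eq_iff h0.ne', ← Real.sqrt_mul (by positivity)]
    rw [show κ * A * (κ / A) = κ ^ 2 by field_simp, Real.sqrt_sq hκ.le]
  rw [h2] at h1
  refine h1.congr' ?_
  filter_upwards [hyx] with n hn
  have h4 := hn.1.ne'
  have h5 := (h.fl.y0 n).ne'
  simp only [Pi.div_apply]
  field_simp

/-- `n y_n → 1/√(κ A)` in the form `(1/y_n)/n → √(κ A)` -/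
theorem T3.ny (h : T3 x y κ c r q B A w N) :
    Tendsto (fun n : ℕ => (n : ℝ)⁻¹ * (1 / y n)) atTop (𝓝 (Real.sqrt (κ * A))) := by
  have hy := h.fl.y0
  have h1 : Tendsto (fun n => 1 / y (n + 1) - 1 / y n) atTop (𝓝 (Real.sqrt (κ * A))) := by
    have h2 := exp_slope h.u_tend (h.u_pos.mono fun n hn => hn.ne')
    have h3 := h2.mul h.uy
    rw [one_mul] at h3
    refine h3.congr' ?_
    filter_upwards [h.u_pos] with n hn
    have h4 : Real.exp (uu y n) = y n / y (n + 1) := by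
      rw [uu, Real.exp_sub, Real.exp_log (hy n), Real.exp_log (hy (n + 1))]
    rw [h4]
    have := hn.ne'
    have := (hy n).ne'
    have := (hy (n + 1)).ne'
    field_simp
  have h2 := h1.cesaro
  have h3 : Tendsto (fun n : ℕ => (n : ℝ)⁻¹ * (1 / y 0)) atTop (𝓝 (0 * (1 / y 0))) :=
    (tendsto_inv_atTop_nhds_zero_nat).mul_const _
  have h4 := h2.add h3
  rw [zero_mul, add_zero] at h4
  refine h4.congr fun n => ?_
  rw [Finset.sum_range_sub (fun n => 1 / y n)]
  ring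

/-- **T3**: `κ T_n - log n` converges -/
theorem T3.T_lim (h : T3 x y κ c r q B A w N) :
    ∃ l, Tendsto (fun n : ℕ => κ * TT x n - Real.log n) atTop (𝓝 l) := by
  have hA := h.A0
  have hκ := h.fl.κ0
  have hy := h.fl.y0
  obtain ⟨l, hl⟩ := h.fl.logT (h.summ (s := 1 + c) (by have := h.fl.c0; linarith))
  have h0 : 0 < Real.sqrt (κ * A) := Real.sqrt_pos.2 (by positivity)
  have h1 := ((Real.continuousAt_log h0.ne').tendsto.comp h.ny)
  refine ⟨l + Real.log (Real.sqrt (κ * A)), (hl.add h1).congr' ?_⟩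
  filter_upwards [eventually_gt_atTop 0] with n hn
  have hn' : (0 : ℝ) < n := by exact_mod_cast hn
  rw [Function.comp, Real.log_mul (inv_ne_zero hn'.ne') (one_div_ne_zero (hy n).ne'),
    Real.log_inv, one_div, Real.log_inv]
  ring

/-- `n x_n → 1/κ` -/
theorem T3.nx (h : T3 x y κ c r q B A w N) :
    Tendsto (fun n : ℕ => n * x n) atTop (𝓝 (1 / κ)) := by
  have hA := h.A0
  have hκ := h.fl.κ0
  obtain ⟨C, hC, hyx⟩ := h.y_le_x
  have h0 : 0 < Real.sqrt (κ * A) := Real.sqrt_pos.2 (by positivity)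
  have h0' : 0 < Real.sqrt (κ / A) := Real.sqrt_pos.2 (by positivity)
  have h1 := (h.ny.mul h.yx).inv₀ (mul_pos h0 h0').ne'
  have h2 : (Real.sqrt (κ * A) * Real.sqrt (κ / A))⁻¹ = 1 / κ := by
    rw [← Real.sqrt_mul (by positivity), show κ * A * (κ / A) = κ ^ 2 by field_simp,
      Real.sqrt_sq hκ.le, one_div]
  rw [h2] at h1
  refine h1.congr' ?_
  filter_upwards [hyx, eventually_gt_atTop 0] with n hn hn0
  have hn' : (0 : ℝ) < n := by exact_mod_cast hn0
  have := hn.1.ne'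
  have := (h.fl.y0 n).ne'
  field_simp

theorem T3.sq_summable (h : T3 x y κ c r q B A w N) : Summable fun n => x n ^ 2 := by
  have h1 := h.nx
  have h2 : ∀ᶠ n : ℕ in atTop, ‖x n ^ 2‖ ≤ (1 / κ + 1) ^ 2 * (1 / (n : ℝ) ^ 2) := by
    have hκ := h.fl.κ0
    obtain ⟨C, hC, hyx⟩ := h.y_le_x
    filter_upwards [h1.eventually (gt_mem_nhds (show 1 / κ < 1 / κ + 1 by linarith)), hyx,
      eventually_gt_atTop 0] with n h3 h4 hn0
    have hn' : (0 : ℝ) < n := by exact_mod_cast hn0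
    have h5 : x n ≤ (1 / κ + 1) / n := by
      rw [le_div_iff₀ hn']
      linarith
    rw [Real.norm_eq_abs, abs_of_nonneg (sq_nonneg _)]
    calc x n ^ 2 ≤ ((1 / κ + 1) / n) ^ 2 := pow_le_pow_left₀ h4.1.le h5 2
      _ = _ := by rw [div_pow, mul_one_div]
  refine Summable.of_norm_bounded_eventually_nat ?_ h2
  exact (Real.summable_one_div_nat_pow.2 (by norm_num)).mul_left _

/-! ### assembly with helper264's determinant part -/

open Vale.Agent.P159.H264 (TT_diff_lim rem_summable sum_inv_eq natlog_top loglog)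

theorem det_lim' {ℓ : ℝ} {p : ℕ → ℝ}
    (hT : Tendsto (fun n : ℕ => kap * TT x n - Real.log n) atTop (𝓝 ℓ))
    (hx0 : Tendsto x atTop (𝓝 0)) (hx2 : Summable fun n => x n ^ 2)
    (hxq : Summable fun n => |p n - x n|) :
    ∃ a : ℝ, Tendsto (fun n : ℕ => Real.log 2 / (2 * Real.pi) *
      ∑ i ∈ range n, 1 / (2 / Real.pi + p i) - Real.log 2 / 4 * n + 1 / 8 * Real.log n)
      atTop (𝓝 a) := by
  have hpi := Real.pi_pos
  have h1 := (TT_diff_lim hxq).const_mul (kap / 8)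
  have h2 := hT.const_mul (1 / 8)
  have h3 := ((rem_summable hx0 hx2 hxq).hasSum.tendsto_sum_nat).const_mul
    (Real.log 2 / (2 * Real.pi))
  refine ⟨_, ((h3.sub h1).sub h2).congr fun n => ?_⟩
  rw [sum_inv_eq, kap]
  field_simp
  ring

/-- **T3, all distances**, from `κ T_n - log n → ℓ` -/
theorem amp_of_T {ℓ c' : ℝ} {p : ℕ → ℝ} {C : ℕ → ℝ}
    (hT : Tendsto (fun n : ℕ => kap * TT x n - Real.log n) atTop (𝓝 ℓ))
    (hx0 : Tendsto x atTop (𝓝 0)) (hx2 : Summable fun n => x n ^ 2)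
    (hxq : Summable fun n => |p n - x n|) (hC : ∀ᶠ r in atTop, 0 < C r)
    (hS : Tendsto (fun r : ℕ => Real.log (C r) + Real.log 2 / (2 * Real.pi) *
      ∑ i ∈ range (Nat.log 2 r), 1 / (2 / Real.pi + p i) +
      1 / 4 * (Real.log r - Nat.log 2 r * Real.log 2)) atTop (𝓝 c')) :
    ∃ a : ℝ, 0 < a ∧ Tendsto (fun r : ℕ => C r / ((r : ℝ) ^ (-(1 / 4) : ℝ) *
      Real.log r ^ (1 / 8 : ℝ))) atTop (𝓝 a) := by
  obtain ⟨a, ha⟩ := det_lim' hT hx0 hx2 hxq
  have h1 := hS.sub (ha.comp natlog_top)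
  have h2 := h1.add (loglog.const_mul (1 / 8))
  refine ⟨Real.exp (c' - a + 1 / 8 * Real.log (1 / Real.log 2)), Real.exp_pos _, ?_⟩
  refine ((Real.continuous_exp.tendsto _).comp h2).congr' ?_
  filter_upwards [hC, eventually_gt_atTop 1] with r hr hr1
  have hr0 : (0 : ℝ) < r := by exact_mod_cast (by omega : 0 < r)
  have hlr : 0 < Real.log r := Real.log_pos (by exact_mod_cast hr1)
  have h3 : C r / ((r : ℝ) ^ (-(1 / 4) : ℝ) * Real.log r ^ (1 / 8 : ℝ)) =
      Real.exp (Real.log (C r) + 1 / 4 * Real.log r - 1 / 8 * Real.log (Real.log r)) := by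
    rw [Real.exp_sub, Real.exp_add, Real.exp_log hr, Real.rpow_def_of_pos hr0,
      Real.rpow_def_of_pos hlr, mul_comm (Real.log r) (-(1 / 4)), neg_mul, Real.exp_neg,
      mul_comm (Real.log (Real.log r)) (1 / 8)]
    field_simp
  rw [h3, Function.comp]
  congr 1
  simp only [Function.comp]
  ring

/-- **T3, all distances**, windowed hypotheses -/
theorem T3.amp (h : T3 x y kap c r q B A w N) {c' : ℝ} {p : ℕ → ℝ} {C : ℕ → ℝ}
    (hxq : Summable fun n => |p n - x n|) (hC : ∀ᶠ r in atTop, 0 < C r)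
    (hS : Tendsto (fun r : ℕ => Real.log (C r) + Real.log 2 / (2 * Real.pi) *
      ∑ i ∈ range (Nat.log 2 r), 1 / (2 / Real.pi + p i) +
      1 / 4 * (Real.log r - Nat.log 2 r * Real.log 2)) atTop (𝓝 c')) :
    ∃ a : ℝ, 0 < a ∧ Tendsto (fun r : ℕ => C r / ((r : ℝ) ^ (-(1 / 4) : ℝ) *
      Real.log r ^ (1 / 8 : ℝ))) atTop (𝓝 a) := by
  obtain ⟨l, hl⟩ := h.T_lim
  exact amp_of_T hl h.fl.xt h.sq_summable hxq hC hS

end Vale.Agent.P159.H801
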