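import Vale.Agent.P159.H801.Close4
import Vale.Agent.P159.H801.Wode3

/-!
P159 (helper801), module CLOSE, fourth form of the contract, second part: from the plain chain to
the flow structures `Fl`, `Wn`, `T3`.
-/

open Filter Topology Finset

namespace Vale.Agent.P159.H801

variable {S : ℕ → ℝ → ℝ → Prop} {x : ℕ → ℝ} {w : ℝ → ℕ} {κ B σ p p1 v1 es c1 : ℝ} {N0 : ℕ}

/-- `y` varies little over a window as soon as `|x| ≤ ε^p` -/
lemma y_var4 (h : Ind4 S x w κ B σ p p1 v1 es c1 N0) {a : ℝ} (ha : 0 < a) :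
    ∃ e : ℝ, 0 < e ∧ ∀ ε, 0 < ε → ε ≤ e → ε ≤ es → ∀ X d : ℝ, |X| ≤ ε ^ p → 0 ≤ d →
      d ≤ 4 * w ε → |κ * X * d| + ε ^ v1 ≤ a := by
  have hκ := h.κ0
  have hB := h.B0
  obtain ⟨ea, hea, h1⟩ := small_pow (a := v1) (c := a / 2) (v1_pos4 h) (by positivity)
  obtain ⟨eb, heb, h2⟩ := log_small (a := p) (c := a / 2 / (4 * κ * B)) h.p0 (by positivity)
  refine ⟨min ea eb, lt_min hea heb, fun ε h0 h3 h4 X d hX hd0 hd => ?_⟩
  have h5 := h1 ε h0.le (h3.trans (min_le_left _ _))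
  have h6 := h2 ε h0 (h3.trans (min_le_right _ _))
  have h7 : d ≤ 4 * (B * Real.log (1 / ε)) := by
    have := h.w3 ε h0 h4
    linarith
  have h8 : |κ * X * d| = κ * (|X| * d) := by
    rw [abs_mul, abs_mul, abs_of_pos hκ, abs_of_nonneg hd0, mul_assoc]
  have h9 : |X| * d ≤ ε ^ p * (4 * (B * Real.log (1 / ε))) :=
    mul_le_mul hX h7 hd0 (Real.rpow_nonneg h0.le _)
  rw [h8]
  have h10 : κ * (|X| * d) ≤ κ * (ε ^ p * (4 * (B * Real.log (1 / ε)))) :=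
    mul_le_mul_of_nonneg_left h9 hκ.le
  have h11 : κ * (ε ^ p * (4 * (B * Real.log (1 / ε)))) =
      (ε ^ p * Real.log (1 / ε)) * (4 * κ * B) := by ring
  rw [le_div_iff₀ (by positivity)] at h6
  linarith

/-- thresholds exist -/
lemma thr_exists (h : Ind4 S x w κ B σ p p1 v1 es c1 N0) (hx : Tendsto x atTop (𝓝 0)) {a : ℝ}
    (ha : 0 < a) : ∃ e N, e ≤ a ∧ Thr S x κ B σ es c1 N0 e N := by
  obtain ⟨e4, he4, -, hhv⟩ := hv_small h.B0 h.c10
  have hσ := h.σ0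
  have hκ := h.κ0
  have hB := h.B0
  obtain ⟨e, he0, hes, hea, hee4, hel⟩ : ∃ e, 0 < e ∧ e ≤ es ∧ e ≤ a ∧ e ≤ e4 ∧
      e ≤ Real.exp (-(2 / σ)) := by
    refine ⟨min (min es a) (min e4 (Real.exp (-(2 / σ)))),
      lt_min (lt_min h.es0 ha) (lt_min he4 (Real.exp_pos _)), ?_, ?_, ?_, ?_⟩
    · exact (min_le_left _ _).trans (min_le_left _ _)
    · exact (min_le_left _ _).trans (min_le_right _ _)
    · exact (min_le_right _ _).trans (min_le_left _ _)
    · exact (min_le_right _ _).trans (min_le_right _ _)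
  have he1 : e ≤ 1 := hes.trans (h.es1.trans (by norm_num))
  obtain ⟨N1, hN1⟩ := h.ysm e he0
  have h1 : Tendsto (fun n => κ * |x n|) atTop (𝓝 0) := by
    have := hx.abs.const_mul κ
    simpa using this
  have h2 : Tendsto (fun n => κ * |x n| * (16 * B)) atTop (𝓝 0) := by
    have := h1.mul_const (16 * B)
    simpa using this
  obtain ⟨N2, hN2⟩ := eventually_atTop.1
    ((h1.eventually (gt_mem_nhds one_pos)).and (h2.eventually (gt_mem_nhds hσ)))
  refine ⟨e, max N0 (max N1 N2), hea, le_max_left _ _, he0, hes, he1, ?_, ?_, ?_, ?_⟩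
  · intro n ε y hn
    exact hN1 n ε y (le_trans ((le_max_left _ _).trans (le_max_right _ _)) hn)
  · intro n hn
    have := hN2 n (le_trans ((le_max_right _ _).trans (le_max_right _ _)) hn)
    exact ⟨this.1.le, this.2.le⟩
  · exact fun ε h0 h1 => hhv ε h0 (h1.trans hee4)
  · have h3 := Real.log_le_log he0 hel
    rw [Real.log_exp] at h3
    have h4 : 2 / σ ≤ Real.log (1 / e) := by
      rw [one_div, Real.log_inv]
      linarith
    have h5 := mul_le_mul_of_nonneg_left h4 hσ.le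
    rwa [mul_div_cancel₀ _ hσ.ne'] at h5

section chain
variable {e : ℝ} {N : ℕ} {n : ℕ → ℕ} {ε y : ℕ → ℝ}

/-- the ratio `ε / y^(2-3σ)` along a plain chain -/
lemma Pc.ratio (h : Ind4 S x w κ B σ p p1 v1 es c1 N0) (t : Thr S x κ B σ es c1 N0 e N)
    (c : Pc S x w κ σ v1 c1 e N n ε y)
    (hvar : ∀ ε, 0 < ε → ε ≤ e → ε ≤ es → ∀ X d : ℝ, |X| ≤ ε ^ p → 0 ≤ d →
      d ≤ 4 * w ε → |κ * X * d| + ε ^ v1 ≤ 1 / 10)
    (hst : ∀ j, |x (n j)| ≤ ε j ^ p) (hpw : ∀ z : ℝ, 0 ≤ z → z ≤ e → z ^ σ ≤ 4 / 5) :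
    ∃ J, ∀ j, J ≤ j → ε j ≤ y j ^ (2 - 3 * σ) := by
  have hes := t.hes
  have hy0 : ∀ i, 0 < y i := fun i => (c.iv i).hy
  have hye : ∀ i, y i ≤ e := fun i =>
    t.sm _ _ _ (c.iv i).hN (c.iv i).hS (c.iv i).ye ((c.iv i).he.trans hes)
  have hmx : ∀ i, ε (i + 1) = max (max (ε i / 2) (y i ^ (2 - 2 * σ))) (y (i + 1) ^ 2) := by
    intro i
    have h1 := (c.iv (i + 1)).ye
    rw [c.ee] at h1 ⊢
    exact (max_eq_left h1).symm
  have hratio : ∀ i, |Real.log (y (i + 1)) - Real.log (y i)| ≤ 1 / 10 := by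
    intro i
    have h1 := c.V i
    have hnn := c.nn i
    have h2 : (n (i + 1) : ℝ) - n i = w (ε i) := by
      rw [hnn]; push_cast; ring
    have hw0 : (0 : ℝ) ≤ w (ε i) := Nat.cast_nonneg _
    have h4 := hvar _ (c.iv i).ep (c.iv i).he ((c.iv i).he.trans hes) (x (n i))
      ((n (i + 1) : ℝ) - n i) (hst i) (by rw [h2]; exact hw0) (by rw [h2]; linarith)
    have h5 := abs_sub (Real.log (y (i + 1)) - Real.log (y i) +
      κ * x (n i) * ((n (i + 1) : ℝ) - n i)) (κ * x (n i) * ((n (i + 1) : ℝ) - n i))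
    rw [add_sub_cancel_right] at h5
    linarith
  set R : ℝ := ε 0 / y 0 ^ (2 - 3 * σ) with hR
  obtain ⟨J, hJ⟩ : ∃ J : ℕ, (5 / 8 : ℝ) ^ J * R ≤ 1 := by
    have h1 : Tendsto (fun J : ℕ => (5 / 8 : ℝ) ^ J * R) atTop (𝓝 (0 * R)) :=
      (tendsto_pow_atTop_nhds_zero_of_lt_one (by norm_num) (by norm_num)).mul_const _
    rw [zero_mul] at h1
    have h2 := h1.eventually (gt_mem_nhds one_pos)
    obtain ⟨J, hJ⟩ := h2.exists
    exact ⟨J, hJ.le⟩
  have hP0 : 0 < y 0 ^ (2 - 3 * σ) := Real.rpow_pos_of_pos (hy0 0) _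
  have hR0 : 0 ≤ R := div_nonneg (c.iv 0).ep.le hP0.le
  refine ⟨J, fun j hj => ?_⟩
  have h1 := ratio_iter (σ := σ) (R0 := R) (E := ε) (ys := y) h.σ0 h.σ1 hy0
    (fun i => (hye i).trans t.e1) (fun i => hpw _ (hy0 i).le (hye i)) hratio
    (by rw [hR, div_mul_cancel₀ _ hP0.ne']) hmx j
  have h2 : (5 / 8 : ℝ) ^ j * R ≤ 1 := by
    refine le_trans (mul_le_mul_of_nonneg_right ?_ hR0) hJ
    exact pow_le_pow_of_le_one (by norm_num) (by norm_num) hj
  rwa [max_eq_right h2, one_mul] at h1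

/-- the block of `T` -/
lemma Pc.block (h : Ind4 S x w κ B σ p p1 v1 es c1 N0) (hes : e ≤ es)
    (c : Pc S x w κ σ v1 c1 e N n ε y) {T : ℕ} (hT : n 1 ≤ T) :
    ∃ j, n (j + 1) ≤ T ∧ T < n (j + 2) := by
  classical
  have hex : ∃ k, T < n k := ⟨T + 1, by have := c.ge h hes (T + 1); omega⟩
  have h1 : T < n (Nat.find hex) := Nat.find_spec hex
  have hk : 2 ≤ Nat.find hex := by
    by_contra hlt
    have h2 : n (Nat.find hex) ≤ n 1 := c.mono h hes (by omega)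
    omega
  obtain ⟨j, hj⟩ := Nat.exists_eq_add_of_le hk
  refine ⟨j, ?_, ?_⟩
  · by_contra hlt
    exact Nat.find_min hex (m := j + 1) (by omega) (by omega)
  · rw [show j + 2 = Nat.find hex by omega]
    exact h1

/-- the state at `T`, continued from the plain chain -/
structure At (S : ℕ → ℝ → ℝ → Prop) (x : ℕ → ℝ) (κ σ v1 c1 e : ℝ) (N : ℕ)
    (n : ℕ → ℕ) (ε y : ℕ → ℝ) (T j : ℕ) (Y : ℝ) : Prop where
  lo : n (j + 1) ≤ T
  hi : T < n (j + 2)
  iv : Iv S e c1 N T (nE σ (ε j) (y j)) Y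
  V : |Real.log Y - Real.log (y j) + κ * x (n j) * ((T : ℝ) - n j)| ≤ ε j ^ v1

lemma At.bd {T j : ℕ} {Y : ℝ} (a : At S x κ σ v1 c1 e N n ε y T j Y)
    (h : Ind4 S x w κ B σ p p1 v1 es c1 N0) (hes : e ≤ es) (c : Pc S x w κ σ v1 c1 e N n ε y) :
    n j + w (ε j) ≤ T ∧ T + 1 ≤ n j + 3 * w (ε j) := by
  have h1 := c.nn j
  have h2 := c.nn (j + 1)
  have h3 := c.w2 h hes j
  have h4 := a.lo
  have h5 := a.hi
  rw [show j + 1 + 1 = j + 2 by ring] at h2
  constructor <;> omega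

lemma at_exists (h : Ind4 S x w κ B σ p p1 v1 es c1 N0) (t : Thr S x κ B σ es c1 N0 e N)
    (c : Pc S x w κ σ v1 c1 e N n ε y) {T : ℕ} (hT : n 1 ≤ T) :
    ∃ j Y, At S x κ σ v1 c1 e N n ε y T j Y := by
  obtain ⟨j, h1, h2⟩ := c.block h t.hes hT
  have e1 := c.nn j
  have e2 := c.nn (j + 1)
  have e3 := c.w2 h t.hes j
  rw [show j + 1 + 1 = j + 2 by ring] at e2
  obtain ⟨Y, h3, h4⟩ := iv_step h t (c.iv j) (m := T) (by omega) (by omega)
  exact ⟨j, Y, h1, h2, h3, h4⟩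

/-- consecutive blocks -/
lemma At.succ {T j j' : ℕ} {Y Y' : ℝ} (a : At S x κ σ v1 c1 e N n ε y T j Y)
    (a' : At S x κ σ v1 c1 e N n ε y (T + 1) j' Y')
    (h : Ind4 S x w κ B σ p p1 v1 es c1 N0) (hes : e ≤ es) (c : Pc S x w κ σ v1 c1 e N n ε y) :
    j' = j ∨ j' = j + 1 := by
  have hm := c.mono h hes
  have h1 := a.lo
  have h2 := a.hi
  have h3 := a'.lo
  have h4 := a'.hi
  have h5 : j ≤ j' := by
    by_contra hlt
    have : n (j' + 2) ≤ n (j + 1) := hm (by omega)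
    omega
  have h6 : j' ≤ j + 1 := by
    by_contra hlt
    have h7 : n (j + 3) ≤ n (j' + 1) := hm (by omega)
    have h8 := c.lt h hes (j + 2)
    rw [show j + 2 + 1 = j + 3 by ring] at h8
    omega
  omega

/-- the one step relation -/
lemma At.V1 {T j j' : ℕ} {Y Y' : ℝ} (a : At S x κ σ v1 c1 e N n ε y T j Y)
    (a' : At S x κ σ v1 c1 e N n ε y (T + 1) j' Y')
    (h : Ind4 S x w κ B σ p p1 v1 es c1 N0) (hes : e ≤ es) (hN : N0 ≤ N)
    (c : Pc S x w κ σ v1 c1 e N n ε y) {D : ℝ} (h0 : ε j ≤ D) (h1 : ε (j + 1) ≤ D) :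
    |Real.log Y' - Real.log Y + κ * x T| ≤
      3 * D ^ v1 + κ * (1 + 8 * w (ε j)) * D ^ p1 := by
  have hκ := h.κ0
  have hp1 := p1_pos4 h
  have hv1 := v1_pos4 h
  obtain ⟨b1, b2⟩ := a.bd h hes c
  have hE := (c.iv j).ep
  have hE' := (c.iv (j + 1)).ep
  have hees := (c.iv j).he.trans hes
  have hX := h.stepX (n j) T (ε j) (y j) (hN.trans (c.iv j).hN) (c.iv j).hS (c.iv j).ye hees
    (c.iv j).hv b1 (by omega)
  have hX' := h.stepX (n j) (n (j + 1)) (ε j) (y j) (hN.trans (c.iv j).hN) (c.iv j).hS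
    (c.iv j).ye hees (c.iv j).hv (by rw [c.nn]) (by rw [c.nn]; omega)
  have hP : ε j ^ p1 ≤ D ^ p1 := Real.rpow_le_rpow hE.le h0 hp1.le
  have hV0 : ε j ^ v1 ≤ D ^ v1 := Real.rpow_le_rpow hE.le h0 hv1.le
  have hV1 : ε (j + 1) ^ v1 ≤ D ^ v1 := Real.rpow_le_rpow hE'.le h1 hv1.le
  have hDp : 0 ≤ D ^ p1 := (Real.rpow_nonneg hE.le _).trans hP
  have hw0 : (0 : ℝ) ≤ w (ε j) := Nat.cast_nonneg _
  have hDv : 0 ≤ D ^ v1 := (Real.rpow_nonneg hE.le _).trans hV0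
  have hXD : |κ * (x T - x (n j))| ≤ κ * D ^ p1 := by
    rw [abs_mul, abs_of_pos hκ]
    exact mul_le_mul_of_nonneg_left (hX.trans hP) hκ.le
  rcases a.succ a' h hes c with rfl | rfl
  · have e1 := a.V
    have e2 := a'.V
    have e3 : Real.log Y' - Real.log Y + κ * x T =
        (Real.log Y' - Real.log (y j') + κ * x (n j') * (((T + 1 : ℕ) : ℝ) - n j')) -
        (Real.log Y - Real.log (y j') + κ * x (n j') * ((T : ℝ) - n j')) +
        κ * (x T - x (n j')) := by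
      push_cast; ring
    rw [e3]
    refine (abs_add_le _ _).trans ?_
    refine (add_le_add (abs_sub _ _) hXD).trans ?_
    have h5 : 0 ≤ κ * (8 * w (ε j')) * D ^ p1 := by positivity
    nlinarith
  · have e1 := a.V
    have e2 := a'.V
    have e4 := c.V j
    have e3 : Real.log Y' - Real.log Y + κ * x T =
        (Real.log Y' - Real.log (y (j + 1)) +
          κ * x (n (j + 1)) * (((T + 1 : ℕ) : ℝ) - n (j + 1))) +
        (Real.log (y (j + 1)) - Real.log (y j) + κ * x (n j) * ((n (j + 1) : ℝ) - n j)) -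
        (Real.log Y - Real.log (y j) + κ * x (n j) * ((T : ℝ) - n j)) +
        κ * (x T - x (n j)) -
        κ * (x (n (j + 1)) - x (n j)) * ((T : ℝ) + 1 - n (j + 1)) := by
      push_cast; ring
    have hd0 : 0 ≤ (T : ℝ) + 1 - n (j + 1) := by
      have : (n (j + 1) : ℝ) ≤ T := by exact_mod_cast a.lo
      linarith
    have hd1 : (T : ℝ) + 1 - n (j + 1) ≤ 8 * w (ε j) := by
      have h3 : (T : ℝ) + 1 ≤ n j + 3 * w (ε j) := by exact_mod_cast b2
      have h4 : (n j : ℝ) ≤ n (j + 1) := by exact_mod_cast c.mono h hes (Nat.le_succ j)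
      linarith
    have e5 : |κ * (x (n (j + 1)) - x (n j)) * ((T : ℝ) + 1 - n (j + 1))| ≤
        κ * D ^ p1 * (8 * w (ε j)) := by
      rw [abs_mul, abs_mul, abs_of_pos hκ, abs_of_nonneg hd0]
      exact mul_le_mul (mul_le_mul_of_nonneg_left (hX'.trans hP) hκ.le) hd1 hd0 (by positivity)
    rw [e3]
    have f1 := abs_sub ((Real.log Y' - Real.log (y (j + 1)) +
          κ * x (n (j + 1)) * (((T + 1 : ℕ) : ℝ) - n (j + 1))) +
        (Real.log (y (j + 1)) - Real.log (y j) + κ * x (n j) * ((n (j + 1) : ℝ) - n j)) -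
        (Real.log Y - Real.log (y j) + κ * x (n j) * ((T : ℝ) - n j)) +
        κ * (x T - x (n j))) (κ * (x (n (j + 1)) - x (n j)) * ((T : ℝ) + 1 - n (j + 1)))
    have f2 := abs_add_le ((Real.log Y' - Real.log (y (j + 1)) +
          κ * x (n (j + 1)) * (((T + 1 : ℕ) : ℝ) - n (j + 1))) +
        (Real.log (y (j + 1)) - Real.log (y j) + κ * x (n j) * ((n (j + 1) : ℝ) - n j)) -
        (Real.log Y - Real.log (y j) + κ * x (n j) * ((T : ℝ) - n j))) (κ * (x T - x (n j)))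
    have f3 := abs_sub ((Real.log Y' - Real.log (y (j + 1)) +
          κ * x (n (j + 1)) * (((T + 1 : ℕ) : ℝ) - n (j + 1))) +
        (Real.log (y (j + 1)) - Real.log (y j) + κ * x (n j) * ((n (j + 1) : ℝ) - n j)))
        (Real.log Y - Real.log (y j) + κ * x (n j) * ((T : ℝ) - n j))
    have f4 := abs_add_le (Real.log Y' - Real.log (y (j + 1)) +
          κ * x (n (j + 1)) * (((T + 1 : ℕ) : ℝ) - n (j + 1)))
        (Real.log (y (j + 1)) - Real.log (y j) + κ * x (n j) * ((n (j + 1) : ℝ) - n j))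
    nlinarith

end chain

/-- powers of a quantity bounded by `2 Y^(2-3σ)` -/
lemma pow_conv {σ D Y s : ℝ} (hD0 : 0 ≤ D) (hY : 0 < Y) (hD : D ≤ 2 * Y ^ (2 - 3 * σ))
    (hs0 : 0 < s) (hs1 : s ≤ 1) : D ^ s ≤ 2 * Y ^ ((2 - 3 * σ) * s) := by
  have h1 : D ^ s ≤ (2 * Y ^ (2 - 3 * σ)) ^ s := Real.rpow_le_rpow hD0 hD hs0.le
  rw [Real.mul_rpow (by norm_num) (by positivity), ← Real.rpow_mul hY.le] at h1
  have h2 : (2 : ℝ) ^ s ≤ 2 := by
    conv_rhs => rw [← Real.rpow_one 2]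
    exact Real.rpow_le_rpow_of_exponent_le (by norm_num) hs1
  exact h1.trans (mul_le_mul_of_nonneg_right h2 (by positivity))

/-- small factors are absorbed -/
lemma absorb {Y u v k : ℝ} (hY : 0 < Y) (h : Y ^ (u - v) ≤ k) : Y ^ u ≤ k * Y ^ v := by
  have h1 : Y ^ u = Y ^ (u - v) * Y ^ v := by
    rw [← Real.rpow_add hY]; congr 1; ring
  rw [h1]
  exact mul_le_mul_of_nonneg_right h (Real.rpow_nonneg hY.le _)

/-- a sequence of activities of states tends to zero -/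
lemma tend_of_ysm (h : Ind4 S x w κ B σ p p1 v1 es c1 N0) {Y E : ℕ → ℝ} (hY : ∀ T, 0 < Y T)
    (hev : ∀ᶠ T in atTop, S T (E T) (Y T) ∧ Y T ^ 2 ≤ E T ∧ E T ≤ es) :
    Tendsto Y atTop (𝓝 0) := by
  rw [Metric.tendsto_atTop]
  intro δ hδ
  obtain ⟨N1, hN1⟩ := h.ysm (δ / 2) (by positivity)
  obtain ⟨N2, hN2⟩ := eventually_atTop.1 hev
  refine ⟨max N1 N2, fun T hT => ?_⟩
  obtain ⟨a1, a2, a3⟩ := hN2 T ((le_max_right _ _).trans hT)
  have := hN1 T _ _ ((le_max_left _ _).trans hT) a1 a2 a3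
  rw [Real.dist_eq, sub_zero, abs_of_pos (hY T)]
  linarith

/-- smallness of powers of `Y`, with logarithms -/
lemma ev_small {Y : ℕ → ℝ} (hY : ∀ T, 0 < Y T) (hYt : Tendsto Y atTop (𝓝 0)) {b k : ℝ}
    (hb : 0 < b) (hk : 0 < k) :
    ∀ᶠ T in atTop, Y T ^ b ≤ k ∧ Y T ^ b * Real.log (1 / Y T) ≤ k := by
  obtain ⟨e1, he1, h1⟩ := small_pow hb hk
  obtain ⟨e2, he2, h2⟩ := log_small hb hk
  filter_upwards [hYt.eventually (gt_mem_nhds he1), hYt.eventually (gt_mem_nhds he2)] with T a1 a2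
  exact ⟨h1 _ (hY T).le a1.le, h2 _ (hY T) a2.le⟩

/-- the chain, its block function and the activities -/
lemma exists_at (h : Ind4 S x w κ B σ p p1 v1 es c1 N0) (st : Start4 S c1)
    (hx : Tendsto x atTop (𝓝 0)) :
    ∃ (e : ℝ) (N J : ℕ) (n : ℕ → ℕ) (ε y : ℕ → ℝ) (j : ℕ → ℕ) (Y : ℕ → ℝ),
      Thr S x κ B σ es c1 N0 e N ∧ Pc S x w κ σ v1 c1 e N n ε y ∧
      (∀ i, |x (n i)| ≤ ε i ^ p) ∧ (∀ i, J ≤ i → ε i ≤ y i ^ (2 - 3 * σ)) ∧
      (∀ X d : ℝ, ∀ i, |X| ≤ ε i ^ p → 0 ≤ d → d ≤ 4 * w (ε i) →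
        |κ * X * d| + ε i ^ v1 ≤ 1 / 10) ∧
      (∀ T, n 1 ≤ T → At S x κ σ v1 c1 e N n ε y T (j T) (Y T)) ∧ (∀ T, 0 < Y T) := by
  obtain ⟨e1, he1, hstar⟩ := Pc.star h
  obtain ⟨e2, he2, hvar⟩ := y_var4 h (a := 1 / 10) (by norm_num)
  obtain ⟨e3, he3, hpw⟩ := small_pow (a := σ) (c := 4 / 5) h.σ0 (by norm_num)
  obtain ⟨e, N, hea, t⟩ := thr_exists h hx (a := min e1 (min e2 e3)) (lt_min he1 (lt_min he2 he3))
  have he1' : e ≤ e1 := hea.trans (min_le_left _ _)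
  have he2' : e ≤ e2 := hea.trans ((min_le_right _ _).trans (min_le_left _ _))
  have he3' : e ≤ e3 := hea.trans ((min_le_right _ _).trans (min_le_right _ _))
  obtain ⟨n0, ε0, y0, s1, s2, s3, s4, s5⟩ := st e t.e0 N
  have hs : Iv S e c1 N n0 ε0 y0 := ⟨s1, s3, h.y0 _ _ _ (t.hN.trans s1) s3, s4, s2, s5⟩
  obtain ⟨n, ε, y, c⟩ := pc_exists h t hs
  have hst := hstar e N n ε y t c he1' hx
  obtain ⟨J, hJ⟩ := c.ratio h t (fun ε h0 h1 h2 => hvar ε h0 (h1.trans he2') h2) hst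
    (fun z h0 h1 => hpw z h0 (h1.trans he3'))
  have key : ∀ T, ∃ q : ℕ × ℝ, (n 1 ≤ T → At S x κ σ v1 c1 e N n ε y T q.1 q.2) ∧ 0 < q.2 := by
    intro T
    by_cases hT : n 1 ≤ T
    · obtain ⟨j, Y, hA⟩ := at_exists h t c hT
      exact ⟨(j, Y), fun _ => hA, hA.iv.hy⟩
    · exact ⟨(0, 1), fun h1 => absurd h1 hT, one_pos⟩
  choose F hF using key
  exact ⟨e, N, J, n, ε, y, fun T => (F T).1, fun T => (F T).2, t, c, hst, hJ,
    fun X d i h1 h2 h3 => hvar _ (c.iv i).ep ((c.iv i).he.trans he2') ((c.iv i).he.trans t.hes)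
      X d h1 h2 h3, fun T hT => (hF T).1 hT, fun T => (hF T).2⟩

/-- **CLOSE, pointwise form**, fourth contract -/
theorem close_pt4 (h : Ind4 S x w κ B σ p p1 v1 es c1 N0) (st : Start4 S c1)
    (hx : Tendsto x atTop (𝓝 0)) {r1 r2 : ℝ}
    (hr1 : r1 < (2 - 3 * σ) * p1) (hr2 : r2 < (2 - 3 * σ) * p1) (hr3 : r2 < (2 - 3 * σ) * v1) :
    ∃ (Y E : ℕ → ℝ) (M : ℕ), N0 ≤ M ∧ (∀ T, 0 < Y T) ∧ Tendsto Y atTop (𝓝 0) ∧ ∀ T, M ≤ T →
      S T (E T) (Y T) ∧ Y T ≤ 1 ∧ Y T ^ 2 ≤ E T ∧ E T ≤ es ∧ E T ≤ Y T ^ (2 - 4 * σ) ∧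
      Real.log (1 / Y T) ≤ E T ^ (-c1) ∧ |x T| ≤ Y T ^ ((2 - 4 * σ) * p) ∧
      |x (T + 1) - x T| ≤ Y T ^ r1 ∧
      |Real.log (Y (T + 1)) - Real.log (Y T) + κ * x T| ≤ Y T ^ r2 := by
  obtain ⟨e, N, J, n, ε, y, j, Y, t, c, hst, hJ, hvar, hA, hY⟩ := exists_at h st hx
  have hσ0 := h.σ0
  have hσ1 := h.σ1
  have hκ := h.κ0
  have hB := h.B0
  have hp0 := h.p0
  have hp1 := p1_pos4 h
  have hv1 := v1_pos4 h
  have hes := t.hes
  set E : ℕ → ℝ := fun T => nE σ (ε (j T)) (y (j T)) with hE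
  have hev : ∀ᶠ T in atTop, S T (E T) (Y T) ∧ Y T ^ 2 ≤ E T ∧ E T ≤ es := by
    filter_upwards [eventually_ge_atTop (n 1)] with T hT
    have a := (hA T hT).iv
    exact ⟨a.hS, a.ye, a.he.trans hes⟩
  have hYt := tend_of_ysm h hY hev
  have hpa : p < p1 := by
    have := h.pp
    nlinarith
  have e1 := ev_small hY hYt hσ0 (k := 1 / 4) (by norm_num)
  have e3 := ev_small hY hYt (b := σ * p) (k := 1 / 4) (by positivity) (by norm_num)
  have e4 := ev_small hY hYt (b := (2 - 3 * σ) * p1 - r1) (k := 1 / 4) (by linarith) (by norm_num)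
  have e5 := ev_small hY hYt (b := (2 - 3 * σ) * p1 - r2) (k := 1 / (8 * (κ * (1 + 16 * B))))
    (by linarith) (by positivity)
  have e6 := ev_small hY hYt (b := (2 - 3 * σ) * v1 - r2) (k := 1 / 12) (by linarith)
    (by norm_num)
  have e7 : ∀ᶠ T in atTop, Y T ≤ 1 := by
    filter_upwards [hYt.eventually (gt_mem_nhds one_pos)] with T hT using hT.le
  obtain ⟨N1, hN1⟩ := eventually_atTop.1 (e1.and (e3.and (e4.and (e5.and (e6.and e7)))))
  refine ⟨Y, E, max (max N0 N1) (max (n 1) (n (J + 1))), (le_max_left _ _).trans (le_max_left _ _),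
    hY, hYt, fun T hT => ?_⟩
  have hTN1 : N1 ≤ T := (le_max_right _ _).trans ((le_max_left _ _).trans hT)
  have hTn : n 1 ≤ T := (le_max_left _ _).trans ((le_max_right _ _).trans hT)
  have hTJ : n (J + 1) ≤ T := (le_max_right _ _).trans ((le_max_right _ _).trans hT)
  obtain ⟨⟨f1, -⟩, ⟨f3, -⟩, ⟨f4, -⟩, ⟨f5, f5'⟩, ⟨f6, -⟩, f7⟩ := hN1 T hTN1
  have a := hA T hTn
  have a' := hA (T + 1) (by omega)
  have hyT := hY T
  have hyj := (c.iv (j T)).hy
  have hεj := (c.iv (j T)).ep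
  have hyj1 : y (j T) ≤ 1 := (t.sm _ _ _ (c.iv _).hN (c.iv _).hS (c.iv _).ye
    ((c.iv _).he.trans hes)).trans t.e1
  have hεj1 : ε (j T) ≤ 1 := (c.iv _).he.trans t.e1
  obtain ⟨b1, b2⟩ := a.bd h hes c
  have hJj : J ≤ j T := by
    by_contra hlt
    have h1 := a.hi
    have h2 : n (j T + 2) ≤ n (J + 1) := c.mono h hes (by omega)
    omega
  have hD := hJ _ hJj
  -- the variation of the activity
  have hlog : |Real.log (Y T) - Real.log (y (j T))| ≤ 1 / 10 := by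
    have h1 := a.V
    have h2 : (n (j T) : ℝ) ≤ T := by exact_mod_cast (show n (j T) ≤ T by omega)
    have h3 : (T : ℝ) + 1 ≤ n (j T) + 3 * w (ε (j T)) := by exact_mod_cast b2
    have hw0 : (0 : ℝ) ≤ w (ε (j T)) := Nat.cast_nonneg _
    have h4 := hvar (x (n (j T))) ((T : ℝ) - n (j T)) (j T) (hst _) (by linarith) (by linarith)
    have h5 := abs_sub (Real.log (Y T) - Real.log (y (j T)) +
      κ * x (n (j T)) * ((T : ℝ) - n (j T))) (κ * x (n (j T)) * ((T : ℝ) - n (j T)))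
    rw [add_sub_cancel_right] at h5
    linarith
  set D : ℝ := y (j T) ^ (2 - 3 * σ) with hDdef
  have hD0 : 0 ≤ D := Real.rpow_nonneg hyj.le _
  have hDY : D ≤ 2 * Y T ^ (2 - 3 * σ) :=
    pow_cmp hyj hyT (by linarith) (by linarith) (by linarith)
  have hED : nE σ (ε (j T)) (y (j T)) ≤ D := by
    refine max_le (by linarith) ?_
    exact Real.rpow_le_rpow_of_exponent_ge hyj hyj1 (by linarith)
  have hεD : ε (j T + 1) ≤ D := by
    rw [c.ee]; exact hED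
  have hP := pow_conv hD0 hyT hDY hp1 h.p11
  have hV := pow_conv hD0 hyT hDY hv1 h.v11
  have hp := pow_conv hD0 hyT hDY hp0 (hpa.le.trans h.p11)
  have hX := h.stepX (n (j T)) T (ε (j T)) (y (j T)) (t.hN.trans (c.iv _).hN) (c.iv _).hS
    (c.iv _).ye ((c.iv _).he.trans hes) (c.iv _).hv b1 (by omega)
  have hX1 := h.stepX (n (j T)) (T + 1) (ε (j T)) (y (j T)) (t.hN.trans (c.iv _).hN) (c.iv _).hS
    (c.iv _).ye ((c.iv _).he.trans hes) (c.iv _).hv (by omega) (by omega)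
  have hεP : ε (j T) ^ p1 ≤ D ^ p1 := Real.rpow_le_rpow hεj.le hD hp1.le
  refine ⟨a.iv.hS, f7, a.iv.ye, a.iv.he.trans hes, ?_, a.iv.hv, ?_, ?_, ?_⟩
  · have h1 := absorb (u := 2 - 3 * σ) (v := 2 - 4 * σ) (k := 1 / 4) hyT
      (by rw [show 2 - 3 * σ - (2 - 4 * σ) = σ by ring]; exact f1)
    have h2 := Real.rpow_nonneg hyT.le (2 - 4 * σ)
    linarith
  · have h1 : |x T| ≤ ε (j T) ^ p + ε (j T) ^ p1 := by
      have h3 := abs_add_le (x T - x (n (j T))) (x (n (j T)))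
      rw [sub_add_cancel] at h3
      linarith [hst (j T)]
    have h2 : ε (j T) ^ p1 ≤ ε (j T) ^ p := Real.rpow_le_rpow_of_exponent_ge hεj hεj1 hpa.le
    have h3 : ε (j T) ^ p ≤ D ^ p := Real.rpow_le_rpow hεj.le hD hp0.le
    have h4 := absorb (u := (2 - 3 * σ) * p) (v := (2 - 4 * σ) * p) (k := 1 / 4) hyT
      (by rw [show (2 - 3 * σ) * p - (2 - 4 * σ) * p = σ * p by ring]; exact f3)
    linarith
  · have h1 : |x (T + 1) - x T| ≤ 2 * ε (j T) ^ p1 := by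
      have h3 := abs_sub (x (T + 1) - x (n (j T))) (x T - x (n (j T)))
      rw [sub_sub_sub_cancel_right] at h3
      linarith
    have h4 := absorb (u := (2 - 3 * σ) * p1) (v := r1) (k := 1 / 4) hyT f4
    linarith
  · have h1 := a.V1 a' h hes t.hN c hD hεD
    have h2 := absorb (u := (2 - 3 * σ) * v1) (v := r2) (k := 1 / 12) hyT f6
    have hyr : 0 ≤ Y T ^ r2 := Real.rpow_nonneg hyT.le _
    -- the number of scales of the block
    have hw : 1 + 8 * (w (ε (j T)) : ℝ) ≤ (1 + 16 * B) * (1 + Real.log (1 / Y T)) := by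
      have h3 := h.w3 _ hεj ((c.iv (j T)).he.trans hes)
      have h4 : Real.log (1 / ε (j T)) ≤ 2 * Real.log (1 / y (j T)) := by
        have h9 : Real.log (1 / ε (j T)) ≤ Real.log (1 / y (j T) ^ 2) := by
          apply Real.log_le_log (by positivity)
          exact one_div_le_one_div_of_le (by positivity) (c.iv (j T)).ye
        have h10 : Real.log (1 / y (j T) ^ 2) = 2 * Real.log (1 / y (j T)) := by
          rw [one_div, one_div, ← inv_pow, Real.log_pow]; norm_num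
        linarith
      have h5 : Real.log (1 / y (j T)) ≤ Real.log (1 / Y T) + 1 / 10 := by
        rw [one_div, one_div, Real.log_inv, Real.log_inv]
        linarith [(abs_le.1 hlog).2]
      have h6 : 0 ≤ Real.log (1 / Y T) := Real.log_nonneg (by rw [one_le_div hyT]; exact f7)
      have h7 : B * Real.log (1 / ε (j T)) ≤ B * (2 * (Real.log (1 / Y T) + 1 / 10)) :=
        mul_le_mul_of_nonneg_left (by linarith) hB.le
      nlinarith
    have h3 : κ * (1 + 8 * (w (ε (j T)) : ℝ)) * D ^ p1 ≤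
        κ * ((1 + 16 * B) * (1 + Real.log (1 / Y T))) * (2 * Y T ^ ((2 - 3 * σ) * p1)) := by
      have h6 : 0 ≤ Real.log (1 / Y T) := Real.log_nonneg (by rw [one_le_div hyT]; exact f7)
      exact mul_le_mul (mul_le_mul_of_nonneg_left hw hκ.le) hP (Real.rpow_nonneg hD0 _)
        (by positivity)
    have h4 : Y T ^ ((2 - 3 * σ) * p1) = Y T ^ ((2 - 3 * σ) * p1 - r2) * Y T ^ r2 := by
      rw [← Real.rpow_add hyT]; congr 1; ring
    have h5 : κ * ((1 + 16 * B) * (1 + Real.log (1 / Y T))) * (2 * Y T ^ ((2 - 3 * σ) * p1)) =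
        2 * (κ * (1 + 16 * B)) * (Y T ^ ((2 - 3 * σ) * p1 - r2) +
          Y T ^ ((2 - 3 * σ) * p1 - r2) * Real.log (1 / Y T)) * Y T ^ r2 := by
      rw [h4]; ring
    have hk : 0 < κ * (1 + 16 * B) := by positivity
    have h6 : 2 * (κ * (1 + 16 * B)) * (Y T ^ ((2 - 3 * σ) * p1 - r2) +
          Y T ^ ((2 - 3 * σ) * p1 - r2) * Real.log (1 / Y T)) ≤ 1 / 2 := by
      have h7 := mul_le_mul_of_nonneg_left (add_le_add f5 f5')
        (show 0 ≤ 2 * (κ * (1 + 16 * B)) by positivity)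
      have h8 : 2 * (κ * (1 + 16 * B)) *
          (1 / (8 * (κ * (1 + 16 * B))) + 1 / (8 * (κ * (1 + 16 * B)))) = 1 / 2 := by
        field_simp
        norm_num
      linarith
    have h7 := mul_le_mul_of_nonneg_right h6 hyr
    rw [← h5] at h7
    linarith

end Vale.Agent.P159.H801
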