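import Vale.Agent.P159.H801.Fin2
import Vale.Agent.P159.H730.Fin1
import Vale.Agent.P159.H37.Lq5

/-!
P159 (helper801): **the first question from two families**: the V half (`VHalf`, helper889 and
helper316) and the static half (`SHalf`, the pairs of helper145 and the weights of helper816).
-/

open Filter Topology Finset

namespace Vale.Agent.P159.H801

open Vale.Agent.P159.H972 (Par)
open Vale.Agent.P159.H37.Sf (PairFam WtFam sOut_fam)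

/-- the static half along the flow, numbers of the final instance -/
def SHalf (b1 b2 qx β : ℝ) (Q Am : ℕ) : Prop :=
  ∃ c : ℝ, 0 < c ∧ c ≤ 1 / 80 ∧ Ev b1 b2 (9 / 10) Q fun P c1 =>
    ∀ (q2 : ℝ) (a y ε xs : ℕ → ℝ) (c' r q A : ℝ) (N : ℕ),
      SFlow P bCrit (1 / 20) c c1 q2 qx a y ε xs c' r q A N →
      ∃ ck c3 c4 : ℝ, 0 < ck ∧ 2 * P.th ≤ ck ∧ ck ≤ P.thp ∧ 0 < c3 ∧ 32 * c3 ≤ ck ∧ 0 < c4 ∧
        PairFam P bCrit β Am ck c3 c4 a y ε ∧ WtFam P bCrit ck c3 y ε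

/-- **QUESTION 1 from the two halves** -/
theorem q1_of {b1 b2 K qx β : ℝ} {Q Am : ℕ} (hb1 : 0 < b1) (h1 : b1 ≤ bCrit) (h2 : bCrit ≤ b2)
    (hqx : 0 < qx) (hqx1 : qx ≤ 18 / 25) (hβ : 1 / 4 < β) (hβ1 : β ≤ 1) (hAm : 1 ≤ Am)
    (hV : VHalf b1 b2 K Q) (hS : SHalf b1 b2 qx β Q Am) : Q1 := by
  obtain ⟨c, hc, hc1, hS⟩ := hS
  exact H730.final1 hb1 h1 h2 hqx hqx1 hc hc1 (vfam_crit hb1 h1 h2 hqx hV) hβ hβ1 Am
    (sOut_fam hb1 h1 hAm (by norm_num) (by norm_num) hc.le (by linarith) hS)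

end Vale.Agent.P159.H801
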