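import Vale.Agent.P159.H773.Rst
import Vale.Agent.P159.H191.Ct14
import Vale.Agent.P159.H859.E4w

/-!
P159 (helper801): **QUESTION 1**: at the critical point the two-point function is asymptotic to a
constant times `r ^ (-1/4) * (log r) ^ (1/8)`.
-/

namespace Vale.Agent.P159.H801

/-- **QUESTION 1** -/
theorem question_one : Q1 := by
  have hb : 0 < bCrit := H170.bCrit_pos
  have hb1 : 0 < bCrit / 2 := by linarith
  have h1 : bCrit / 2 ≤ bCrit := by linarith
  have h2 : bCrit ≤ 2 * bCrit := by linarith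
  have hE := H859.Gn.e4w_ev (b2 := 2 * bCrit) (pf := 9 / 10) hb1 h1 le_rfl 4
  have hC := H191.Cf.cutW_ev (b2 := 2 * bCrit) (pf := 9 / 10) hb1 h1 (by norm_num)
    (Vale.Agent.P159.TM.Frame.thmA6 hb1) 4 hE
  exact H773.q1_of_cut (Q := 4) hb1 h1 h2 hC

end Vale.Agent.P159.H801
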