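import Vale.Agent.P159.H801.Wode3

/-!
P159 (helper801): from the contract `Ind` (module CLOSE) to the flow structures `Fl`, `Wn`, `T3`.
-/

open Filter Topology Finset

namespace Vale.Agent.P159.H801

open Vale.Agent.P159.H264 (TT kap)

variable {Good : ℕ → ℝ → Prop} {x y : ℕ → ℝ} {w : ℝ → ℕ} {κ B σ p p1 v1 es c r q A : ℝ} {N0 : ℕ}

/-- the window used along the flow -/
noncomputable def wf (y : ℕ → ℝ) (w : ℝ → ℕ) (σ : ℝ) (n : ℕ) : ℕ := w (y n ^ (2 - 4 * σ))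

/-- CLOSE gives the flow structure -/
theorem fl_of_ind (h : Ind Good x y w κ B σ p p1 v1 es N0)
    (start : ∀ ε : ℝ, 0 < ε → ∃ N, ∀ n, N ≤ n → Good n ε)
    (hx : Tendsto x atTop (𝓝 0)) (hy : Tendsto y atTop (𝓝 0)) (hy0 : ∀ n, 0 < y n)
    (hc : 0 < c) (hr : 0 < r) (hq : 0 < q) (hq1 : q ≤ 1) (hq2 : q ≤ (2 - 4 * σ) * p)
    (h1 : 1 + c < (2 - 3 * σ) * p1) (h2 : 1 + c < (2 - 3 * σ) * v1) (h3 : r < (2 - 3 * σ) * p1) :
    ∃ N, N0 ≤ N ∧ Fl x y κ c r q N ∧ Wn y (wf y w σ) (2 * B) N ∧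
      ∀ n, N ≤ n → Good n (y n ^ (2 - 4 * σ)) ∧ y n ^ 2 ≤ y n ^ (2 - 4 * σ) ∧
        y n ^ (2 - 4 * σ) ≤ es ∧ y n ≤ 1 := by
  obtain ⟨N1, hN1⟩ := close_pt h start hx hy one_pos h3 h1 h2
  have hσ0 := h.σ0
  have hσ1 := h.σ1
  refine ⟨max N0 N1, le_max_left _ _, ⟨h.κ0, hc, hr, hq, hq1, hy0, ?_, ?_, ?_, hy⟩,
    ⟨by have := h.B0; positivity, ?_, ?_⟩, ?_⟩
  · intro n hn
    obtain ⟨a1, a2, a3, a4, a5, a6, a7, a8⟩ := hN1 n ((le_max_right _ _).trans hn)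
    exact a6.trans (Real.rpow_le_rpow_of_exponent_ge a1 a2 hq2)
  · intro n hn
    exact (hN1 n ((le_max_right _ _).trans hn)).2.2.2.2.2.2.2
  · intro n hn
    exact (hN1 n ((le_max_right _ _).trans hn)).2.2.2.2.2.2.1 (n + 1) (Nat.le_succ _) le_rfl
  · intro n hn
    obtain ⟨a1, a2, a3, a4, -⟩ := hN1 n ((le_max_right _ _).trans hn)
    exact h.w1 _ (Real.rpow_pos_of_pos a1 _) a4
  · intro n hn
    obtain ⟨a1, a2, a3, a4, -⟩ := hN1 n ((le_max_right _ _).trans hn)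
    have h4 := h.w3 _ (Real.rpow_pos_of_pos a1 _) a4
    have h5 : Real.log (1 / y n ^ (2 - 4 * σ)) = (2 - 4 * σ) * Real.log (1 / y n) := by
      rw [one_div, one_div, ← Real.inv_rpow a1.le, Real.log_rpow (by positivity)]
    have h6 : 0 ≤ Real.log (1 / y n) := Real.log_nonneg (by rw [one_le_div a1]; exact a2)
    rw [h5] at h4
    refine h4.trans ?_
    have h7 : (2 - 4 * σ) * Real.log (1 / y n) ≤ 2 * Real.log (1 / y n) :=
      mul_le_mul_of_nonneg_right (by linarith) h6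
    have h8 := mul_le_mul_of_nonneg_left h7 h.B0.le
    linarith
  · intro n hn
    obtain ⟨a1, a2, a3, a4, a5, -⟩ := hN1 n ((le_max_right _ _).trans hn)
    refine ⟨a5, ?_, a4, a2⟩
    rw [← Real.rpow_natCast]
    exact Real.rpow_le_rpow_of_exponent_ge a1 a2 (by push_cast; linarith)

/-- the sharp relation (P) of a window, in terms of `Good` -/
def PSh (Good : ℕ → ℝ → Prop) (x y : ℕ → ℝ) (w : ℝ → ℕ) (σ A : ℝ) (N0 : ℕ) : Prop :=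
  ∀ η, 0 < η → ∃ e, 0 < e ∧ ∀ n, N0 ≤ n → y n ≤ e → Good n (y n ^ (2 - 4 * σ)) →
    |x n - x (n + w (y n ^ (2 - 4 * σ))) - A * (w (y n ^ (2 - 4 * σ)) * y n ^ 2)| ≤
      η * (w (y n ^ (2 - 4 * σ)) * y n ^ 2)

/-- CLOSE and P-sharp give T3 -/
theorem T3_of_ind (h : Ind Good x y w κ B σ p p1 v1 es N0)
    (start : ∀ ε : ℝ, 0 < ε → ∃ N, ∀ n, N ≤ n → Good n ε)
    (hx : Tendsto x atTop (𝓝 0)) (hy : Tendsto y atTop (𝓝 0)) (hy0 : ∀ n, 0 < y n)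
    (h1 : 1 < (2 - 3 * σ) * p1) (h2 : 1 < (2 - 3 * σ) * v1) (hA : 0 < A)
    (hP : PSh Good x y w σ A N0) :
    ∃ c r q N, T3 x y κ c r q (2 * B) A (wf y w σ) N := by
  have hσ0 := h.σ0
  have hσ1 := h.σ1
  have hp0 := h.p0
  obtain ⟨c, hc, hc1, hc2⟩ : ∃ c, 0 < c ∧ 1 + c < (2 - 3 * σ) * p1 ∧ 1 + c < (2 - 3 * σ) * v1 := by
    refine ⟨min ((2 - 3 * σ) * p1 - 1) ((2 - 3 * σ) * v1 - 1) / 2, ?_, ?_, ?_⟩
    · have : 0 < min ((2 - 3 * σ) * p1 - 1) ((2 - 3 * σ) * v1 - 1) :=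
        lt_min (by linarith) (by linarith)
      positivity
    · have := min_le_left ((2 - 3 * σ) * p1 - 1) ((2 - 3 * σ) * v1 - 1)
      linarith
    · have := min_le_right ((2 - 3 * σ) * p1 - 1) ((2 - 3 * σ) * v1 - 1)
      linarith
  have hq0 : 0 < min 1 ((2 - 4 * σ) * p) := lt_min one_pos (mul_pos (by linarith) hp0)
  obtain ⟨N, hN, hfl, hwn, hG⟩ := fl_of_ind h start hx hy hy0 (c := c) (r := 1 + c)
    (q := min 1 ((2 - 4 * σ) * p)) hc (by linarith) hq0 (min_le_left _ _) (min_le_right _ _)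
    hc1 hc2 hc1
  refine ⟨c, 1 + c, min 1 ((2 - 4 * σ) * p), N, hfl, hwn, by linarith, hA, fun η hη => ?_⟩
  obtain ⟨e, he, hPe⟩ := hP η hη
  filter_upwards [hy.eventually (gt_mem_nhds he), eventually_ge_atTop N] with n hn hn'
  exact hPe n (hN.trans hn') hn.le (hG n hn').1

/-- the weak lower relation (P) of a window with exponent `a`, in terms of `Good` -/
def PLo (Good : ℕ → ℝ → Prop) (x y : ℕ → ℝ) (w : ℝ → ℕ) (σ c0 a : ℝ) (N0 : ℕ) : Prop :=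
  ∃ e, 0 < e ∧ ∀ n, N0 ≤ n → y n ≤ e → Good n (y n ^ (2 - 4 * σ)) →
    c0 * (w (y n ^ (2 - 4 * σ)) * y n ^ a) ≤ x n - x (n + w (y n ^ (2 - 4 * σ)))

/-- the weak upper relation (P) of a window with exponent `a`, in terms of `Good` -/
def PUp (Good : ℕ → ℝ → Prop) (x y : ℕ → ℝ) (w : ℝ → ℕ) (σ c0 a : ℝ) (N0 : ℕ) : Prop :=
  ∃ e, 0 < e ∧ ∀ n, N0 ≤ n → y n ≤ e → Good n (y n ^ (2 - 4 * σ)) →
    x n - x (n + w (y n ^ (2 - 4 * σ))) ≤ c0 * (w (y n ^ (2 - 4 * σ)) * y n ^ a)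

end Vale.Agent.P159.H801
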