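import Vale.Agent.P159.H801.Close5

/-!
P159 (helper801), module CLOSE, fourth form of the contract, third part: the flow structures.
-/

open Filter Topology Finset

namespace Vale.Agent.P159.H801

variable {S : ℕ → ℝ → ℝ → Prop} {x : ℕ → ℝ} {w : ℝ → ℕ} {κ B σ p p1 v1 es c1 : ℝ} {N0 : ℕ}

/-- CLOSE (fourth contract) gives the flow structure -/
theorem fl_of_ind4 {c r q : ℝ} (h : Ind4 S x w κ B σ p p1 v1 es c1 N0) (st : Start4 S c1)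
    (hx : Tendsto x atTop (𝓝 0))
    (hc : 0 < c) (hr : 0 < r) (hq : 0 < q) (hq1 : q ≤ 1) (hq2 : q ≤ (2 - 4 * σ) * p)
    (h1 : 1 + c < (2 - 3 * σ) * p1) (h2 : 1 + c < (2 - 3 * σ) * v1) (h3 : r < (2 - 3 * σ) * p1) :
    ∃ (y ε : ℕ → ℝ) (N : ℕ), N0 ≤ N ∧ Fl x y κ c r q N ∧ Wn y (fun n => w (ε n)) (2 * B) N ∧
      ∀ n, N ≤ n → S n (ε n) (y n) ∧ y n ^ 2 ≤ ε n ∧ ε n ≤ es ∧ ε n ≤ y n ^ (2 - 4 * σ) ∧
        Real.log (1 / y n) ≤ ε n ^ (-c1) ∧ y n ≤ 1 := by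
  obtain ⟨y, ε, N, hN, hy0, hy, hA⟩ := close_pt4 h st hx h3 h1 h2
  have hσ0 := h.σ0
  have hσ1 := h.σ1
  have hεp : ∀ n, N ≤ n → 0 < ε n := fun n hn =>
    lt_of_lt_of_le (pow_pos (hy0 n) 2) (hA n hn).2.2.1
  refine ⟨y, ε, N, hN, ⟨h.κ0, hc, hr, hq, hq1, hy0, ?_, ?_, ?_, hy⟩,
    ⟨by have := h.B0; positivity, ?_, ?_⟩, ?_⟩
  · intro n hn
    obtain ⟨a1, a2, a3, a4, a5, a6, a7, a8, a9⟩ := hA n hn
    exact a7.trans (Real.rpow_le_rpow_of_exponent_ge (hy0 n) a2 hq2)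
  · intro n hn
    exact (hA n hn).2.2.2.2.2.2.2.2
  · intro n hn
    exact (hA n hn).2.2.2.2.2.2.2.1
  · intro n hn
    exact h.w1 _ (hεp n hn) (hA n hn).2.2.2.1
  · intro n hn
    obtain ⟨a1, a2, a3, a4, a5, a6, a7, a8, a9⟩ := hA n hn
    have h4 := h.w3 _ (hεp n hn) a4
    have h5 : Real.log (1 / ε n) ≤ 2 * Real.log (1 / y n) := by
      have h9 : Real.log (1 / ε n) ≤ Real.log (1 / y n ^ 2) := by
        have := hεp n hn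
        have := hy0 n
        apply Real.log_le_log (by positivity)
        exact one_div_le_one_div_of_le (by positivity) a3
      have h10 : Real.log (1 / y n ^ 2) = 2 * Real.log (1 / y n) := by
        rw [one_div, one_div, ← inv_pow, Real.log_pow]; norm_num
      linarith
    have h8 := mul_le_mul_of_nonneg_left h5 h.B0.le
    show (w (ε n) : ℝ) ≤ 2 * B * Real.log (1 / y n)
    linarith
  · intro n hn
    obtain ⟨a1, a2, a3, a4, a5, a6, a7, a8, a9⟩ := hA n hn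
    exact ⟨a1, a3, a4, a5, a6, a2⟩

/-- the sharp relation (P) of a window, in terms of the state -/
def PSh4 (S : ℕ → ℝ → ℝ → Prop) (x : ℕ → ℝ) (w : ℝ → ℕ) (σ es c1 A : ℝ) (N0 : ℕ) : Prop :=
  ∀ η, 0 < η → ∃ e, 0 < e ∧ ∀ n ε y, N0 ≤ n → S n ε y → y ^ 2 ≤ ε → ε ≤ es →
    ε ≤ y ^ (2 - 4 * σ) → Real.log (1 / y) ≤ ε ^ (-c1) → y ≤ e →
    |x n - x (n + w ε) - A * (w ε * y ^ 2)| ≤ η * (w ε * y ^ 2)

/-- the weak lower relation (P) of a window with exponent `a`, in terms of the state -/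
def PLo4 (S : ℕ → ℝ → ℝ → Prop) (x : ℕ → ℝ) (w : ℝ → ℕ) (σ es c1 c0 a : ℝ) (N0 : ℕ) : Prop :=
  ∃ e, 0 < e ∧ ∀ n ε y, N0 ≤ n → S n ε y → y ^ 2 ≤ ε → ε ≤ es →
    ε ≤ y ^ (2 - 4 * σ) → Real.log (1 / y) ≤ ε ^ (-c1) → y ≤ e →
    c0 * (w ε * y ^ a) ≤ x n - x (n + w ε)

/-- the weak upper relation (P) of a window with exponent `a`, in terms of the state -/
def PUp4 (S : ℕ → ℝ → ℝ → Prop) (x : ℕ → ℝ) (w : ℝ → ℕ) (σ es c1 c0 a : ℝ) (N0 : ℕ) : Prop :=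
  ∃ e, 0 < e ∧ ∀ n ε y, N0 ≤ n → S n ε y → y ^ 2 ≤ ε → ε ≤ es →
    ε ≤ y ^ (2 - 4 * σ) → Real.log (1 / y) ≤ ε ^ (-c1) → y ≤ e →
    x n - x (n + w ε) ≤ c0 * (w ε * y ^ a)

/-- CLOSE (fourth contract) and P-sharp give T3 -/
theorem T3_of_ind4 {A : ℝ} (h : Ind4 S x w κ B σ p p1 v1 es c1 N0) (st : Start4 S c1)
    (hx : Tendsto x atTop (𝓝 0))
    (h1 : 1 < (2 - 3 * σ) * p1) (h2 : 1 < (2 - 3 * σ) * v1) (hA : 0 < A)
    (hP : PSh4 S x w σ es c1 A N0) :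
    ∃ (y ε : ℕ → ℝ) (c r q : ℝ) (N : ℕ), N0 ≤ N ∧
      T3 x y κ c r q (2 * B) A (fun n => w (ε n)) N ∧
      ∀ n, N ≤ n → S n (ε n) (y n) ∧ y n ^ 2 ≤ ε n ∧ ε n ≤ es ∧ ε n ≤ y n ^ (2 - 4 * σ) ∧
        Real.log (1 / y n) ≤ ε n ^ (-c1) ∧ y n ≤ 1 := by
  have hσ0 := h.σ0
  have hσ1 := h.σ1
  have hp0 := h.p0
  obtain ⟨c, hc, hc1, hc2⟩ := exists_room h1 h2
  have hq0 : 0 < min 1 ((2 - 4 * σ) * p) := lt_min one_pos (mul_pos (by linarith) hp0)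
  obtain ⟨y, ε, N, hN, hfl, hwn, hG⟩ := fl_of_ind4 h st hx (c := c) (r := 1 + c)
    (q := min 1 ((2 - 4 * σ) * p)) hc (by linarith) hq0 (min_le_left _ _) (min_le_right _ _)
    hc1 hc2 hc1
  refine ⟨y, ε, c, 1 + c, min 1 ((2 - 4 * σ) * p), N, hN,
    ⟨hfl, hwn, by linarith, hA, fun η hη => ?_⟩, hG⟩
  obtain ⟨e, he, hPe⟩ := hP η hη
  filter_upwards [hfl.yt.eventually (gt_mem_nhds he), eventually_ge_atTop N] with n hn hn'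
  obtain ⟨a1, a2, a3, a4, a5, -⟩ := hG n hn'
  exact hPe n _ _ (hN.trans hn') a1 a2 a3 a4 a5 hn.le

/-- the step in the form with every admissible `ε'` -/
lemma stepS_of_all {n m : ℕ} {ε y : ℝ} (hσ0 : 0 < σ) (hσ1 : σ ≤ 1 / 4) (hy : 0 < y)
    (hye : y ^ 2 ≤ ε) (hε : ε ≤ 1)
    (h : ∀ ε', max (ε / 2) (ε ^ (-σ) * y ^ 2) ≤ ε' → ε' ≤ ε ^ (1 - σ) →
      ∃ y', S m ε' y' ∧ |Real.log y' - Real.log y + κ * x n * ((m : ℝ) - n)| ≤ ε ^ v1) :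
    ∃ y', S m (max (ε / 2) (y ^ (2 - 2 * σ))) y' ∧
      |Real.log y' - Real.log y + κ * x n * ((m : ℝ) - n)| ≤ ε ^ v1 := by
  have hε0 : 0 < ε := lt_of_lt_of_le (pow_pos hy 2) hye
  have h5 : (y ^ 2) ^ (-σ) * y ^ 2 = y ^ (2 - 2 * σ) := by
    rw [← Real.rpow_natCast, ← Real.rpow_mul hy.le, ← Real.rpow_add hy]
    congr 1
    push_cast
    ring
  have h6 : (y ^ 2) ^ (1 - σ) = y ^ (2 - 2 * σ) := by
    rw [← Real.rpow_natCast, ← Real.rpow_mul hy.le]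
    congr 1
    push_cast
    ring
  refine h _ (max_le (le_max_left _ _) (le_trans ?_ (le_max_right _ _))) (max_le ?_ ?_)
  · rw [← h5]
    exact mul_le_mul_of_nonneg_right
      (Real.rpow_le_rpow_of_nonpos (by positivity) hye (by linarith)) (by positivity)
  · have h7 : ε ^ (1 : ℝ) ≤ ε ^ (1 - σ) :=
      Real.rpow_le_rpow_of_exponent_ge hε0 hε (by linarith)
    rw [Real.rpow_one] at h7
    linarith
  · rw [← h6]
    exact Real.rpow_le_rpow (by positivity) hye (by linarith)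

end Vale.Agent.P159.H801
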