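import Vale.Agent.P159.H801.Flow4

/-!
P159 (helper801), fifth form of the contract: as `Ind4`, with the stronger invariant
`y^(2-σ) ≤ ε` available in every hypothesis.
-/

open Filter Topology Finset

namespace Vale.Agent.P159.H801

/-- data of the scalar induction, state `S n ε y` with `y^(2-σ) ≤ ε` -/
structure Ind5 (S : ℕ → ℝ → ℝ → Prop) (x : ℕ → ℝ) (w : ℝ → ℕ) (κ B σ p p1 v1 es c1 : ℝ)
    (N0 : ℕ) : Prop where
  κ0 : 0 < κ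
  B0 : 0 < B
  σ0 : 0 < σ
  σ1 : σ ≤ 1 / 4
  p0 : 0 < p
  pp : 2 * p < (1 - σ) * p1
  pv : p < (1 - σ) * v1
  p11 : p1 ≤ 1
  v11 : v1 ≤ 1
  es0 : 0 < es
  es1 : es ≤ 1 / 2
  c10 : 0 < c1
  w1 : ∀ ε, 0 < ε → ε ≤ es → 1 ≤ w ε
  w2 : ∀ ε ε', 0 < ε → ε / 2 ≤ ε' → ε' ≤ es → w ε' ≤ 2 * w ε
  w3 : ∀ ε, 0 < ε → ε ≤ es → (w ε : ℝ) ≤ B * Real.log (1 / ε)
  y0 : ∀ n ε y, N0 ≤ n → S n ε y → 0 < y
  ysm : ∀ δ, 0 < δ → ∃ N, ∀ n ε y, N ≤ n → S n ε y → y ^ (2 - σ) ≤ ε → ε ≤ es → y ≤ δ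
  low : ∀ n ε y, N0 ≤ n → S n ε y → y ^ (2 - σ) ≤ ε → ε ≤ es →
    Real.log (1 / y) ≤ ε ^ (-c1) → -(ε ^ p) ≤ x n
  stepX : ∀ n m ε y, N0 ≤ n → S n ε y → y ^ (2 - σ) ≤ ε → ε ≤ es →
    Real.log (1 / y) ≤ ε ^ (-c1) → n + w ε ≤ m → m ≤ n + 4 * w ε → |x m - x n| ≤ ε ^ p1
  stepS : ∀ n m ε y, N0 ≤ n → S n ε y → y ^ (2 - σ) ≤ ε → ε ≤ es →
    Real.log (1 / y) ≤ ε ^ (-c1) → n + w ε ≤ m → m ≤ n + 4 * w ε →
    ∃ y', S m (max (ε / 2) (y ^ (2 - 2 * σ))) y' ∧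
      |Real.log y' - Real.log y + κ * x n * ((m : ℝ) - n)| ≤ ε ^ v1

/-- the starting points -/
def Start5 (S : ℕ → ℝ → ℝ → Prop) (σ c1 : ℝ) : Prop :=
  ∀ e : ℝ, 0 < e → ∀ N : ℕ, ∃ n ε y, N ≤ n ∧ ε ≤ e ∧ S n ε y ∧ y ^ (2 - σ) ≤ ε ∧
    Real.log (1 / y) ≤ ε ^ (-c1)

/-- the state with the invariant -/
def SI (S : ℕ → ℝ → ℝ → Prop) (σ : ℝ) (n : ℕ) (ε y : ℝ) : Prop := S n ε y ∧ y ^ (2 - σ) ≤ ε

variable {S : ℕ → ℝ → ℝ → Prop} {x : ℕ → ℝ} {w : ℝ → ℕ} {κ B σ p p1 v1 es c1 : ℝ} {N0 : ℕ}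

/-- numerical part of the persistence of `y^(2-σ) ≤ ε` -/
lemma ysg_next {κ B σ ε y y' X d δ : ℝ} (hκ : 0 ≤ κ) (hB : 0 < B) (hσ0 : 0 < σ) (hσ1 : σ ≤ 1 / 4)
    (hy : 0 < y) (hy' : 0 < y') (hye : y ^ (2 - σ) ≤ ε) (hy1 : y ≤ 1)
    (hX : κ * |X| * (8 * B) ≤ σ / 8) (hl : 8 ≤ σ * Real.log (1 / y))
    (hd0 : 0 ≤ d) (hd : d ≤ 4 * (B * Real.log (1 / ε))) (hδ : δ ≤ 1)
    (h : |Real.log y' - Real.log y + κ * X * d| ≤ δ) : y' ^ (2 - σ) ≤ y ^ (2 - 2 * σ) := by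
  have hpy : 0 < y ^ (2 - σ) := Real.rpow_pos_of_pos hy _
  have hε : 0 < ε := lt_of_lt_of_le hpy hye
  have hly0 : 0 ≤ Real.log (1 / y) := Real.log_nonneg (by rw [one_le_div hy]; exact hy1)
  have hly : Real.log (1 / ε) ≤ 2 * Real.log (1 / y) := by
    have h9 : Real.log (1 / ε) ≤ Real.log (1 / y ^ (2 - σ)) := by
      apply Real.log_le_log (by positivity)
      exact one_div_le_one_div_of_le hpy hye
    have h10 : Real.log (1 / y ^ (2 - σ)) = (2 - σ) * Real.log (1 / y) := by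
      rw [one_div, one_div, ← Real.inv_rpow hy.le, Real.log_rpow (by positivity)]
    have h11 := mul_nonneg hσ0.le hly0
    linarith
  have h1 := (abs_le.1 h).2
  have h2 : -(κ * X * d) ≤ κ * |X| * d := by
    have h3 := neg_abs_le X
    have h4 : -(κ * X * d) = (κ * d) * (-X) := by ring
    have h5 : κ * |X| * d = (κ * d) * |X| := by ring
    rw [h4, h5]
    exact mul_le_mul_of_nonneg_left (by linarith) (by positivity)
  have h3 : κ * |X| * d ≤ κ * |X| * (8 * B * Real.log (1 / y)) := by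
    apply mul_le_mul_of_nonneg_left _ (by positivity)
    have := mul_le_mul_of_nonneg_left hly hB.le
    linarith
  have h4 : κ * |X| * (8 * B * Real.log (1 / y)) ≤ σ / 8 * Real.log (1 / y) := by
    have := mul_le_mul_of_nonneg_right hX hly0
    linarith
  have h7 : Real.log (1 / y) = -Real.log y := by rw [one_div, Real.log_inv]
  have h6 : (2 - σ) * Real.log y' ≤ (2 - 2 * σ) * Real.log y := by
    rw [h7] at h3 h4 hl hly0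
    have h8 : Real.log y' ≤ (1 - σ / 4) * Real.log y := by linarith
    have h9 := mul_le_mul_of_nonneg_left h8 (show 0 ≤ 2 - σ by linarith)
    have h10 : (2 - σ) * ((1 - σ / 4) * Real.log y) ≤ (2 - 2 * σ) * Real.log y := by
      have h11 : (2 - σ) * ((1 - σ / 4) * Real.log y) - (2 - 2 * σ) * Real.log y =
          (σ / 2 + σ ^ 2 / 4) * Real.log y := by ring
      have h12 : 0 ≤ (σ / 2 + σ ^ 2 / 4) * (-Real.log y) := mul_nonneg (by positivity) hly0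
      linarith
    linarith
  rw [Real.rpow_def_of_pos hy, Real.rpow_def_of_pos hy']
  exact Real.exp_le_exp.2 (by linarith)

lemma sq_le_of_sg {σ ε y : ℝ} (hσ0 : 0 < σ) (hσ1 : σ ≤ 1 / 4) (hy : 0 < y)
    (h : y ^ (2 - σ) ≤ ε) (hε : ε ≤ 1) : y ≤ 1 ∧ y ^ 2 ≤ ε := by
  have h1 : y ≤ 1 := by
    by_contra hlt
    rw [not_le] at hlt
    have := Real.one_lt_rpow hlt (show 0 < 2 - σ by linarith)
    linarith
  refine ⟨h1, le_trans ?_ h⟩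
  rw [← Real.rpow_natCast]
  exact Real.rpow_le_rpow_of_exponent_ge hy h1 (by push_cast; linarith)

/-- the fifth contract gives the fourth one -/
theorem Ind5.toInd4 (h : Ind5 S x w κ B σ p p1 v1 es c1 N0) (hx : Tendsto x atTop (𝓝 0)) :
    ∃ N1, N0 ≤ N1 ∧ Ind4 (SI S σ) x w κ B σ p p1 v1 es c1 N1 := by
  have hκ := h.κ0
  have hB := h.B0
  have hσ0 := h.σ0
  have hσ1 := h.σ1
  have hv1 : 0 < v1 := by
    have h1 := h.pv
    have h2 := h.p0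
    by_contra hc
    have : (1 - σ) * v1 ≤ 0 := mul_nonpos_of_nonneg_of_nonpos (by linarith) (not_lt.1 hc)
    linarith
  have h1 : Tendsto (fun n => κ * |x n| * (8 * B)) atTop (𝓝 0) := by
    have := (hx.abs.const_mul κ).mul_const (8 * B)
    simpa using this
  obtain ⟨N2, hN2⟩ := eventually_atTop.1
    (h1.eventually (gt_mem_nhds (show 0 < σ / 8 by positivity)))
  obtain ⟨N3, hN3⟩ := h.ysm (Real.exp (-(8 / σ))) (Real.exp_pos _)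
  refine ⟨max N0 (max N2 N3), le_max_left _ _,
    { κ0 := h.κ0, B0 := h.B0, σ0 := h.σ0, σ1 := h.σ1, p0 := h.p0, pp := h.pp, pv := h.pv,
      p11 := h.p11, v11 := h.v11, es0 := h.es0, es1 := h.es1, c10 := h.c10,
      w1 := h.w1, w2 := h.w2, w3 := h.w3,
      y0 := fun n ε y hn hS => h.y0 n ε y ((le_max_left _ _).trans hn) hS.1
      ysm := ?_, low := ?_, stepX := ?_, stepS := ?_ }⟩
  · intro δ hδ
    obtain ⟨N, hN⟩ := h.ysm δ hδ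
    exact ⟨N, fun n ε y hn hS _ hes => hN n ε y hn hS.1 hS.2 hes⟩
  · intro n ε y hn hS _ hes hv
    exact h.low n ε y ((le_max_left _ _).trans hn) hS.1 hS.2 hes hv
  · intro n m ε y hn hS _ hes hv a1 a2
    exact h.stepX n m ε y ((le_max_left _ _).trans hn) hS.1 hS.2 hes hv a1 a2
  · intro n m ε y hn hS _ hes hv a1 a2
    have hn0 : N0 ≤ n := (le_max_left _ _).trans hn
    have hn2 : N2 ≤ n := ((le_max_left _ _).trans (le_max_right _ _)).trans hn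
    have hn3 : N3 ≤ n := ((le_max_right _ _).trans (le_max_right _ _)).trans hn
    obtain ⟨y', b1, b2⟩ := h.stepS n m ε y hn0 hS.1 hS.2 hes hv a1 a2
    have hy := h.y0 n ε y hn0 hS.1
    have hy' := h.y0 m _ y' (hn0.trans (by omega)) b1
    have hε : 0 < ε := lt_of_lt_of_le (Real.rpow_pos_of_pos hy _) hS.2
    have hε1 : ε ≤ 1 := hes.trans (h.es1.trans (by norm_num))
    have hyl := hN3 n ε y hn3 hS.1 hS.2 hes
    have hl : 8 ≤ σ * Real.log (1 / y) := by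
      have e1 := Real.log_le_log hy hyl
      rw [Real.log_exp] at e1
      have e2 : 8 / σ ≤ Real.log (1 / y) := by
        rw [one_div, Real.log_inv]; linarith
      have e3 := mul_le_mul_of_nonneg_left e2 hσ0.le
      rwa [mul_div_cancel₀ _ hσ0.ne'] at e3
    refine ⟨y', ⟨b1, ?_⟩, b2⟩
    have hd : (m : ℝ) ≤ n + 4 * w ε := by exact_mod_cast a2
    have hd0 : (n : ℝ) ≤ m := by exact_mod_cast (show n ≤ m by omega)
    have hw := h.w3 ε hε hes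
    exact (ysg_next hκ.le hB hσ0 hσ1 hy hy' hS.2 (sq_le_of_sg hσ0 hσ1 hy hS.2 hε1).1
      (hN2 n hn2).le hl (by linarith) (by linarith) (Real.rpow_le_one hε.le hε1 hv1.le)
      b2).trans (le_max_right _ _)

/-- the starting points -/
lemma Start5.toStart4 (st : Start5 S σ c1) (hσ0 : 0 < σ) (hσ1 : σ ≤ 1 / 4)
    (hy0 : ∀ n ε y, N0 ≤ n → S n ε y → 0 < y) : Start4 (SI S σ) c1 := by
  intro e he N
  obtain ⟨n, ε, y, a1, a2, a3, a4, a5⟩ := st (min e 1) (lt_min he one_pos) (max N N0)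
  have hy := hy0 n ε y ((le_max_right _ _).trans a1) a3
  exact ⟨n, ε, y, (le_max_left _ _).trans a1, a2.trans (min_le_left _ _), ⟨a3, a4⟩,
    (sq_le_of_sg hσ0 hσ1 hy a4 (a2.trans (min_le_right _ _))).2, a5⟩

/-- CLOSE (fifth contract) gives the flow structure -/
theorem fl_of_ind5 {c r q : ℝ} (h : Ind5 S x w κ B σ p p1 v1 es c1 N0) (st : Start5 S σ c1)
    (hx : Tendsto x atTop (𝓝 0))
    (hc : 0 < c) (hr : 0 < r) (hq : 0 < q) (hq1 : q ≤ 1) (hq2 : q ≤ (2 - 4 * σ) * p)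
    (h1 : 1 + c < (2 - 3 * σ) * p1) (h2 : 1 + c < (2 - 3 * σ) * v1) (h3 : r < (2 - 3 * σ) * p1) :
    ∃ (y ε : ℕ → ℝ) (N : ℕ), N0 ≤ N ∧ Fl x y κ c r q N ∧ Wn y (fun n => w (ε n)) (2 * B) N ∧
      ∀ n, N ≤ n → S n (ε n) (y n) ∧ y n ^ (2 - σ) ≤ ε n ∧ ε n ≤ es ∧
        ε n ≤ y n ^ (2 - 4 * σ) ∧ Real.log (1 / y n) ≤ ε n ^ (-c1) ∧ y n ≤ 1 := by
  obtain ⟨N1, hN1, h4⟩ := h.toInd4 hx
  obtain ⟨y, ε, N, hN, hfl, hwn, hA⟩ := fl_of_ind4 h4 (st.toStart4 h.σ0 h.σ1 h.y0) hx hc hr hq hq1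
    hq2 h1 h2 h3
  refine ⟨y, ε, N, hN1.trans hN, hfl, hwn, fun n hn => ?_⟩
  obtain ⟨a1, a2, a3, a4, a5, a6⟩ := hA n hn
  exact ⟨a1.1, a1.2, a3, a4, a5, a6⟩

/-- the sharp relation (P) of a window, in terms of the state -/
def PSh5 (S : ℕ → ℝ → ℝ → Prop) (x : ℕ → ℝ) (w : ℝ → ℕ) (σ es c1 A : ℝ) (N0 : ℕ) : Prop :=
  ∀ η, 0 < η → ∃ e, 0 < e ∧ ∀ n ε y, N0 ≤ n → S n ε y → y ^ (2 - σ) ≤ ε → ε ≤ es →
    ε ≤ y ^ (2 - 4 * σ) → Real.log (1 / y) ≤ ε ^ (-c1) → y ≤ e →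
    |x n - x (n + w ε) - A * (w ε * y ^ 2)| ≤ η * (w ε * y ^ 2)

/-- CLOSE (fifth contract) and P-sharp give T3 -/
theorem T3_of_ind5 {A : ℝ} (h : Ind5 S x w κ B σ p p1 v1 es c1 N0) (st : Start5 S σ c1)
    (hx : Tendsto x atTop (𝓝 0))
    (h1 : 1 < (2 - 3 * σ) * p1) (h2 : 1 < (2 - 3 * σ) * v1) (hA : 0 < A)
    (hP : PSh5 S x w σ es c1 A N0) :
    ∃ (y ε : ℕ → ℝ) (c r q : ℝ) (N : ℕ), N0 ≤ N ∧
      T3 x y κ c r q (2 * B) A (fun n => w (ε n)) N ∧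
      ∀ n, N ≤ n → S n (ε n) (y n) ∧ y n ^ (2 - σ) ≤ ε n ∧ ε n ≤ es ∧
        ε n ≤ y n ^ (2 - 4 * σ) ∧ Real.log (1 / y n) ≤ ε n ^ (-c1) ∧ y n ≤ 1 := by
  have hσ0 := h.σ0
  have hσ1 := h.σ1
  have hp0 := h.p0
  obtain ⟨c, hc, hc1, hc2⟩ := exists_room h1 h2
  have hq0 : 0 < min 1 ((2 - 4 * σ) * p) := lt_min one_pos (mul_pos (by linarith) hp0)
  obtain ⟨y, ε, N, hN, hfl, hwn, hG⟩ := fl_of_ind5 h st hx (c := c) (r := 1 + c)
    (q := min 1 ((2 - 4 * σ) * p)) hc (by linarith) hq0 (min_le_left _ _) (min_le_right _ _)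
    hc1 hc2 hc1
  refine ⟨y, ε, c, 1 + c, min 1 ((2 - 4 * σ) * p), N, hN,
    ⟨hfl, hwn, by linarith, hA, fun η hη => ?_⟩, hG⟩
  obtain ⟨e, he, hPe⟩ := hP η hη
  filter_upwards [hfl.yt.eventually (gt_mem_nhds he), eventually_ge_atTop N] with n hn hn'
  obtain ⟨a1, a2, a3, a4, a5, -⟩ := hG n hn'
  exact hPe n _ _ (hN.trans hn') a1 a2 a3 a4 a5 hn.le

end Vale.Agent.P159.H801
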