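import Vale.Agent.P159.H801.Sharp

/-!
P159 (helper801), sixth form of the contract: NO lower bound of `x` is assumed (helper972's remark:
it follows from the sharp relation (P) and `x → 0`).  This file: the plain chain, the upper bound
`x ≤ ε^p`, locking.
-/

open Filter Topology Finset

namespace Vale.Agent.P159.H801

/-- as `Ind5`, without `low` -/
structure Ind6 (S : ℕ → ℝ → ℝ → Prop) (x : ℕ → ℝ) (w : ℝ → ℕ) (κ B σ p p1 v1 es c1 : ℝ)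
    (N0 : ℕ) : Prop where
  κ0 : 0 < κ
  B0 : 0 < B
  σ0 : 0 < σ
  σ1 : σ ≤ 1 / 4
  p0 : 0 < p
  pp : 2 * p < (1 - σ) * p1
  pv : p < (1 - σ) * v1
  p11 : p1 ≤ 1
  v11 : v1 ≤ 1
  es0 : 0 < es
  es1 : es ≤ 1 / 2
  c10 : 0 < c1
  w1 : ∀ ε, 0 < ε → ε ≤ es → 1 ≤ w ε
  w2 : ∀ ε ε', 0 < ε → ε / 2 ≤ ε' → ε' ≤ es → w ε' ≤ 2 * w ε
  w3 : ∀ ε, 0 < ε → ε ≤ es → (w ε : ℝ) ≤ B * Real.log (1 / ε)
  y0 : ∀ n ε y, N0 ≤ n → S n ε y → 0 < y
  ysm : ∀ δ, 0 < δ → ∃ N, ∀ n ε y, N ≤ n → S n ε y → y ^ (2 - σ) ≤ ε → ε ≤ es → y ≤ δ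
  stepX : ∀ n m ε y, N0 ≤ n → S n ε y → y ^ (2 - σ) ≤ ε → ε ≤ es →
    Real.log (1 / y) ≤ ε ^ (-c1) → n + w ε ≤ m → m ≤ n + 4 * w ε → |x m - x n| ≤ ε ^ p1
  stepS : ∀ n m ε y, N0 ≤ n → S n ε y → y ^ (2 - σ) ≤ ε → ε ≤ es →
    Real.log (1 / y) ≤ ε ^ (-c1) → n + w ε ≤ m → m ≤ n + 4 * w ε →
    ∃ y', S m (max (ε / 2) (y ^ (2 - 2 * σ))) y' ∧
      |Real.log y' - Real.log y + κ * x n * ((m : ℝ) - n)| ≤ ε ^ v1

/-- the fifth contract contains the sixth one -/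
theorem Ind5.toInd6 {S : ℕ → ℝ → ℝ → Prop} {x : ℕ → ℝ} {w : ℝ → ℕ} {κ B σ p p1 v1 es c1 : ℝ}
    {N0 : ℕ} (h : Ind5 S x w κ B σ p p1 v1 es c1 N0) : Ind6 S x w κ B σ p p1 v1 es c1 N0 where
  κ0 := h.κ0
  B0 := h.B0
  σ0 := h.σ0
  σ1 := h.σ1
  p0 := h.p0
  pp := h.pp
  pv := h.pv
  p11 := h.p11
  v11 := h.v11
  es0 := h.es0
  es1 := h.es1
  c10 := h.c10
  w1 := h.w1
  w2 := h.w2
  w3 := h.w3
  y0 := h.y0
  ysm := h.ysm
  stepX := h.stepX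
  stepS := h.stepS

/-- the invariant -/
structure Iv6 (S : ℕ → ℝ → ℝ → Prop) (σ e c1 : ℝ) (N n : ℕ) (ε y : ℝ) : Prop where
  hN : N ≤ n
  hS : S n ε y
  hy : 0 < y
  sg : y ^ (2 - σ) ≤ ε
  he : ε ≤ e
  hv : Real.log (1 / y) ≤ ε ^ (-c1)

/-- thresholds -/
structure Thr6 (S : ℕ → ℝ → ℝ → Prop) (x : ℕ → ℝ) (κ B σ es c1 : ℝ) (N0 : ℕ) (e : ℝ) (N : ℕ) :
    Prop where
  hN : N0 ≤ N
  e0 : 0 < e
  hes : e ≤ es
  sm : ∀ n ε y, N ≤ n → S n ε y → y ^ (2 - σ) ≤ ε → ε ≤ es → y ≤ e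
  hx : ∀ n, N ≤ n → κ * |x n| ≤ 1 ∧ κ * |x n| * (8 * B) ≤ σ / 8
  hv : HVe B c1 e
  hl : 8 ≤ σ * Real.log (1 / e)

variable {S : ℕ → ℝ → ℝ → Prop} {x : ℕ → ℝ} {w : ℝ → ℕ} {κ B σ p p1 v1 es c1 : ℝ} {N0 : ℕ}

lemma Iv6.ep {e : ℝ} {N n : ℕ} {ε y : ℝ} (h : Iv6 S σ e c1 N n ε y) : 0 < ε :=
  lt_of_lt_of_le (Real.rpow_pos_of_pos h.hy _) h.sg

lemma p1_pos6 (h : Ind6 S x w κ B σ p p1 v1 es c1 N0) : 0 < p1 := by
  have h1 := h.pp
  have h2 := h.p0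
  have h3 := h.σ1
  by_contra hc
  have : (1 - σ) * p1 ≤ 0 := mul_nonpos_of_nonneg_of_nonpos (by linarith) (not_lt.1 hc)
  linarith

lemma v1_pos6 (h : Ind6 S x w κ B σ p p1 v1 es c1 N0) : 0 < v1 := by
  have h1 := h.pv
  have h2 := h.p0
  have h3 := h.σ1
  by_contra hc
  have : (1 - σ) * v1 ≤ 0 := mul_nonpos_of_nonneg_of_nonpos (by linarith) (not_lt.1 hc)
  linarith

/-- thresholds exist -/
lemma thr6_exists (h : Ind6 S x w κ B σ p p1 v1 es c1 N0) (hx : Tendsto x atTop (𝓝 0)) {a : ℝ}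
    (ha : 0 < a) (M : ℕ) : ∃ e N, e ≤ a ∧ M ≤ N ∧ Thr6 S x κ B σ es c1 N0 e N := by
  obtain ⟨e4, he4, -, hhv⟩ := hv_small h.B0 h.c10
  have hσ := h.σ0
  have hκ := h.κ0
  have hB := h.B0
  obtain ⟨e, he0, hes, hea, hee4, hel⟩ : ∃ e, 0 < e ∧ e ≤ es ∧ e ≤ a ∧ e ≤ e4 ∧
      e ≤ Real.exp (-(8 / σ)) := by
    refine ⟨min (min es a) (min e4 (Real.exp (-(8 / σ)))),
      lt_min (lt_min h.es0 ha) (lt_min he4 (Real.exp_pos _)), ?_, ?_, ?_, ?_⟩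
    · exact (min_le_left _ _).trans (min_le_left _ _)
    · exact (min_le_left _ _).trans (min_le_right _ _)
    · exact (min_le_right _ _).trans (min_le_left _ _)
    · exact (min_le_right _ _).trans (min_le_right _ _)
  obtain ⟨N1, hN1⟩ := h.ysm e he0
  have h1 : Tendsto (fun n => κ * |x n|) atTop (𝓝 0) := by
    have := hx.abs.const_mul κ
    simpa using this
  have h2 : Tendsto (fun n => κ * |x n| * (8 * B)) atTop (𝓝 0) := by
    have := h1.mul_const (8 * B)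
    simpa using this
  obtain ⟨N2, hN2⟩ := eventually_atTop.1
    ((h1.eventually (gt_mem_nhds one_pos)).and
      (h2.eventually (gt_mem_nhds (show 0 < σ / 8 by positivity))))
  refine ⟨e, max (max N0 M) (max N1 N2), hea, (le_max_right _ _).trans (le_max_left _ _),
    (le_max_left _ _).trans (le_max_left _ _), he0, hes, ?_, ?_, ?_, ?_⟩
  · intro n ε y hn
    exact hN1 n ε y (le_trans ((le_max_left _ _).trans (le_max_right _ _)) hn)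
  · intro n hn
    have := hN2 n (le_trans ((le_max_right _ _).trans (le_max_right _ _)) hn)
    exact ⟨this.1.le, this.2.le⟩
  · exact fun ε h0 h1 => hhv ε h0 (h1.trans hee4)
  · have h3 := Real.log_le_log he0 hel
    rw [Real.log_exp] at h3
    have h4 : 8 / σ ≤ Real.log (1 / e) := by
      rw [one_div, Real.log_inv]
      linarith
    have h5 := mul_le_mul_of_nonneg_left h4 hσ.le
    rwa [mul_div_cancel₀ _ hσ.ne'] at h5

/-- **one step of the invariant** -/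
lemma iv6_step (h : Ind6 S x w κ B σ p p1 v1 es c1 N0) {e : ℝ} {N : ℕ}
    (t : Thr6 S x κ B σ es c1 N0 e N) {n m : ℕ} {ε y : ℝ} (hs : Iv6 S σ e c1 N n ε y)
    (h1 : n + w ε ≤ m) (h2 : m ≤ n + 4 * w ε) :
    ∀ y', S m (nE σ ε y) y' → |Real.log y' - Real.log y + κ * x n * ((m : ℝ) - n)| ≤ ε ^ v1 →
      Iv6 S σ e c1 N m (nE σ ε y) y' := by
  intro y' hS hV
  have hε := hs.ep
  have hσ0 := h.σ0
  have hσ1 := h.σ1
  have he1 : e ≤ 1 := t.hes.trans (h.es1.trans (by norm_num))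
  have hεs : ε ≤ es := hs.he.trans t.hes
  have hε1 : ε ≤ 1 := hs.he.trans he1
  have hmN : N ≤ m := hs.hN.trans (by omega)
  have hy := hs.hy
  have hy' : 0 < y' := h.y0 m _ y' (t.hN.trans hmN) hS
  have hye : y ≤ e := t.sm n ε y hs.hN hs.hS hs.sg hεs
  have hnm : (n : ℝ) ≤ m := by exact_mod_cast (show n ≤ m by omega)
  have hd0 : 0 ≤ (m : ℝ) - n := by linarith
  have hd1 : (m : ℝ) - n ≤ 4 * w ε := by
    have : (m : ℝ) ≤ n + 4 * w ε := by exact_mod_cast h2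
    linarith
  have hw := h.w3 ε hε hεs
  have hv1 : ε ^ v1 ≤ 1 := Real.rpow_le_one hε.le hε1 (v1_pos6 h).le
  have hle : Real.log (1 / e) ≤ Real.log (1 / y) := by
    apply Real.log_le_log (by have := t.e0; positivity)
    exact one_div_le_one_div_of_le hy hye
  have hl : 8 ≤ σ * Real.log (1 / y) := t.hl.trans (mul_le_mul_of_nonneg_left hle hσ0.le)
  have hysg : y' ^ (2 - σ) ≤ y ^ (2 - 2 * σ) :=
    ysg_next h.κ0.le h.B0 hσ0 hσ1 hy hy' hs.sg (hye.trans he1) (t.hx n hs.hN).2 hl hd0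
      (by linarith) hv1 hV
  have hnee : nE σ ε y ≤ e := by
    refine max_le (by have := hs.he; linarith) ?_
    calc y ^ (2 - 2 * σ) ≤ y ^ (1 : ℝ) :=
          Real.rpow_le_rpow_of_exponent_ge hy (hye.trans he1) (by linarith)
      _ = y := Real.rpow_one _
      _ ≤ e := hye
  have hy'1 : y' ≤ 1 ∧ y' ^ 2 ≤ nE σ ε y :=
    sq_le_of_sg hσ0 hσ1 hy' (hysg.trans (le_max_right _ _)) (hnee.trans he1)
  have hmx : max (max (ε / 2) (y ^ (2 - 2 * σ))) (y' ^ 2) = nE σ ε y := max_eq_left hy'1.2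
  refine ⟨hmN, hS, hy', hysg.trans (le_max_right _ _), hnee, ?_⟩
  have h4 := (abs_le.1 hV).1
  have h5 : κ * x n * ((m : ℝ) - n) ≤ 1 * ((m : ℝ) - n) := by
    apply mul_le_mul_of_nonneg_right _ hd0
    have h6 := mul_le_mul_of_nonneg_left (le_abs_self (x n)) h.κ0.le
    linarith [(t.hx n hs.hN).1]
  have hye2 : y ^ 2 ≤ ε := (sq_le_of_sg hσ0 hσ1 hy hs.sg hε1).2
  have h6 := hv_step (e := e) (y1 := y') h.σ0 h.σ1 h.B0 t.hv he1 hε hs.he hy hy' hye2 (by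
    rw [one_div, one_div, Real.log_inv, Real.log_inv]
    linarith) hs.hv (by rw [hmx]; exact hnee)
  rwa [hmx] at h6

/-- a plain chain -/
structure Pc6 (S : ℕ → ℝ → ℝ → Prop) (x : ℕ → ℝ) (w : ℝ → ℕ) (κ σ v1 c1 e : ℝ) (N : ℕ)
    (n : ℕ → ℕ) (ε y : ℕ → ℝ) : Prop where
  iv : ∀ j, Iv6 S σ e c1 N (n j) (ε j) (y j)
  nn : ∀ j, n (j + 1) = n j + w (ε j)
  ee : ∀ j, ε (j + 1) = nE σ (ε j) (y j)
  V : ∀ j, |Real.log (y (j + 1)) - Real.log (y j) + κ * x (n j) * ((n (j + 1) : ℝ) - n j)| ≤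
    ε j ^ v1

lemma pc6_exists (h : Ind6 S x w κ B σ p p1 v1 es c1 N0) {e : ℝ} {N : ℕ}
    (t : Thr6 S x κ B σ es c1 N0 e N) {n0 : ℕ} {ε0 y0 : ℝ} (hs : Iv6 S σ e c1 N n0 ε0 y0) :
    ∃ n ε y, n 0 = n0 ∧ ε 0 = ε0 ∧ y 0 = y0 ∧ Pc6 S x w κ σ v1 c1 e N n ε y := by
  classical
  let St := {s : ℕ × ℝ × ℝ // Iv6 S σ e c1 N s.1 s.2.1 s.2.2}
  have key : ∀ s : St, ∃ s' : St, s'.1.1 = s.1.1 + w s.1.2.1 ∧
      s'.1.2.1 = nE σ s.1.2.1 s.1.2.2 ∧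
      |Real.log s'.1.2.2 - Real.log s.1.2.2 + κ * x s.1.1 * ((s'.1.1 : ℝ) - s.1.1)| ≤
        s.1.2.1 ^ v1 := by
    intro s
    obtain ⟨y', h1, h2⟩ := h.stepS s.1.1 (s.1.1 + w s.1.2.1) s.1.2.1 s.1.2.2
      (t.hN.trans s.2.hN) s.2.hS s.2.sg (s.2.he.trans t.hes) s.2.hv le_rfl (by omega)
    exact ⟨⟨(s.1.1 + w s.1.2.1, nE σ s.1.2.1 s.1.2.2, y'),
      iv6_step h t s.2 le_rfl (by omega) y' h1 h2⟩, rfl, rfl, h2⟩
  choose F hF using key
  let s0 : St := ⟨(n0, ε0, y0), hs⟩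
  have hit : ∀ j, (F^[j + 1]) s0 = F ((F^[j]) s0) := fun j => Function.iterate_succ_apply' F j s0
  refine ⟨fun j => ((F^[j]) s0).1.1, fun j => ((F^[j]) s0).1.2.1, fun j => ((F^[j]) s0).1.2.2,
    rfl, rfl, rfl,
    fun j => ((F^[j]) s0).2, fun j => ?_, fun j => ?_, fun j => ?_⟩
  · simp only [hit]; exact (hF _).1
  · simp only [hit]; exact (hF _).2.1
  · simp only [hit]; exact (hF _).2.2

section chain
variable {e : ℝ} {N : ℕ} {n : ℕ → ℕ} {ε y : ℕ → ℝ}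

lemma Pc6.lt (c : Pc6 S x w κ σ v1 c1 e N n ε y) (h : Ind6 S x w κ B σ p p1 v1 es c1 N0)
    (hes : e ≤ es) (j : ℕ) : n j + 1 ≤ n (j + 1) := by
  have := h.w1 _ (c.iv j).ep ((c.iv j).he.trans hes)
  rw [c.nn]
  omega

lemma Pc6.ge (c : Pc6 S x w κ σ v1 c1 e N n ε y) (h : Ind6 S x w κ B σ p p1 v1 es c1 N0)
    (hes : e ≤ es) (j : ℕ) : j ≤ n j := by
  induction j with
  | zero => exact Nat.zero_le _
  | succ j ih =>
    have := c.lt h hes j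
    omega

lemma Pc6.tend (c : Pc6 S x w κ σ v1 c1 e N n ε y) (h : Ind6 S x w κ B σ p p1 v1 es c1 N0)
    (hes : e ≤ es) : Tendsto n atTop atTop :=
  tendsto_atTop_mono (c.ge h hes) tendsto_id

/-- the upper half of (★) along a plain chain -/
lemma Pc6.up (h : Ind6 S x w κ B σ p p1 v1 es c1 N0) :
    ∃ e1 : ℝ, 0 < e1 ∧ ∀ (e : ℝ) (N : ℕ) (n : ℕ → ℕ) (ε y : ℕ → ℝ),
      Thr6 S x κ B σ es c1 N0 e N → Pc6 S x w κ σ v1 c1 e N n ε y → e ≤ e1 →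
      Tendsto x atTop (𝓝 0) → ∀ j, x (n j) ≤ ε j ^ p := by
  have hκ := h.κ0
  have hσ0 := h.σ0
  have hσ1 := h.σ1
  have h1σ : 0 < 1 - σ := by linarith
  have hp1 := p1_pos6 h
  have hv1 := v1_pos6 h
  have hc10 : 0 < κ * (1 - σ) * p1 / 16 := by positivity
  obtain ⟨ea, hea, ha⟩ := small_pow (a := (1 - σ) * p1 - 2 * p) (by linarith [h.pp]) hc10
  obtain ⟨eb, heb, hb⟩ := small_pow (a := (1 - σ) * v1 - p) (c := κ / 8) (by linarith [h.pv])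
    (by positivity)
  refine ⟨min ea eb, lt_min hea heb, fun e N n ε y t c hee hx j => ?_⟩
  have hj : ε j ≤ min ea eb := (c.iv j).he.trans hee
  have hes := t.hes
  have he1e : e ≤ 1 := hes.trans (h.es1.trans (by norm_num))
  have he0 : 0 < ε j := (c.iv j).ep
  have he1 : ε j ≤ 1 := (c.iv j).he.trans he1e
  by_contra hcon
  rw [not_le] at hcon
  have hep : 0 < ε j ^ p := Real.rpow_pos_of_pos he0 _
  have hX0 : 0 < x (n j) := lt_trans hep hcon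
  have hA : ε j ^ ((1 - σ) * p1) ≤ κ * (1 - σ) * p1 / 16 * x (n j) ^ 2 := by
    have h1 := ha (ε j) he0.le (hj.trans (min_le_left _ _))
    have h2 : ε j ^ ((1 - σ) * p1) = ε j ^ ((1 - σ) * p1 - 2 * p) * ε j ^ (2 * p) := by
      rw [← Real.rpow_add he0]; congr 1; ring
    have h3 : ε j ^ (2 * p) ≤ x (n j) ^ 2 := by
      have h1 : ε j ^ (2 * p) = (ε j ^ p) ^ 2 := by
        rw [mul_comm, Real.rpow_mul he0.le]; norm_num
      rw [h1]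
      exact pow_le_pow_left₀ hep.le hcon.le 2
    rw [h2]
    exact mul_le_mul h1 h3 (Real.rpow_nonneg he0.le _) hc10.le
  have hB : ε j ^ ((1 - σ) * v1) ≤ κ / 8 * x (n j) := by
    have h1 := hb (ε j) he0.le (hj.trans (min_le_right _ _))
    have h2 : ε j ^ ((1 - σ) * v1) = ε j ^ ((1 - σ) * v1 - p) * ε j ^ p := by
      rw [← Real.rpow_add he0]; congr 1; ring
    rw [h2]
    exact mul_le_mul h1 hcon.le hep.le (by positivity)
  have hy1 : ∀ i, y i ≤ 1 ∧ y i ^ 2 ≤ ε i := fun i =>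
    sq_le_of_sg hσ0 hσ1 (c.iv i).hy (c.iv i).sg ((c.iv i).he.trans he1e)
  have hmx : ∀ i, ε (i + 1) = max (max (ε i / 2) (y i ^ (2 - 2 * σ))) (y (i + 1) ^ 2) := by
    intro i
    have h1 := (hy1 (i + 1)).2
    rw [c.ee] at h1 ⊢
    exact (max_eq_left h1).symm
  have hκX : κ * x (n j) ≤ 1 := by
    have h1 := (t.hx _ (c.iv j).hN).1
    have h2 := mul_le_mul_of_nonneg_left (le_abs_self (x (n j))) hκ.le
    linarith
  have hcore : ∀ i, x (n j) / 2 ≤ x (n (j + i)) := by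
    refine star_core (κ := κ) (σ := σ) (p1 := p1) (v1 := v1) hκ h.σ0 hσ1 hp1 h.p11 hv1 h.v11 hX0
      hκX (fun i => x (n (j + i))) (fun i => y (j + i)) (fun i => ε (j + i))
      (fun i => (n (j + i + 1) : ℝ) - n (j + i)) he0 he1 rfl (fun i => (c.iv _).ep) ?_ ?_
      (fun i => (c.iv _).hy) (fun i => (hy1 _).1) (hy1 j).2 (fun i => hmx (j + i)) ?_
      ?_ (fun i => c.V (j + i))
    · simp only [add_zero]
      have h5 : x (n j) / 2 * (κ * x (n j) * (1 - σ) * p1 / 2 / 2) =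
        2 * (κ * (1 - σ) * p1 / 16 * x (n j) ^ 2) := by ring
      rw [h5]
      linarith
    · simp only [add_zero]
      linarith
    · intro i
      have h3 : ((n (j + i) + 1 : ℕ) : ℝ) ≤ (n (j + i + 1) : ℝ) := by
        exact_mod_cast c.lt h hes (j + i)
      push_cast at h3
      linarith
    · intro i
      have hw := c.nn (j + i)
      exact h.stepX (n (j + i)) (n (j + i + 1)) (ε (j + i)) (y (j + i))
        (t.hN.trans (c.iv _).hN) (c.iv _).hS (c.iv _).sg ((c.iv _).he.trans hes) (c.iv _).hv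
        (by omega) (by omega)
  have hlim : x (n j) / 2 ≤ 0 := by
    refine ge_of_tendsto (hx.comp (c.tend h hes)) ?_
    filter_upwards [eventually_ge_atTop j] with k hk
    obtain ⟨i, rfl⟩ := Nat.exists_eq_add_of_le hk
    exact hcore i
  linarith

end chain

/-- the upper half of (★) at every late small state -/
lemma up6 (h : Ind6 S x w κ B σ p p1 v1 es c1 N0) (hx : Tendsto x atTop (𝓝 0)) :
    ∃ e1 : ℝ, 0 < e1 ∧ ∀ (e : ℝ) (N : ℕ), Thr6 S x κ B σ es c1 N0 e N → e ≤ e1 →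
      ∀ n ε y, Iv6 S σ e c1 N n ε y → x n ≤ ε ^ p := by
  obtain ⟨e1, he1, hup⟩ := Pc6.up h
  refine ⟨e1, he1, fun e N t hee n ε y hs => ?_⟩
  obtain ⟨ns, εs, ys, h0, h1, h2, c⟩ := pc6_exists h t hs
  have := hup e N ns εs ys t c hee hx 0
  rwa [h0, h1] at this

/-- `y` varies little over a window as soon as `|x| ≤ ε^p` -/
lemma y_var6 (h : Ind6 S x w κ B σ p p1 v1 es c1 N0) {a : ℝ} (ha : 0 < a) :
    ∃ e : ℝ, 0 < e ∧ ∀ ε, 0 < ε → ε ≤ e → ε ≤ es → ∀ X d : ℝ, |X| ≤ ε ^ p → 0 ≤ d →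
      d ≤ 4 * w ε → |κ * X * d| + ε ^ v1 ≤ a := by
  have hκ := h.κ0
  have hB := h.B0
  obtain ⟨ea, hea, h1⟩ := small_pow (a := v1) (c := a / 2) (v1_pos6 h) (by positivity)
  obtain ⟨eb, heb, h2⟩ := log_small (a := p) (c := a / 2 / (4 * κ * B)) h.p0 (by positivity)
  refine ⟨min ea eb, lt_min hea heb, fun ε h0 h3 h4 X d hX hd0 hd => ?_⟩
  have h5 := h1 ε h0.le (h3.trans (min_le_left _ _))
  have h6 := h2 ε h0 (h3.trans (min_le_right _ _))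
  have h7 : d ≤ 4 * (B * Real.log (1 / ε)) := by
    have := h.w3 ε h0 h4
    linarith
  have h8 : |κ * X * d| = κ * (|X| * d) := by
    rw [abs_mul, abs_mul, abs_of_pos hκ, abs_of_nonneg hd0, mul_assoc]
  have h9 : |X| * d ≤ ε ^ p * (4 * (B * Real.log (1 / ε))) :=
    mul_le_mul hX h7 hd0 (Real.rpow_nonneg h0.le _)
  rw [h8]
  have h10 : κ * (|X| * d) ≤ κ * (ε ^ p * (4 * (B * Real.log (1 / ε)))) :=
    mul_le_mul_of_nonneg_left h9 hκ.le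
  have h11 : κ * (ε ^ p * (4 * (B * Real.log (1 / ε)))) =
      (ε ^ p * Real.log (1 / ε)) * (4 * κ * B) := by ring
  rw [le_div_iff₀ (by positivity)] at h6
  linarith

/-- one sided version of `ratio_step` -/
lemma ratio_step6 {σ E0 y0 y1 R : ℝ} (_hσ0 : 0 < σ) (hσ1 : σ ≤ 1 / 4) (hy0 : 0 < y0)
    (hy1 : 0 < y1) (hys : y0 ^ σ ≤ 4 / 5)
    (hv : Real.log y0 ≤ Real.log y1 + 1 / 10) (hR : E0 ≤ R * y0 ^ (2 - 3 * σ)) (hR0 : 0 ≤ R) :
    nE σ E0 y0 ≤ max (5 / 8 * R) 1 * y1 ^ (2 - 3 * σ) := by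
  have hP : 0 < y1 ^ (2 - 3 * σ) := Real.rpow_pos_of_pos hy1 _
  have h1 : y0 ^ (2 - 3 * σ) ≤ 5 / 4 * y1 ^ (2 - 3 * σ) := by
    have h3 : y0 ≤ y1 * Real.exp (1 / 10) := by
      have := Real.exp_le_exp.2 hv
      rwa [Real.exp_add, Real.exp_log hy0, Real.exp_log hy1] at this
    have h4 : y0 ^ (2 - 3 * σ) ≤ (y1 * Real.exp (1 / 10)) ^ (2 - 3 * σ) :=
      Real.rpow_le_rpow hy0.le h3 (by linarith)
    have h5 : Real.exp (1 / 10) ^ (2 - 3 * σ) ≤ 5 / 4 := by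
      rw [← Real.exp_mul]
      have h6 : Real.exp (1 / 10 * (2 - 3 * σ)) ≤ Real.exp (1 / 5) :=
        Real.exp_le_exp.2 (by linarith)
      have h7 : Real.exp (1 / 5) ≤ 5 / 4 := by
        have h8 := Real.add_one_le_exp (-(1 / 5 : ℝ))
        have h9 : Real.exp (1 / 5) * Real.exp (-(1 / 5)) = 1 := by
          rw [← Real.exp_add]; norm_num
        nlinarith [Real.exp_pos (1 / 5 : ℝ)]
      exact h6.trans h7
    rw [Real.mul_rpow hy1.le (Real.exp_pos _).le] at h4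
    have h6 := mul_le_mul_of_nonneg_left h5 hP.le
    linarith
  have hM1 : 5 / 8 * R ≤ max (5 / 8 * R) 1 := le_max_left _ _
  have hM2 : 1 ≤ max (5 / 8 * R) 1 := le_max_right _ _
  have hA := mul_le_mul_of_nonneg_right hM1 hP.le
  have hB := mul_le_mul_of_nonneg_right hM2 hP.le
  refine max_le ?_ ?_
  · have h2 := mul_le_mul_of_nonneg_left h1 hR0
    have h3 : 5 / 8 * R * y1 ^ (2 - 3 * σ) = R * (5 / 4 * y1 ^ (2 - 3 * σ)) / 2 := by ring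
    linarith
  · have h2 : y0 ^ (2 - 2 * σ) = y0 ^ σ * y0 ^ (2 - 3 * σ) := by
      rw [← Real.rpow_add hy0]; congr 1; ring
    have h3 : y0 ^ σ * y0 ^ (2 - 3 * σ) ≤ 4 / 5 * (5 / 4 * y1 ^ (2 - 3 * σ)) :=
      mul_le_mul hys h1 (Real.rpow_nonneg hy0.le _) (by norm_num)
    linarith

/-- iteration of `ratio_step6` -/
lemma ratio_iter6 {σ R0 : ℝ} {E ys : ℕ → ℝ} (hσ0 : 0 < σ) (hσ1 : σ ≤ 1 / 4)
    (hy : ∀ i, 0 < ys i) (hys : ∀ i, ys i ^ σ ≤ 4 / 5)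
    (hv : ∀ i, Real.log (ys i) ≤ Real.log (ys (i + 1)) + 1 / 10)
    (hE0 : E 0 ≤ R0 * ys 0 ^ (2 - 3 * σ))
    (hre : ∀ i, E (i + 1) = nE σ (E i) (ys i)) (i : ℕ) :
    E i ≤ max ((5 / 8) ^ i * R0) 1 * ys i ^ (2 - 3 * σ) := by
  induction i with
  | zero =>
    have h1 : R0 ≤ max ((5 / 8) ^ 0 * R0) 1 := by
      rw [pow_zero, one_mul]; exact le_max_left _ _
    exact hE0.trans (mul_le_mul_of_nonneg_right h1 (Real.rpow_nonneg (hy 0).le _))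
  | succ i ih =>
    have hM : 0 ≤ max ((5 / 8) ^ i * R0) 1 := le_trans zero_le_one (le_max_right _ _)
    have h1 := ratio_step6 hσ0 hσ1 (hy i) (hy (i + 1)) (hys i) (hv i) ih hM
    rw [hre i]
    refine h1.trans (mul_le_mul_of_nonneg_right ?_ (Real.rpow_nonneg (hy _).le _))
    refine max_le ?_ (le_max_right _ _)
    rcases le_total ((5 / 8) ^ i * R0) 1 with h2 | h2
    · rw [max_eq_right h2]
      exact le_trans (by norm_num) (le_max_right _ _)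
    · rw [max_eq_left h2, pow_succ]
      refine le_trans (le_of_eq ?_) (le_max_left _ _)
      ring

/-- one sided control of the activity -/
lemma y_one_sided (h : Ind6 S x w κ B σ p p1 v1 es c1 N0) {ε y y' X d : ℝ}
    (hvar : |κ * ε ^ p * d| + ε ^ v1 ≤ 1 / 10) (hX : X ≤ ε ^ p) (hd : 0 ≤ d)
    (hV : |Real.log y' - Real.log y + κ * X * d| ≤ ε ^ v1) :
    Real.log y ≤ Real.log y' + 1 / 10 := by
  have h1 := (abs_le.1 hV).1
  have h2 : κ * X * d ≤ κ * ε ^ p * d :=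
    mul_le_mul_of_nonneg_right (mul_le_mul_of_nonneg_left hX h.κ0.le) hd
  have h3 := le_abs_self (κ * ε ^ p * d)
  linarith

/-- **locked states stay locked** -/
lemma lock_step (h : Ind6 S x w κ B σ p p1 v1 es c1 N0) (hx : Tendsto x atTop (𝓝 0)) :
    ∃ e1 : ℝ, 0 < e1 ∧ ∀ (e : ℝ) (N : ℕ), Thr6 S x κ B σ es c1 N0 e N → e ≤ e1 →
      ∀ n m ε y y', Iv6 S σ e c1 N n ε y → ε ≤ y ^ (2 - 3 * σ) → n + w ε ≤ m →
      m ≤ n + 4 * w ε → 0 < y' →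
      |Real.log y' - Real.log y + κ * x n * ((m : ℝ) - n)| ≤ ε ^ v1 →
      nE σ ε y ≤ y' ^ (2 - 3 * σ) := by
  obtain ⟨e1, he1, hup⟩ := up6 h hx
  obtain ⟨e2, he2, hvar⟩ := y_var6 h (a := 1 / 10) (by norm_num)
  obtain ⟨e3, he3, hpw⟩ := small_pow (a := σ) (c := 4 / 5) h.σ0 (by norm_num)
  refine ⟨min e1 (min e2 e3), lt_min he1 (lt_min he2 he3),
    fun e N t hee n m ε y y' hs hL h1 h2 hy' hV => ?_⟩
  have hee1 : e ≤ e1 := hee.trans (min_le_left _ _)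
  have hee2 : e ≤ e2 := hee.trans ((min_le_right _ _).trans (min_le_left _ _))
  have hee3 : e ≤ e3 := hee.trans ((min_le_right _ _).trans (min_le_right _ _))
  have hε := hs.ep
  have hεs : ε ≤ es := hs.he.trans t.hes
  have hX := hup e N t hee1 n ε y hs
  have hd0 : 0 ≤ (m : ℝ) - n := by
    have : (n : ℝ) ≤ m := by exact_mod_cast (show n ≤ m by omega)
    linarith
  have hd1 : (m : ℝ) - n ≤ 4 * w ε := by
    have : (m : ℝ) ≤ n + 4 * w ε := by exact_mod_cast h2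
    linarith
  have hye : y ≤ e := t.sm n ε y hs.hN hs.hS hs.sg hεs
  have hv := hvar ε hε (hs.he.trans hee2) hεs (ε ^ p) ((m : ℝ) - n)
    (by rw [abs_of_nonneg (Real.rpow_nonneg hε.le _)]) hd0 hd1
  have h3 := ratio_step6 (E0 := ε) (R := 1) h.σ0 h.σ1 hs.hy hy' (hpw y hs.hy.le (hye.trans hee3))
    (y_one_sided h hv hX hd0 hV) (by rw [one_mul]; exact hL) zero_le_one
  have h4 : max (5 / 8 * (1 : ℝ)) 1 = 1 := by norm_num
  rwa [h4, one_mul] at h3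

/-- **every plain chain gets locked** -/
lemma lock_ev (h : Ind6 S x w κ B σ p p1 v1 es c1 N0) (hx : Tendsto x atTop (𝓝 0)) :
    ∃ e1 : ℝ, 0 < e1 ∧ ∀ (e : ℝ) (N : ℕ) (n : ℕ → ℕ) (ε y : ℕ → ℝ),
      Thr6 S x κ B σ es c1 N0 e N → Pc6 S x w κ σ v1 c1 e N n ε y → e ≤ e1 →
      ∃ J, ∀ j, J ≤ j → ε j ≤ y j ^ (2 - 3 * σ) := by
  obtain ⟨e1, he1, hup⟩ := up6 h hx
  obtain ⟨e2, he2, hvar⟩ := y_var6 h (a := 1 / 10) (by norm_num)
  obtain ⟨e3, he3, hpw⟩ := small_pow (a := σ) (c := 4 / 5) h.σ0 (by norm_num)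
  refine ⟨min e1 (min e2 e3), lt_min he1 (lt_min he2 he3), fun e N n ε y t c hee => ?_⟩
  have hee1 : e ≤ e1 := hee.trans (min_le_left _ _)
  have hee2 : e ≤ e2 := hee.trans ((min_le_right _ _).trans (min_le_left _ _))
  have hee3 : e ≤ e3 := hee.trans ((min_le_right _ _).trans (min_le_right _ _))
  have hes := t.hes
  have hy0 : ∀ i, 0 < y i := fun i => (c.iv i).hy
  have hye : ∀ i, y i ≤ e := fun i =>
    t.sm _ _ _ (c.iv i).hN (c.iv i).hS (c.iv i).sg ((c.iv i).he.trans hes)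
  have hone : ∀ i, Real.log (y i) ≤ Real.log (y (i + 1)) + 1 / 10 := by
    intro i
    have hnn := c.nn i
    have h2 : (n (i + 1) : ℝ) - n i = w (ε i) := by
      rw [hnn]; push_cast; ring
    have hw0 : (0 : ℝ) ≤ w (ε i) := Nat.cast_nonneg _
    have hv := hvar (ε i) (c.iv i).ep ((c.iv i).he.trans hee2) ((c.iv i).he.trans hes)
      (ε i ^ p) ((n (i + 1) : ℝ) - n i)
      (by rw [abs_of_nonneg (Real.rpow_nonneg (c.iv i).ep.le _)]) (by rw [h2]; exact hw0)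
      (by rw [h2]; linarith)
    exact y_one_sided h hv (hup e N t hee1 _ _ _ (c.iv i)) (by rw [h2]; exact hw0) (c.V i)
  set R : ℝ := ε 0 / y 0 ^ (2 - 3 * σ) with hR
  obtain ⟨J, hJ⟩ : ∃ J : ℕ, (5 / 8 : ℝ) ^ J * R ≤ 1 := by
    have h1 : Tendsto (fun J : ℕ => (5 / 8 : ℝ) ^ J * R) atTop (𝓝 (0 * R)) :=
      (tendsto_pow_atTop_nhds_zero_of_lt_one (by norm_num) (by norm_num)).mul_const _
    rw [zero_mul] at h1
    have h2 := h1.eventually (gt_mem_nhds one_pos)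
    obtain ⟨J, hJ⟩ := h2.exists
    exact ⟨J, hJ.le⟩
  have hP0 : 0 < y 0 ^ (2 - 3 * σ) := Real.rpow_pos_of_pos (hy0 0) _
  have hR0 : 0 ≤ R := div_nonneg (c.iv 0).ep.le hP0.le
  refine ⟨J, fun j hj => ?_⟩
  have h1 := ratio_iter6 (σ := σ) (R0 := R) (E := ε) (ys := y) h.σ0 h.σ1 hy0
    (fun i => hpw _ (hy0 i).le ((hye i).trans hee3)) hone
    (by rw [hR, div_mul_cancel₀ _ hP0.ne']) c.ee j
  have h2 : (5 / 8 : ℝ) ^ j * R ≤ 1 := by
    refine le_trans (mul_le_mul_of_nonneg_right ?_ hR0) hJ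
    exact pow_le_pow_of_le_one (by norm_num) (by norm_num) hj
  rwa [max_eq_right h2, one_mul] at h1

end Vale.Agent.P159.H801
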