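import Vale.Agent.P159.H801.Low1

/-!
P159 (helper801), sixth form of the contract, second part: the lower bound of `x` at locked states
from the sharp relation (P) (helper972's argument), the contract `Ind5` for locked states, T3.
-/

open Filter Topology Finset

namespace Vale.Agent.P159.H801

/-- smallness of `Y` in the sign argument -/
def SgS (κ B q v p Y : ℝ) : Prop :=
  Y ^ (v - q) ≤ κ ∧ κ * (2 * B) * (Y ^ q * Real.log (1 / Y)) ≤ 1 / 2 ∧
    Y ^ (q - 2 * p) ≤ 1 / (4 * 3 ^ q) ∧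
    Y ^ q * Real.log (1 / Y) ≤ 1 / (8 * κ * B) / (2 * 3 ^ q) ∧
    Y ^ (1 / 2 : ℝ) * Real.log (1 / Y) ≤ 1 / (8 * κ * B) / 2 ∧ Y ^ v ≤ 1 / 2

/-- thresholds of the sign argument -/
lemma sign_small {κ B q v p : ℝ} (hκ : 0 < κ) (hB : 0 < B) (hq : 1 < q) (hv : q < v)
    (hp : 2 * p < 1) :
    ∃ e : ℝ, 0 < e ∧ e ≤ 1 ∧ ∀ Y : ℝ, 0 < Y → Y ≤ e → SgS κ B q v p Y := by
  have h3 : (0 : ℝ) < 3 ^ q := by positivity
  obtain ⟨e1, he1, h1⟩ := small_pow (a := v - q) (by linarith) hκ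
  obtain ⟨e2, he2, h2⟩ := log_small (a := q) (c := 1 / 2 / (κ * (2 * B))) (by linarith)
    (by positivity)
  obtain ⟨e3, he3, h3⟩ := small_pow (a := q - 2 * p) (c := 1 / (4 * 3 ^ q)) (by linarith)
    (by positivity)
  obtain ⟨e4, he4, h4⟩ := log_small (a := q) (c := 1 / (8 * κ * B) / (2 * 3 ^ q)) (by linarith)
    (by positivity)
  obtain ⟨e5, he5, h5⟩ := log_small (a := 1 / 2) (c := 1 / (8 * κ * B) / 2) (by norm_num)
    (by positivity)
  obtain ⟨e6, he6, h6⟩ := small_pow (a := v) (c := 1 / 2) (by linarith) (by norm_num)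
  refine ⟨min (min (min e1 e2) (min e3 e4)) (min (min e5 e6) 1), by positivity,
    (min_le_right _ _).trans (min_le_right _ _), fun Y hY hYe => ?_⟩
  have k1 := h1 Y hY.le (hYe.trans ((min_le_left _ _).trans
    ((min_le_left _ _).trans (min_le_left _ _))))
  have k2 := h2 Y hY (hYe.trans ((min_le_left _ _).trans
    ((min_le_left _ _).trans (min_le_right _ _))))
  have k3 := h3 Y hY.le (hYe.trans ((min_le_left _ _).trans
    ((min_le_right _ _).trans (min_le_left _ _))))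
  have k4 := h4 Y hY (hYe.trans ((min_le_left _ _).trans
    ((min_le_right _ _).trans (min_le_right _ _))))
  have k5 := h5 Y hY (hYe.trans ((min_le_right _ _).trans
    ((min_le_left _ _).trans (min_le_left _ _))))
  have k6 := h6 Y hY.le (hYe.trans ((min_le_right _ _).trans
    ((min_le_left _ _).trans (min_le_right _ _))))
  refine ⟨k1, ?_, k3, k4, k5, k6⟩
  rw [le_div_iff₀ (by positivity)] at k2
  linarith

/-- `log (1/ε) ≤ 2 log (1/y)` -/
lemma sign_log {σ ε y : ℝ} (hσ0 : 0 < σ) (hy0 : 0 < y) (hy1 : y ≤ 1) (hlo : y ^ (2 - σ) ≤ ε) :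
    Real.log (1 / ε) ≤ 2 * Real.log (1 / y) := by
  have h1 : 0 < y ^ (2 - σ) := Real.rpow_pos_of_pos hy0 _
  have h2 : 0 < ε := h1.trans_le hlo
  have h9 : Real.log (1 / ε) ≤ Real.log (1 / y ^ (2 - σ)) := by
    apply Real.log_le_log (by positivity)
    exact one_div_le_one_div_of_le h1 hlo
  have h10 : Real.log (1 / y ^ (2 - σ)) = (2 - σ) * Real.log (1 / y) := by
    rw [one_div, one_div, ← Real.inv_rpow hy0.le, Real.log_rpow (by positivity)]
  have hl : 0 ≤ Real.log (1 / y) := Real.log_nonneg (by rw [one_le_div hy0]; exact hy1)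
  have h11 := mul_nonneg hσ0.le hl
  linarith

/-- monotonicity relative to the initial value -/
lemma sign_mono {κ B q v p a0 Y0 Y Y' X W V : ℝ} (hκ : 0 < κ) (_hB : 0 < B) (hq : 1 < q)
    (_hY0 : 0 < Y0) (hY : 0 < Y) (hY' : 0 < Y') (hs : SgS κ B q v p Y) (hbar : 2 * (3 * Y0) ^ q ≤ a0)
    (ha0 : 0 < a0) (i2 : Y0 ≤ Y) (hX : X ≤ -a0 + Y ^ q) (hW1 : 1 ≤ W)
    (hWB : W ≤ B * (2 * Real.log (1 / Y))) (hVe : V ≤ Y ^ v)
    (hV : |Real.log Y' - Real.log Y + κ * X * W| ≤ V) : Y0 ≤ Y' := by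
  obtain ⟨n1, n2, -, -, -, n6⟩ := hs
  have hyq : 0 < Y ^ q := Real.rpow_pos_of_pos hY _
  have hw0 : 0 < W := by linarith
  have h3 := (abs_le.1 hV).1
  rcases le_or_gt (Y ^ q) (a0 / 2) with hα | hβ
  · have h1 : X ≤ -(a0 / 2) := by linarith
    have h2 : V ≤ κ * (a0 / 2) := by
      have h3 : Y ^ v = Y ^ (v - q) * Y ^ q := by
        rw [← Real.rpow_add hY]; congr 1; ring
      rw [h3] at hVe
      exact hVe.trans (mul_le_mul n1 hα hyq.le hκ.le)
    have h3 : κ * X * W ≤ -(κ * (a0 / 2)) := by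
      have h4 : κ * X ≤ κ * (-(a0 / 2)) := mul_le_mul_of_nonneg_left h1 hκ.le
      have h5 : κ * X * W ≤ κ * (-(a0 / 2)) * W := mul_le_mul_of_nonneg_right h4 hw0.le
      have h6 : κ * (a0 / 2) * 1 ≤ κ * (a0 / 2) * W :=
        mul_le_mul_of_nonneg_left hW1 (by positivity)
      linarith
    have h5 : Real.log Y ≤ Real.log Y' := by linarith
    exact i2.trans ((Real.log_le_log_iff hY hY').1 h5)
  · have h1 : X ≤ Y ^ q := by linarith
    have h2 : κ * X * W ≤ 1 / 2 := by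
      have h4 : κ * X * W ≤ κ * Y ^ q * W :=
        mul_le_mul_of_nonneg_right (mul_le_mul_of_nonneg_left h1 hκ.le) hw0.le
      have h6 := mul_le_mul_of_nonneg_left hWB (show 0 ≤ κ * Y ^ q by positivity)
      have h7 : κ * Y ^ q * (B * (2 * Real.log (1 / Y))) =
          κ * (2 * B) * (Y ^ q * Real.log (1 / Y)) := by ring
      linarith
    have h4 : Real.log Y ≤ Real.log Y' + 1 := by linarith
    have h5 : Y ≤ 3 * Y' := by
      have h6 := Real.exp_le_exp.2 h4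
      rw [Real.exp_add, Real.exp_log hY, Real.exp_log hY'] at h6
      have h7 := mul_le_mul_of_nonneg_left (Real.exp_one_lt_three.le) hY'.le
      linarith
    have h6 : 3 * Y0 < Y := by
      by_contra hlt
      rw [not_lt] at hlt
      have h7 := Real.rpow_le_rpow hY.le hlt (show 0 ≤ q by linarith)
      linarith
    linarith

/-- the size of `X` at a jump -/
lemma sign_size {κ B p v1 ε Y Y' X W : ℝ} (hκ : 0 < κ) (hB : 0 < B) (hε : 0 < ε)
    (hl0 : 0 ≤ Real.log (1 / Y)) (hup : X ≤ ε ^ p) (hW1 : 1 ≤ W)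
    (hWB : W ≤ B * (2 * Real.log (1 / Y))) (hvar : |κ * ε ^ p * W| + ε ^ v1 ≤ 1 / 10)
    (hV : |Real.log Y' - Real.log Y + κ * X * W| ≤ ε ^ v1)
    (hI : 1 < |Real.log Y' - Real.log Y|) :
    X < 0 ∧ 0 < Real.log (1 / Y) ∧ 2 * (1 / (8 * κ * B)) ≤ -X * Real.log (1 / Y) := by
  have hw0 : 0 < W := by linarith
  have hv0 : 0 ≤ |κ * ε ^ p * W| := abs_nonneg _
  have h1 : 1 / 2 ≤ |κ * X * W| := by
    have h2 := abs_sub (Real.log Y' - Real.log Y + κ * X * W) (κ * X * W)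
    rw [add_sub_cancel_right] at h2
    linarith
  have hneg : X < 0 := by
    by_contra hpos
    rw [not_lt] at hpos
    have h2 : |κ * X * W| ≤ |κ * ε ^ p * W| := by
      rw [abs_of_nonneg (by positivity), abs_of_nonneg
        (by have := Real.rpow_nonneg hε.le p; positivity)]
      exact mul_le_mul_of_nonneg_right (mul_le_mul_of_nonneg_left hup hκ.le) hw0.le
    have h4 : 0 ≤ ε ^ v1 := Real.rpow_nonneg hε.le _
    linarith
  have hlj : 0 < Real.log (1 / Y) := by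
    rcases hl0.lt_or_eq with h2 | h2
    · exact h2
    · exfalso
      rw [← h2, mul_zero, mul_zero] at hWB
      linarith
  refine ⟨hneg, hlj, ?_⟩
  have h3 : |κ * X * W| = κ * (-X) * W := by
    rw [abs_mul, abs_mul, abs_of_pos hκ, abs_of_neg hneg, abs_of_pos hw0]
  rw [h3] at h1
  have h5 := mul_le_mul_of_nonneg_left hWB
    (show 0 ≤ κ * (-X) from mul_nonneg hκ.le (by linarith))
  have h6 : 2 * (1 / (8 * κ * B)) = 1 / 2 / (2 * κ * B) := by field_simp; norm_num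
  rw [h6, div_le_iff₀ (by positivity)]
  nlinarith

/-- the sharp letter after a jump -/
lemma sign_jump {κ B q v p p1 σ ε ε' Y Y' X X' s' : ℝ} (hκ : 0 < κ) (hB : 0 < B)
    (hσ0 : 0 < σ) (hσ1 : σ ≤ 1 / 4) (hq : 1 < q) (hp1 : 1 < (2 - 3 * σ) * p1) (hp10 : 0 < p1)
    (hY : 0 < Y) (hY' : 0 < Y') (hY1 : Y ≤ 1) (hY1' : Y' ≤ 1) (hs : SgS κ B q v p Y)
    (hε : 0 < ε) (hL : ε ≤ Y ^ (2 - 3 * σ)) (hlo' : Y' ^ (2 - σ) ≤ ε') (hre : ε' = nE σ ε Y)
    (hX : |X' - X| ≤ ε ^ p1) (hnear : |s' - X'| ≤ Y' ^ q) (hl : 0 < Real.log (1 / Y))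
    (h2 : 2 * (1 / (8 * κ * B)) ≤ -X * Real.log (1 / Y)) :
    1 / (8 * κ * B) ≤ -s' * Real.log (1 / Y) := by
  obtain ⟨-, -, -, -, n5, -⟩ := hs
  set K : ℝ := 1 / (8 * κ * B) with hK
  have hK0 : 0 < K := by positivity
  have h4 : ε ^ p1 ≤ Y ^ (1 / 2 : ℝ) := by
    have h5 : ε ^ p1 ≤ (Y ^ (2 - 3 * σ)) ^ p1 := Real.rpow_le_rpow hε.le hL hp10.le
    rw [← Real.rpow_mul hY.le] at h5
    exact h5.trans (Real.rpow_le_rpow_of_exponent_ge hY hY1 (by linarith))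
  have h5 : Y' ≤ Y ^ (1 / 2 : ℝ) := by
    have h6 : Y' ^ (2 : ℝ) ≤ Y ^ (2 - 3 * σ) := by
      have h7 : Y' ^ (2 : ℝ) ≤ Y' ^ (2 - σ) :=
        Real.rpow_le_rpow_of_exponent_ge hY' hY1' (by linarith)
      have h8 : ε' ≤ Y ^ (2 - 3 * σ) := by
        rw [hre]
        refine max_le ?_ ?_
        · linarith
        · exact Real.rpow_le_rpow_of_exponent_ge hY hY1 (by linarith)
      exact h7.trans (hlo'.trans h8)
    have h7 := Real.rpow_le_rpow (Real.rpow_nonneg hY'.le _) h6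
      (show (0 : ℝ) ≤ 1 / 2 by norm_num)
    rw [← Real.rpow_mul hY'.le, ← Real.rpow_mul hY.le] at h7
    norm_num at h7
    refine h7.trans (Real.rpow_le_rpow_of_exponent_ge hY hY1 ?_)
    linarith
  have h6 : Y' ^ q ≤ Y ^ (1 / 2 : ℝ) := by
    refine le_trans ?_ h5
    conv_rhs => rw [← Real.rpow_one Y']
    exact Real.rpow_le_rpow_of_exponent_ge hY' hY1' (by linarith)
  have h7 : s' ≤ X + 2 * Y ^ (1 / 2 : ℝ) := by
    have h8 := (abs_le.1 hnear).2
    have h9 := (abs_le.1 hX).2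
    linarith
  have h8 : 2 * Y ^ (1 / 2 : ℝ) * Real.log (1 / Y) ≤ K := by linarith
  have h10 := mul_le_mul_of_nonneg_right h7 hl.le
  linarith

/-- the barrier -/
lemma sign_bar {κ B q v p σ ε Y : ℝ} (hκ : 0 < κ) (hB : 0 < B) (hσ0 : 0 < σ)
    (hp0 : 0 < p) (hq : 1 < q) (hY : 0 < Y) (hY1 : Y ≤ 1) (hs : SgS κ B q v p Y)
    (hlo : Y ^ (2 - σ) ≤ ε) (hl : 0 < Real.log (1 / Y)) :
    Y ^ q ≤ ε ^ p / 2 ∧
      2 * (3 * Y) ^ q ≤ min (ε ^ p / 2) (1 / (8 * κ * B) / Real.log (1 / Y)) := by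
  obtain ⟨-, -, m3, m4, -, -⟩ := hs
  have hε : 0 < ε := (Real.rpow_pos_of_pos hY _).trans_le hlo
  have h3q : (0 : ℝ) < 3 ^ q := by positivity
  have hep0 : 0 < ε ^ p := Real.rpow_pos_of_pos hε _
  have hyep : Y ^ q ≤ 1 / (4 * 3 ^ q) * ε ^ p := by
    have h1 : Y ^ (2 * p) ≤ ε ^ p := by
      have h2 : (Y ^ (2 : ℝ)) ^ p ≤ ε ^ p := by
        refine Real.rpow_le_rpow (Real.rpow_nonneg hY.le _) ?_ hp0.le
        exact (Real.rpow_le_rpow_of_exponent_ge hY hY1 (by linarith)).trans hlo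
      rwa [← Real.rpow_mul hY.le] at h2
    have h2 : Y ^ q = Y ^ (q - 2 * p) * Y ^ (2 * p) := by
      rw [← Real.rpow_add hY]; congr 1; ring
    rw [h2]
    exact mul_le_mul m3 h1 (Real.rpow_nonneg hY.le _) (by positivity)
  have h3q1 : (1 : ℝ) ≤ 3 ^ q := Real.one_le_rpow (by norm_num) (by linarith)
  constructor
  · refine hyep.trans ?_
    rw [div_mul_eq_mul_div, one_mul]
    exact div_le_div_of_nonneg_left hep0.le (by norm_num) (by linarith)
  · rw [Real.mul_rpow (by norm_num) hY.le]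
    refine le_min ?_ ?_
    · have h1 := mul_le_mul_of_nonneg_left hyep (show 0 ≤ 2 * (3 : ℝ) ^ q by positivity)
      have h2 : 2 * (3 : ℝ) ^ q * (1 / (4 * 3 ^ q) * ε ^ p) = ε ^ p / 2 := by
        field_simp
        ring
      linarith
    · rw [le_div_iff₀ hl]
      have h1 := mul_le_mul_of_nonneg_left m4 (show 0 ≤ 2 * (3 : ℝ) ^ q by positivity)
      have h2 : 2 * (3 : ℝ) ^ q * (1 / (8 * κ * B) / (2 * 3 ^ q)) = 1 / (8 * κ * B) := by
        field_simp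
      linarith

/-- **the sign argument**, elementary form -/
lemma sign_core {κ B q v p p1 v1 σ e : ℝ} (hκ : 0 < κ) (hB : 0 < B) (hσ0 : 0 < σ)
    (hσ1 : σ ≤ 1 / 4) (hp0 : 0 < p) (hq : 1 < q) (hp1 : 1 < (2 - 3 * σ) * p1)
    (hv1 : v ≤ (2 - 3 * σ) * v1) (hv10 : 0 < v1) (hp10 : 0 < p1) (he1 : e ≤ 1)
    (hsm : ∀ Y : ℝ, 0 < Y → Y ≤ e → SgS κ B q v p Y)
    (xs ys ee ss ws : ℕ → ℝ) (hy0 : ∀ j, 0 < ys j) (hye : ∀ j, ys j ≤ e)
    (hlo : ∀ j, ys j ^ (2 - σ) ≤ ee j) (hL : ∀ j, ee j ≤ ys j ^ (2 - 3 * σ))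
    (hw1 : ∀ j, 1 ≤ ws j) (hwB : ∀ j, ws j ≤ B * Real.log (1 / ee j))
    (hup : ∀ j, xs j ≤ ee j ^ p) (hX : ∀ j, |xs (j + 1) - xs j| ≤ ee j ^ p1)
    (hV : ∀ j, |Real.log (ys (j + 1)) - Real.log (ys j) + κ * xs j * ws j| ≤ ee j ^ v1)
    (hnear : ∀ j, |ss j - xs j| ≤ ys j ^ q)
    (hP : ∀ j, |Real.log (ys (j + 1)) - Real.log (ys j)| ≤ 1 → ss (j + 1) ≤ ss j)
    (hvar : ∀ j, |κ * ee j ^ p * ws j| + ee j ^ v1 ≤ 1 / 10)
    (hre : ∀ j, ee (j + 1) = nE σ (ee j) (ys j))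
    (hlim : Tendsto ss atTop (𝓝 0)) : -(ee 0 ^ p) ≤ xs 0 := by
  by_contra hcon
  rw [not_le] at hcon
  have hee0 : ∀ j, 0 < ee j := fun j => (Real.rpow_pos_of_pos (hy0 j) _).trans_le (hlo j)
  have hy1 : ∀ j, ys j ≤ 1 := fun j => (hye j).trans he1
  have hl0 : ∀ j, 0 ≤ Real.log (1 / ys j) := fun j =>
    Real.log_nonneg (by rw [one_le_div (hy0 j)]; exact hy1 j)
  have hwB2 : ∀ j, ws j ≤ B * (2 * Real.log (1 / ys j)) := fun j =>
    (hwB j).trans (mul_le_mul_of_nonneg_left (sign_log hσ0 (hy0 j) (hy1 j) (hlo j)) hB.le)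
  -- error of V
  have hVe : ∀ j, ee j ^ v1 ≤ ys j ^ v := by
    intro j
    have h1 : ee j ^ v1 ≤ (ys j ^ (2 - 3 * σ)) ^ v1 :=
      Real.rpow_le_rpow (hee0 j).le (hL j) hv10.le
    rw [← Real.rpow_mul (hy0 j).le] at h1
    exact h1.trans (Real.rpow_le_rpow_of_exponent_ge (hy0 j) (hy1 j) hv1)
  -- log (1 / y 0) > 0
  have hl00 : 0 < Real.log (1 / ys 0) := by
    rcases (hl0 0).lt_or_eq with h1 | h1
    · exact h1
    · exfalso
      have h2 := hwB2 0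
      rw [← h1, mul_zero, mul_zero] at h2
      linarith [hw1 0]
  obtain ⟨hb1, hb2⟩ := sign_bar hκ hB hσ0 hp0 hq (hy0 0) (hy1 0) (hsm _ (hy0 0) (hye 0)) (hlo 0)
    hl00
  set a0 : ℝ := min (ee 0 ^ p / 2) (1 / (8 * κ * B) / Real.log (1 / ys 0)) with ha0
  have hep0 : 0 < ee 0 ^ p := Real.rpow_pos_of_pos (hee0 0) _
  have ha00 : 0 < a0 := lt_min (by positivity) (by positivity)
  have key : ∀ j, ss j ≤ -a0 ∧ ys 0 ≤ ys j := by
    intro j
    induction j with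
    | zero =>
      refine ⟨?_, le_rfl⟩
      have h1 := (abs_le.1 (hnear 0)).2
      have h2 : a0 ≤ ee 0 ^ p / 2 := min_le_left _ _
      linarith
    | succ j ih =>
      obtain ⟨i1, i2⟩ := ih
      have hxj : xs j ≤ -a0 + ys j ^ q := by
        have := (abs_le.1 (hnear j)).1
        linarith
      have hii : ys 0 ≤ ys (j + 1) := sign_mono hκ hB hq (hy0 0) (hy0 j) (hy0 (j + 1))
        (hsm _ (hy0 j) (hye j)) hb2 ha00 i2 hxj (hw1 j) (hwB2 j) (hVe j) (hV j)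
      refine ⟨?_, hii⟩
      by_cases hI : |Real.log (ys (j + 1)) - Real.log (ys j)| ≤ 1
      · exact (hP j hI).trans i1
      · rw [not_le] at hI
        obtain ⟨hneg, hlj, h2⟩ := sign_size hκ hB (hee0 j) (hl0 j) (hup j) (hw1 j) (hwB2 j)
          (hvar j) (hV j) hI
        have h9 := sign_jump hκ hB hσ0 hσ1 hq hp1 hp10 (hy0 j) (hy0 (j + 1)) (hy1 j) (hy1 (j + 1))
          (hsm _ (hy0 j) (hye j)) (hee0 j) (hL j) (hlo (j + 1)) (hre j) (hX j) (hnear (j + 1))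
          hlj h2
        have hK0 : 0 < 1 / (8 * κ * B) := by positivity
        have h10 : 0 < -ss (j + 1) := by
          by_contra hlt
          rw [not_lt] at hlt
          have := mul_nonpos_of_nonpos_of_nonneg hlt hlj.le
          linarith
        have h11 : Real.log (1 / ys j) ≤ Real.log (1 / ys 0) := by
          apply Real.log_le_log (by have := hy0 j; positivity)
          exact one_div_le_one_div_of_le (hy0 0) i2
        have h12 : 1 / (8 * κ * B) / Real.log (1 / ys 0) ≤ -ss (j + 1) := by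
          rw [div_le_iff₀ hl00]
          exact h9.trans (mul_le_mul_of_nonneg_left h11 h10.le)
        have h13 : a0 ≤ 1 / (8 * κ * B) / Real.log (1 / ys 0) := min_le_right _ _
        linarith
  have h1 : (0 : ℝ) ≤ -a0 := le_of_tendsto hlim (Eventually.of_forall fun j => (key j).1)
  linarith

end Vale.Agent.P159.H801
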