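import Vale.Agent.P159.H801.Sharp7

/-!
P159 (helper801), seventh form of the sharp relation, second part: the sign argument, the lower
bound of `x` at locked states, T3 for the sharp letters.
-/

open Filter Topology Finset

namespace Vale.Agent.P159.H801

/-- **the sign argument**, elementary form -/
lemma sign_core7 {κ B q v p p1 v1 σ e qx δ : ℝ} (hκ : 0 < κ) (hB : 0 < B) (hσ0 : 0 < σ)
    (hσ1 : σ ≤ 1 / 4) (hp0 : 0 < p) (hq : 1 < q) (hp1 : 1 < (2 - 3 * σ) * p1)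
    (hv1 : v ≤ (2 - 3 * σ) * v1) (hv10 : 0 < v1) (hp10 : 0 < p1) (he1 : e ≤ 1)
    (hqx0 : 0 < qx) (hqxp : qx ≤ (2 - 3 * σ) * p) (hδ0 : 0 < δ) (hδ1 : δ ≤ 1)
    (hsm : ∀ Y : ℝ, 0 < Y → Y ≤ e → Sg7 κ B q v p qx (δ / (8 * κ * B)) Y)
    (xs ys ee ws : ℕ → ℝ) (Sl : ℕ → ℝ → Prop) (hy0 : ∀ j, 0 < ys j) (hye : ∀ j, ys j ≤ e)
    (hlo : ∀ j, ys j ^ (2 - σ) ≤ ee j) (hL : ∀ j, ee j ≤ ys j ^ (2 - 3 * σ))
    (hw1 : ∀ j, 1 ≤ ws j) (hwB : ∀ j, ws j ≤ B * Real.log (1 / ee j))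
    (hup : ∀ j, xs j ≤ ee j ^ p) (hX : ∀ j, |xs (j + 1) - xs j| ≤ ee j ^ p1)
    (hV : ∀ j, |Real.log (ys (j + 1)) - Real.log (ys j) + κ * xs j * ws j| ≤ ee j ^ v1)
    (hex : ∀ j, |xs j| ≤ ys j ^ qx → ∃ s, Sl j s)
    (hnear : ∀ j s, |xs j| ≤ ys j ^ qx → Sl j s → |s - xs j| ≤ ys j ^ q)
    (hP : ∀ j s s', |xs j| ≤ ys j ^ qx → |xs (j + 1)| ≤ ys (j + 1) ^ qx →
      |Real.log (ys (j + 1)) - Real.log (ys j)| ≤ δ → Sl j s → Sl (j + 1) s' → s' ≤ s)
    (hvar : ∀ j, |κ * ee j ^ p * ws j| + ee j ^ v1 ≤ δ / 10)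
    (hre : ∀ j, ee (j + 1) = nE σ (ee j) (ys j))
    (hxl : Tendsto xs atTop (𝓝 0)) (hyl : Tendsto ys atTop (𝓝 0)) : -(ee 0 ^ p) ≤ xs 0 := by
  by_contra hcon
  rw [not_le] at hcon
  have hee0 : ∀ j, 0 < ee j := fun j => (Real.rpow_pos_of_pos (hy0 j) _).trans_le (hlo j)
  have hy1 : ∀ j, ys j ≤ 1 := fun j => (hye j).trans he1
  have hl0 : ∀ j, 0 ≤ Real.log (1 / ys j) := fun j =>
    Real.log_nonneg (by rw [one_le_div (hy0 j)]; exact hy1 j)
  have hwB2 : ∀ j, ws j ≤ B * (2 * Real.log (1 / ys j)) := fun j =>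
    (hwB j).trans (mul_le_mul_of_nonneg_left (sign_log hσ0 (hy0 j) (hy1 j) (hlo j)) hB.le)
  -- error of V
  have hVe : ∀ j, ee j ^ v1 ≤ ys j ^ v := by
    intro j
    have h1 : ee j ^ v1 ≤ (ys j ^ (2 - 3 * σ)) ^ v1 :=
      Real.rpow_le_rpow (hee0 j).le (hL j) hv10.le
    rw [← Real.rpow_mul (hy0 j).le] at h1
    exact h1.trans (Real.rpow_le_rpow_of_exponent_ge (hy0 j) (hy1 j) hv1)
  -- upper bound by a power of `y`
  have hupx : ∀ j, xs j ≤ ys j ^ qx := by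
    intro j
    have h1 : ee j ^ p ≤ (ys j ^ (2 - 3 * σ)) ^ p := Real.rpow_le_rpow (hee0 j).le (hL j) hp0.le
    rw [← Real.rpow_mul (hy0 j).le] at h1
    exact (hup j).trans (h1.trans (Real.rpow_le_rpow_of_exponent_ge (hy0 j) (hy1 j) hqxp))
  have hneg : ∀ j, ¬ |xs j| ≤ ys j ^ qx → xs j < -(ys j ^ qx) := by
    intro j hj
    by_contra h1
    rw [not_lt] at h1
    exact hj (abs_le.2 ⟨h1, hupx j⟩)
  -- log (1 / y 0) > 0
  have hl00 : 0 < Real.log (1 / ys 0) := by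
    rcases (hl0 0).lt_or_eq with h1 | h1
    · exact h1
    · exfalso
      have h2 := hwB2 0
      rw [← h1, mul_zero, mul_zero] at h2
      linarith [hw1 0]
  obtain ⟨hb1, hb2⟩ := sign_bar7 hσ0 hp0 hq (hy0 0) (hy1 0) (hsm _ (hy0 0) (hye 0)) (hlo 0)
    hl00
  set K : ℝ := δ / (8 * κ * B) with hK
  have hK0 : 0 < K := by positivity
  set a0 : ℝ := min (min (ee 0 ^ p / 2) (K / Real.log (1 / ys 0))) (ys 0 ^ qx / 2) with ha0
  have hep0 : 0 < ee 0 ^ p := Real.rpow_pos_of_pos (hee0 0) _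
  have hyx0 : 0 < ys 0 ^ qx := Real.rpow_pos_of_pos (hy0 0) _
  have ha00 : 0 < a0 := lt_min (lt_min (by positivity) (by positivity)) (by positivity)
  have ha1 : a0 ≤ ee 0 ^ p / 2 := (min_le_left _ _).trans (min_le_left _ _)
  have ha2 : a0 ≤ K / Real.log (1 / ys 0) := (min_le_left _ _).trans (min_le_right _ _)
  have ha3 : a0 ≤ ys 0 ^ qx / 2 := min_le_right _ _
  have key : ∀ j, ys 0 ≤ ys j ∧ xs j ≤ -a0 + ys j ^ q ∧
      ∀ s, |xs j| ≤ ys j ^ qx → Sl j s → s ≤ -a0 := by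
    intro j
    induction j with
    | zero =>
      have hyq : 0 ≤ ys 0 ^ q := Real.rpow_nonneg (hy0 0).le _
      refine ⟨le_rfl, by linarith, fun s hs1 hs2 => ?_⟩
      have h1 := (abs_le.1 (hnear 0 s hs1 hs2)).2
      linarith
    | succ j ih =>
      obtain ⟨i2, hxj, i1⟩ := ih
      have hii : ys 0 ≤ ys (j + 1) := sign_mono7 hκ hq (hy0 j) (hy0 (j + 1))
        (hsm _ (hy0 j) (hye j)) hb2 ha00 i2 hxj (hw1 j) (hwB2 j) (hVe j) (hV j)
      have hyq : 0 ≤ ys (j + 1) ^ q := Real.rpow_nonneg (hy0 _).le _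
      by_cases hA : |xs (j + 1)| ≤ ys (j + 1) ^ qx
      · -- the letter at the next state
        have hs' : ∀ s', Sl (j + 1) s' → s' ≤ -a0 := by
          intro s' hs'
          have hn' := hnear (j + 1) s' hA hs'
          by_cases hI : |Real.log (ys (j + 1)) - Real.log (ys j)| ≤ δ
          · by_cases hB : |xs j| ≤ ys j ^ qx
            · obtain ⟨s, hs⟩ := hex j hB
              exact (hP j s s' hB hA hI hs hs').trans (i1 s hB hs)
            · have h1 := sign_neg7 hq hp1 hp10 (hy0 j) (hy0 (j + 1)) (hy1 j)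
                (hsm _ (hy0 j) (hye j)) (hee0 j) (hL j) (hX j) hn' (hI.trans hδ1) (hneg j hB)
              have h2 := Real.rpow_le_rpow (hy0 0).le i2 hqx0.le
              linarith
          · rw [not_le] at hI
            obtain ⟨-, hlj, h2⟩ := sign_size7 hκ hB (hee0 j) hδ0 (hl0 j) (hup j) (hw1 j)
              (hwB2 j) (hvar j) (hV j) hI
            have h9 := sign_jump7 hσ0 hσ1 hq hp1 hp10 (hy0 j) (hy0 (j + 1)) (hy1 j)
              (hy1 (j + 1)) (hsm _ (hy0 j) (hye j)) (hee0 j) (hL j) (hlo (j + 1)) (hre j) (hX j)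
              hn' hlj h2
            have h10 : 0 < -s' := by
              by_contra hlt
              rw [not_lt] at hlt
              have := mul_nonpos_of_nonpos_of_nonneg hlt hlj.le
              linarith
            have h11 : Real.log (1 / ys j) ≤ Real.log (1 / ys 0) := by
              apply Real.log_le_log (by have := hy0 j; positivity)
              exact one_div_le_one_div_of_le (hy0 0) i2
            have h12 : K / Real.log (1 / ys 0) ≤ -s' := by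
              rw [div_le_iff₀ hl00]
              exact h9.trans (mul_le_mul_of_nonneg_left h11 h10.le)
            linarith
        refine ⟨hii, ?_, fun s' _ hs => hs' s' hs⟩
        obtain ⟨s', hs⟩ := hex (j + 1) hA
        have h1 := hs' s' hs
        have h2 := (abs_le.1 (hnear (j + 1) s' hA hs)).1
        linarith
      · refine ⟨hii, ?_, fun s' h _ => absurd h hA⟩
        have h1 := hneg (j + 1) hA
        have h2 := Real.rpow_le_rpow (hy0 0).le hii hqx0.le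
        linarith
  have h1 : Tendsto (fun j => -a0 + ys j) atTop (𝓝 (-a0 + 0)) := hyl.const_add _
  have h2 : (0 : ℝ) ≤ -a0 + 0 := by
    refine le_of_tendsto_of_tendsto hxl h1 (Eventually.of_forall fun j => ?_)
    have h3 := (key j).2.1
    have h4 : ys j ^ q ≤ ys j := by
      conv_rhs => rw [← Real.rpow_one (ys j)]
      exact Real.rpow_le_rpow_of_exponent_ge (hy0 j) (hy1 j) hq.le
    exact h3.trans (by linarith)
  linarith

variable {S : ℕ → ℝ → ℝ → Prop} {x : ℕ → ℝ} {w : ℝ → ℕ} {κ B σ p p1 v1 es c1 : ℝ} {N0 : ℕ}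

/-- `y` varies little: general size -/
lemma hst_mono {N1 n : ℕ} {ε y : ℝ} (hN : N0 ≤ N1) (hH : Hst S σ es c1 N1 n ε y) :
    Hst S σ es c1 N0 n ε y :=
  ⟨hN.trans hH.hN, hH.hS, hH.sg, hH.he, hH.sh, hH.hv⟩

/-- **the lower half of (★) at locked states** -/
theorem low7 {A q2 qx : ℝ} {Sl : ℕ → ℝ → ℝ → ℝ → Prop}
    (h : Ind6 S x w κ B σ p p1 v1 es c1 N0) (hx : Tendsto x atTop (𝓝 0))
    (h1 : 1 < (2 - 3 * σ) * p1) (h2 : 1 < (2 - 3 * σ) * v1) (hA : 0 < A)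
    (hqx0 : 0 < qx) (hqxp : qx ≤ (2 - 4 * σ) * p)
    (hP : SLP7 S x w σ es c1 A q2 qx N0 Sl) :
    ∃ e1 : ℝ, 0 < e1 ∧ ∀ (e : ℝ) (N : ℕ), Thr6 S x κ B σ es c1 N0 e N → e ≤ e1 →
      ∀ n ε y, Iv6 S σ e c1 N n ε y → ε ≤ y ^ (2 - 3 * σ) → -(ε ^ p) ≤ x n := by
  have hσ0 := h.σ0
  have hσ1 := h.σ1
  have hp0 := h.p0
  have hq21 := hP.q21
  have hpp := h.pp
  have hp11 := h.p11
  have hv := v1_pos6 h
  have hp1 := p1_pos6 h
  -- exponents
  obtain ⟨q, hq1, hqv, hqq⟩ : ∃ q, 1 < q ∧ q < (2 - 3 * σ) * v1 ∧ q ≤ q2 := by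
    refine ⟨min q2 ((1 + (2 - 3 * σ) * v1) / 2), lt_min hq21 (by linarith), ?_, min_le_left _ _⟩
    exact (min_le_right _ _).trans_lt (by linarith)
  have h2p : 2 * p < 1 := by
    have : (1 - σ) * p1 ≤ 1 := by
      calc (1 - σ) * p1 ≤ 1 * p1 := mul_le_mul_of_nonneg_right (by linarith) hp1.le
        _ ≤ 1 := by linarith
    linarith
  have hqx1 : qx < 1 := by nlinarith
  have hqxp3 : qx ≤ (2 - 3 * σ) * p := by nlinarith
  obtain ⟨f6, hf6, δ', hδ'0, hPe⟩ := hP.P (A / 2) (by positivity)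
  set δ : ℝ := min δ' 1 with hδ
  have hδ0 : 0 < δ := lt_min hδ'0 one_pos
  have hδ1 : δ ≤ 1 := min_le_right _ _
  -- thresholds
  obtain ⟨f1, hf1, hup⟩ := up6 h hx
  obtain ⟨f2, hf2, hvar⟩ := y_var6 h (a := δ / 10) (by positivity)
  obtain ⟨f3, hf3, hlock⟩ := lock_step h hx
  obtain ⟨f4, hf4, hex⟩ := hP.ex
  obtain ⟨f5, hf5, hnr⟩ := hP.near
  have hκ := h.κ0
  have hB := h.B0
  obtain ⟨f7, hf7, -, hsg⟩ := sign_small7 (κ := κ) (B := B) (q := q) (v := (2 - 3 * σ) * v1)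
    (p := p) (qx := qx) (K := δ / (8 * κ * B)) h.κ0 h.B0 hq1 hqv h2p hqx1 (by positivity)
  refine ⟨min (min (min f1 f2) (min f3 f4)) (min (min f5 f6) f7), by positivity,
    fun e N t hee n0 ε0 y0 hs hL => ?_⟩
  have g1 : e ≤ f1 := hee.trans ((min_le_left _ _).trans ((min_le_left _ _).trans
    (min_le_left _ _)))
  have g2 : e ≤ f2 := hee.trans ((min_le_left _ _).trans ((min_le_left _ _).trans
    (min_le_right _ _)))
  have g3 : e ≤ f3 := hee.trans ((min_le_left _ _).trans ((min_le_right _ _).trans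
    (min_le_left _ _)))
  have g4 : e ≤ f4 := hee.trans ((min_le_left _ _).trans ((min_le_right _ _).trans
    (min_le_right _ _)))
  have g5 : e ≤ f5 := hee.trans ((min_le_right _ _).trans ((min_le_left _ _).trans
    (min_le_left _ _)))
  have g6 : e ≤ f6 := hee.trans ((min_le_right _ _).trans ((min_le_left _ _).trans
    (min_le_right _ _)))
  have g7 : e ≤ f7 := hee.trans ((min_le_right _ _).trans (min_le_right _ _))
  have hes := t.hes
  have he1 : e ≤ 1 := hes.trans (h.es1.trans (by norm_num))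
  obtain ⟨n, ε, y, hn0, hε0, hy0', c⟩ := pc6_exists h t hs
  have hy : ∀ j, 0 < y j := fun j => (c.iv j).hy
  have hye : ∀ j, y j ≤ e := fun j =>
    t.sm _ _ _ (c.iv j).hN (c.iv j).hS (c.iv j).sg ((c.iv j).he.trans hes)
  have hy1 : ∀ j, y j ≤ 1 := fun j => (hye j).trans he1
  have hlk : ∀ j, ε j ≤ y j ^ (2 - 3 * σ) := by
    intro j
    induction j with
    | zero => rw [hε0, hy0']; exact hL
    | succ j ih =>
      have hnn := c.nn j
      rw [c.ee]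
      exact hlock e N t g3 (n j) (n (j + 1)) (ε j) (y j) (y (j + 1)) (c.iv j) ih (by omega)
        (by omega) (hy _) (c.V j)
  have hH : ∀ j, Hst S σ es c1 N0 (n j) (ε j) (y j) := fun j =>
    (c.iv j).hst hσ0 t.hN hes (hy1 j) (hlk j)
  have hd : ∀ j, (n (j + 1) : ℝ) - n j = w (ε j) := by
    intro j
    rw [c.nn]; push_cast; ring
  have hfin := sign_core7 (κ := κ) (B := B) (q := q) (v := (2 - 3 * σ) * v1) (p := p) (p1 := p1)
    (v1 := v1) (σ := σ) (e := e) (qx := qx) (δ := δ) h.κ0 h.B0 hσ0 hσ1 h.p0 hq1 h1 le_rfl hv hp1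
    he1 hqx0 hqxp3 hδ0 hδ1
    (fun Y hY hYe => hsg Y hY (hYe.trans g7))
    (fun j => x (n j)) y ε (fun j => (n (j + 1) : ℝ) - n j)
    (fun j s => Sl (n j) (ε j) (y j) s) hy hye (fun j => (c.iv j).sg) hlk
    (fun j => by
      simp only [hd]
      exact_mod_cast h.w1 _ (c.iv j).ep ((c.iv j).he.trans hes))
    (fun j => by
      simp only [hd]
      exact h.w3 _ (c.iv j).ep ((c.iv j).he.trans hes))
    (fun j => hup e N t g1 _ _ _ (c.iv j))
    (fun j => by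
      have hnn := c.nn j
      exact h.stepX _ _ _ _ (t.hN.trans (c.iv j).hN) (c.iv j).hS (c.iv j).sg
        ((c.iv j).he.trans hes) (c.iv j).hv (by omega) (by omega))
    c.V
    (fun j hj => hex _ _ _ (hH j) ((hye j).trans g4) hj)
    (fun j s hj hs => (hnr _ _ _ _ (hH j) ((hye j).trans g5) hj hs).trans
      (Real.rpow_le_rpow_of_exponent_ge (hy j) (hy1 j) hqq))
    (fun j s s' hj hj' hI hs hs' => by
      have h3 := hPe (n j) (n (j + 1)) (ε j) (ε (j + 1)) (y j) (y (j + 1)) s s'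
        (hH j) (hH (j + 1)) (c.nn j) ((hye _).trans g6) ((hye _).trans g6) hj hj'
        (hI.trans (min_le_left _ _)) hs hs'
      have h4 := (abs_le.1 h3).1
      have h5 : 0 ≤ (w (ε j) : ℝ) * y j ^ 2 := by positivity
      have h6 : 0 ≤ A / 2 * ((w (ε j) : ℝ) * y j ^ 2) := mul_nonneg (by positivity) h5
      linarith)
    (fun j => by
      simp only [hd]
      have hep := (c.iv j).ep
      exact hvar (ε j) hep ((c.iv j).he.trans g2) ((c.iv j).he.trans hes) (ε j ^ p) (w (ε j))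
        (by rw [abs_of_nonneg (Real.rpow_nonneg hep.le _)]) (Nat.cast_nonneg _)
        (by have : (0 : ℝ) ≤ w (ε j) := Nat.cast_nonneg _
            linarith))
    c.ee (hx.comp (c.tend h hes)) (c.yt h hes)
  simp only [hn0, hε0] at hfin
  exact hfin

/-- **the fifth contract for locked states** -/
theorem Ind6.toInd57 {A q2 qx : ℝ} {Sl : ℕ → ℝ → ℝ → ℝ → Prop}
    (h : Ind6 S x w κ B σ p p1 v1 es c1 N0) (hx : Tendsto x atTop (𝓝 0))
    (h1 : 1 < (2 - 3 * σ) * p1) (h2 : 1 < (2 - 3 * σ) * v1) (hA : 0 < A)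
    (hqx0 : 0 < qx) (hqxp : qx ≤ (2 - 4 * σ) * p)
    (hP : SLP7 S x w σ es c1 A q2 qx N0 Sl) :
    ∃ N1, N0 ≤ N1 ∧ Ind5 (SL S σ) x w κ B σ p p1 v1 es c1 N1 := by
  obtain ⟨f1, hf1, hlow⟩ := low7 h hx h1 h2 hA hqx0 hqxp hP
  obtain ⟨f2, hf2, hlock⟩ := lock_step h hx
  obtain ⟨e, N, hee, -, t⟩ := thr6_exists h hx (a := min f1 f2) (by positivity) 0
  have hσ0 := h.σ0
  have hσ1 := h.σ1
  have he0 := t.e0
  obtain ⟨d, hd, hpow⟩ := small_pow (a := 2 - 3 * σ) (c := e) (by linarith) he0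
  obtain ⟨N2, hN2⟩ := h.ysm d hd
  have hN0 : N0 ≤ max N N2 := t.hN.trans (le_max_left _ _)
  have hIv : ∀ n ε y, max N N2 ≤ n → SL S σ n ε y → y ^ (2 - σ) ≤ ε → ε ≤ es →
      Real.log (1 / y) ≤ ε ^ (-c1) → Iv6 S σ e c1 N n ε y := by
    intro n ε y hn hS hsg hes hv
    have hy := h.y0 n ε y (hN0.trans hn) hS.1
    refine ⟨(le_max_left _ _).trans hn, hS.1, hy, hsg, ?_, hv⟩
    exact hS.2.trans (hpow y hy.le (hN2 n ε y ((le_max_right _ _).trans hn) hS.1 hsg hes))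
  refine ⟨max N N2, hN0, ⟨h.κ0, h.B0, h.σ0, h.σ1, h.p0, h.pp, h.pv, h.p11, h.v11, h.es0, h.es1,
    h.c10, h.w1, h.w2, h.w3, fun n ε y hn hS => h.y0 n ε y (hN0.trans hn) hS.1, ?_, ?_, ?_, ?_⟩⟩
  · intro δ hδ
    obtain ⟨N3, hN3⟩ := h.ysm δ hδ
    exact ⟨N3, fun n ε y hn hS => hN3 n ε y hn hS.1⟩
  · intro n ε y hn hS hsg hes hv
    exact hlow e N t (hee.trans (min_le_left _ _)) n ε y (hIv n ε y hn hS hsg hes hv) hS.2
  · intro n m ε y hn hS
    exact h.stepX n m ε y (hN0.trans hn) hS.1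
  · intro n m ε y hn hS hsg hes hv hm1 hm2
    obtain ⟨y', hy1, hy2⟩ := h.stepS n m ε y (hN0.trans hn) hS.1 hsg hes hv hm1 hm2
    have hm : N0 ≤ m := hN0.trans (hn.trans (by omega))
    exact ⟨y', ⟨hy1, hlock e N t (hee.trans (min_le_right _ _)) n m ε y y'
      (hIv n ε y hn hS hsg hes hv) hS.2 hm1 hm2 (h.y0 m _ y' hm hy1) hy2⟩, hy2⟩

end Vale.Agent.P159.H801
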