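import Vale.Agent.P159.H801.Plus2

/-!
P159 (helper801): the state one level below (`Good P b (n - 1) ε`) is carried by the step: the same
window, shifted by one, taken from `n - 1`.
-/

open Filter Topology Finset

namespace Vale.Agent.P159.H801

open Vale.Agent.P159.H972 (Par Good YBn StepP')

/-- **the predecessor is carried by the step** -/
theorem good_pred {P : Par} {b sg c σ ε ε' z : ℝ} {N0 n m : ℕ} (hσ0 : 0 < σ) (hσ1 : σ ≤ 1 / 4)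
    (hs0 : 0 ≤ sg) (hc0 : 0 ≤ c) (hc4 : 4 * c ≤ σ) (hsg : sg + 2 * c ≤ σ)
    (hst : StepP' P b sg N0) (hn : N0 + 1 ≤ n) (hz : 0 < z) (hz1 : z ≤ 1)
    (hze : z ^ (2 - σ) ≤ ε) (hes : ε ≤ P.es) (hG : Good P b (n - 1) ε)
    (hY : YBn P b (n - 1) ε (ε ^ (-c) * z)) (h1 : n + P.w ε ≤ m) (h2 : m ≤ n + 4 * P.w ε)
    (he' : max (ε / 2) (z ^ (2 - 2 * σ)) ≤ ε') : Good P b (m - 1) ε' := by
  have hε : 0 < ε := lt_of_lt_of_le (Real.rpow_pos_of_pos hz _) hze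
  obtain ⟨b1, b2⟩ := ms_num hσ0 hσ1 hs0 hc0 hc4 hsg hz hz1
    (mul_nonneg (Real.rpow_nonneg hε.le _) hz.le) hze le_rfl
  have g1 := hst (n - 1) (m - 1) ε _ (by omega) hG hY b1 hes (by omega) (by omega)
  exact g1.mono ((max_le_max le_rfl b2).trans he')

/-- the pair of levels `n - 1, n` -/
def Gd2 (P : Par) (b : ℝ) (n : ℕ) (ε : ℝ) : Prop := Good P b (n - 1) ε ∧ Good P b n ε

/-- the pair of levels, vortex bounds -/
def Yb2 (P : Par) (b : ℝ) (n : ℕ) (ε Y : ℝ) : Prop := YBn P b (n - 1) ε Y ∧ YBn P b n ε Y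

/-- **the pair is carried by the step** -/
theorem Gd2.step {P : Par} {b sg c σ ε ε' z : ℝ} {N0 n m : ℕ} (hσ0 : 0 < σ) (hσ1 : σ ≤ 1 / 4)
    (hs0 : 0 ≤ sg) (hc0 : 0 ≤ c) (hc4 : 4 * c ≤ σ) (hsg : sg + 2 * c ≤ σ)
    (hst : StepP' P b sg N0) (hn : N0 + 1 ≤ n) (hz : 0 < z) (hz1 : z ≤ 1)
    (hze : z ^ (2 - σ) ≤ ε) (hes : ε ≤ P.es) (hG : Gd2 P b n ε)
    (hY : Yb2 P b n ε (ε ^ (-c) * z)) (h1 : n + P.w ε ≤ m) (h2 : m ≤ n + 4 * P.w ε)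
    (he' : max (ε / 2) (z ^ (2 - 2 * σ)) ≤ ε') : Gd2 P b m ε' := by
  have hε : 0 < ε := lt_of_lt_of_le (Real.rpow_pos_of_pos hz _) hze
  obtain ⟨b1, b2⟩ := ms_num hσ0 hσ1 hs0 hc0 hc4 hsg hz hz1
    (mul_nonneg (Real.rpow_nonneg hε.le _) hz.le) hze le_rfl
  have g1 := hst n m ε _ (by omega) hG.2 hY.2 b1 hes h1 h2
  exact ⟨good_pred hσ0 hσ1 hs0 hc0 hc4 hsg hst hn hz hz1 hze hes hG.1 hY.1 h1 h2 he',
    g1.mono ((max_le_max le_rfl b2).trans he')⟩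

/-- at the start: `Good` on an interval gives the pair at every level of it except the first -/
lemma Gd2.of_int {P : Par} {b ε : ℝ} {n k : ℕ} (h : ∀ m, n ≤ m → m ≤ k → Good P b m ε) {m : ℕ}
    (h1 : n + 1 ≤ m) (h2 : m ≤ k) : Gd2 P b m ε :=
  ⟨h (m - 1) (by omega) (by omega), h m (by omega) h2⟩

end Vale.Agent.P159.H801
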