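import Vale.Agent.P159.H801.T37

/-!
P159 (helper801), MASTER: a second state.  `G n e` is a second state (sizes `e`), which is driven by
the locked states of the first one; then `SP` = locked state and `G n (y^(2-3σ2))` is again a state
of the contract `Ind6`, with starting points.
-/

open Filter Topology Finset

namespace Vale.Agent.P159.H801

/-- the second state, driven by the locked states of the first one -/
structure Snd (G : ℕ → ℝ → Prop) (S : ℕ → ℝ → ℝ → Prop) (w : ℝ → ℕ) (σ σ2 es c1 es2 : ℝ) :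
    Prop where
  s0 : 0 < σ2
  s1 : σ2 ≤ 1 / 4
  e0 : 0 < es2
  mono : ∀ n e e', G n e → e ≤ e' → G n e'
  start : ∀ e, 0 < e → e ≤ es2 → ∀ᶠ n in atTop, G n e
  step : ∃ N d, 0 < d ∧ ∀ n m ε y e, N ≤ n → S n ε y → 0 < y → y ≤ d → y ^ (2 - σ) ≤ ε →
    ε ≤ y ^ (2 - 3 * σ) → ε ≤ es → Real.log (1 / y) ≤ ε ^ (-c1) → n + w ε ≤ m →
    m ≤ n + 4 * w ε → G n e → y ^ (2 - 3 * σ2) ≤ e → e ≤ es2 → G m (nE σ2 e y)

/-- locked state with the second state -/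
def SP (S : ℕ → ℝ → ℝ → Prop) (G : ℕ → ℝ → Prop) (σ σ2 : ℝ) (n : ℕ) (ε y : ℝ) : Prop :=
  SL S σ n ε y ∧ G n (y ^ (2 - 3 * σ2))

variable {S : ℕ → ℝ → ℝ → Prop} {G : ℕ → ℝ → Prop} {x : ℕ → ℝ} {w : ℝ → ℕ}
  {κ B σ σ2 p p1 v1 es c1 es2 : ℝ} {N0 : ℕ}

/-- one sided control of `y` at late small states -/
lemma one_sided (h : Ind6 S x w κ B σ p p1 v1 es c1 N0) (hx : Tendsto x atTop (𝓝 0)) :
    ∃ e1 : ℝ, 0 < e1 ∧ ∀ (e : ℝ) (N : ℕ), Thr6 S x κ B σ es c1 N0 e N → e ≤ e1 →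
      ∀ n m ε y y', Iv6 S σ e c1 N n ε y → n + w ε ≤ m → m ≤ n + 4 * w ε →
      |Real.log y' - Real.log y + κ * x n * ((m : ℝ) - n)| ≤ ε ^ v1 →
      Real.log y ≤ Real.log y' + 1 / 10 := by
  obtain ⟨e1, he1, hup⟩ := up6 h hx
  obtain ⟨e2, he2, hvar⟩ := y_var6 h (a := 1 / 10) (by norm_num)
  refine ⟨min e1 e2, lt_min he1 he2, fun e N t hee n m ε y y' hs h1 h2 hV => ?_⟩
  have hee1 : e ≤ e1 := hee.trans (min_le_left _ _)
  have hee2 : e ≤ e2 := hee.trans (min_le_right _ _)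
  have hε := hs.ep
  have hεs : ε ≤ es := hs.he.trans t.hes
  have hX := hup e N t hee1 n ε y hs
  have hd0 : 0 ≤ (m : ℝ) - n := by
    have : (n : ℝ) ≤ m := by exact_mod_cast (show n ≤ m by omega)
    linarith
  have hd1 : (m : ℝ) - n ≤ 4 * w ε := by
    have : (m : ℝ) ≤ n + 4 * w ε := by exact_mod_cast h2
    linarith
  have hv := hvar ε hε (hs.he.trans hee2) hεs (ε ^ p) ((m : ℝ) - n)
    (by rw [abs_of_nonneg (Real.rpow_nonneg hε.le _)]) hd0 hd1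
  exact y_one_sided h hv hX hd0 hV

/-- **the contract for the locked states with the second state** -/
theorem Ind6.plus (h : Ind6 S x w κ B σ p p1 v1 es c1 N0) (hx : Tendsto x atTop (𝓝 0))
    (g : Snd G S w σ σ2 es c1 es2) :
    ∃ N1, N0 ≤ N1 ∧ Ind6 (SP S G σ σ2) x w κ B σ p p1 v1 es c1 N1 := by
  obtain ⟨f1, hf1, hone⟩ := one_sided h hx
  obtain ⟨f2, hf2, hlock⟩ := lock_step h hx
  obtain ⟨e, N, hee, -, t⟩ := thr6_exists h hx (a := min f1 f2) (by positivity) 0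
  have hσ0 := h.σ0
  have hσ1 := h.σ1
  have hs0 := g.s0
  have hs1 := g.s1
  have he0 := t.e0
  obtain ⟨N3, d3, hd3, hst⟩ := g.step
  obtain ⟨d, hd, hpow⟩ := small_pow (a := 2 - 3 * σ) (c := e) (by linarith) he0
  obtain ⟨d1, hd1, hpow1⟩ := small_pow (a := σ2) (c := 4 / 5) hs0 (by norm_num)
  obtain ⟨d2, hd2, hpow2⟩ := small_pow (a := 2 - 3 * σ2) (c := es2) (by linarith) g.e0
  obtain ⟨N2, hN2⟩ := h.ysm (min (min d d1) (min d2 d3)) (by positivity)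
  set N1 : ℕ := max N (max N2 N3) with hN1
  have a1 : N ≤ N1 := le_max_left _ _
  have a2 : N2 ≤ N1 := (le_max_left _ _).trans (le_max_right _ _)
  have a3 : N3 ≤ N1 := (le_max_right _ _).trans (le_max_right _ _)
  have hN0 : N0 ≤ N1 := t.hN.trans a1
  have hyd : ∀ n ε y, N1 ≤ n → S n ε y → y ^ (2 - σ) ≤ ε → ε ≤ es →
      y ≤ d ∧ y ≤ d1 ∧ y ≤ d2 ∧ y ≤ d3 := by
    intro n ε y hn hS hsg hes
    have h4 := hN2 n ε y (a2.trans hn) hS hsg hes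
    exact ⟨h4.trans ((min_le_left _ _).trans (min_le_left _ _)),
      h4.trans ((min_le_left _ _).trans (min_le_right _ _)),
      h4.trans ((min_le_right _ _).trans (min_le_left _ _)),
      h4.trans ((min_le_right _ _).trans (min_le_right _ _))⟩
  have hIv : ∀ n ε y, N1 ≤ n → SL S σ n ε y → y ^ (2 - σ) ≤ ε → ε ≤ es →
      Real.log (1 / y) ≤ ε ^ (-c1) → Iv6 S σ e c1 N n ε y := by
    intro n ε y hn hS hsg hes hv
    have hy := h.y0 n ε y (hN0.trans hn) hS.1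
    refine ⟨a1.trans hn, hS.1, hy, hsg, ?_, hv⟩
    exact hS.2.trans (hpow y hy.le (hyd n ε y hn hS.1 hsg hes).1)
  refine ⟨N1, hN0, ⟨h.κ0, h.B0, h.σ0, h.σ1, h.p0, h.pp, h.pv, h.p11, h.v11, h.es0, h.es1,
    h.c10, h.w1, h.w2, h.w3, fun n ε y hn hS => h.y0 n ε y (hN0.trans hn) hS.1.1, ?_, ?_, ?_⟩⟩
  · intro δ hδ
    obtain ⟨N3, hN3⟩ := h.ysm δ hδ
    exact ⟨N3, fun n ε y hn hS => hN3 n ε y hn hS.1.1⟩
  · intro n m ε y hn hS
    exact h.stepX n m ε y (hN0.trans hn) hS.1.1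
  · intro n m ε y hn hS hsg hes hv hm1 hm2
    obtain ⟨y', hy1, hy2⟩ := h.stepS n m ε y (hN0.trans hn) hS.1.1 hsg hes hv hm1 hm2
    have hm : N0 ≤ m := hN0.trans (hn.trans (by omega))
    have hy := h.y0 n ε y (hN0.trans hn) hS.1.1
    have hy' := h.y0 m _ y' hm hy1
    have hI := hIv n ε y hn hS.1 hsg hes hv
    obtain ⟨b1, b2, b3, b4⟩ := hyd n ε y hn hS.1.1 hsg hes
    have h3 := hlock e N t (hee.trans (min_le_right _ _)) n m ε y y' hI hS.1.2 hm1 hm2 hy' hy2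
    have h4 := hone e N t (hee.trans (min_le_left _ _)) n m ε y y' hI hm1 hm2 hy2
    have h5 := hst n m ε y (y ^ (2 - 3 * σ2)) (a3.trans hn) hS.1.1 hy b4 hsg hS.1.2 hes hv hm1 hm2
      hS.2 le_rfl (hpow2 y hy.le b3)
    have h6 := ratio_step6 (E0 := y ^ (2 - 3 * σ2)) (R := 1) hs0 hs1 hy hy' (hpow1 y hy.le b2) h4
      (by rw [one_mul]) zero_le_one
    have h7 : max (5 / 8 * (1 : ℝ)) 1 = 1 := by norm_num
    rw [h7, one_mul] at h6
    exact ⟨y', ⟨⟨hy1, h3⟩, g.mono _ _ _ h5 h6⟩, hy2⟩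

/-- **starting points of the locked states with the second state** -/
theorem Ind6.plus_start (h : Ind6 S x w κ B σ p p1 v1 es c1 N0) (hx : Tendsto x atTop (𝓝 0))
    (g : Snd G S w σ σ2 es c1 es2) (st : Start5 S σ c1) : Start5 (SP S G σ σ2) σ c1 := by
  intro a ha N'
  have hσ0 := h.σ0
  have hσ1 := h.σ1
  have hs0 := g.s0
  have hs1 := g.s1
  obtain ⟨f1, hf1, hlk⟩ := lock_ev h hx
  obtain ⟨f2, hf2, hone⟩ := one_sided h hx
  obtain ⟨N3, d3, hd3, hst⟩ := g.step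
  obtain ⟨d1, hd1, hpow1⟩ := small_pow (a := σ2) (c := 4 / 5) hs0 (by norm_num)
  obtain ⟨N4, hN4⟩ := eventually_atTop.1 (g.start es2 g.e0 le_rfl)
  obtain ⟨e, N, hee, hN', t⟩ := thr6_exists h hx (a := min (min a f1) (min f2 (min d1 d3)))
    (by positivity) (max N' (max N3 N4))
  have k1 : e ≤ a := hee.trans ((min_le_left _ _).trans (min_le_left _ _))
  have k2 : e ≤ f1 := hee.trans ((min_le_left _ _).trans (min_le_right _ _))
  have k3 : e ≤ f2 := hee.trans ((min_le_right _ _).trans (min_le_left _ _))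
  have k4 : e ≤ d1 := hee.trans ((min_le_right _ _).trans ((min_le_right _ _).trans
    (min_le_left _ _)))
  have k5 : e ≤ d3 := hee.trans ((min_le_right _ _).trans ((min_le_right _ _).trans
    (min_le_right _ _)))
  have m1 : N' ≤ N := (le_max_left _ _).trans hN'
  have m2 : N3 ≤ N := ((le_max_left _ _).trans (le_max_right _ _)).trans hN'
  have m3 : N4 ≤ N := ((le_max_right _ _).trans (le_max_right _ _)).trans hN'
  obtain ⟨n0, ε0, y0, hn0, hε0, hS0, hsg0, hv0⟩ := st e t.e0 N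
  have hy0 := h.y0 n0 ε0 y0 (t.hN.trans hn0) hS0
  obtain ⟨n, ε, y, -, -, -, c⟩ := pc6_exists h t (n0 := n0) (ε0 := ε0) (y0 := y0)
    ⟨hn0, hS0, hy0, hsg0, hε0, hv0⟩
  obtain ⟨J, hJ⟩ := hlk e N n ε y t c k2
  have hes := t.hes
  have hy : ∀ i, 0 < y i := fun i => (c.iv i).hy
  have hye : ∀ i, y i ≤ e := fun i =>
    t.sm _ _ _ (c.iv i).hN (c.iv i).hS (c.iv i).sg ((c.iv i).he.trans hes)
  -- it is enough to reach the size `y ^ (2 - 3 σ2)`
  suffices hmain : ∃ i, G (n (J + i)) (y (J + i) ^ (2 - 3 * σ2)) by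
    obtain ⟨i, hi⟩ := hmain
    exact ⟨n (J + i), ε (J + i), y (J + i), m1.trans (c.iv _).hN, (c.iv _).he.trans k1,
      ⟨⟨(c.iv _).hS, hJ _ (Nat.le_add_right _ _)⟩, hi⟩, (c.iv _).sg, (c.iv _).hv⟩
  by_contra hno
  push Not at hno
  let E : ℕ → ℝ := fun i => Nat.rec es2 (fun j r => nE σ2 r (y (J + j))) i
  have hE0 : E 0 = es2 := rfl
  have hE1 : ∀ i, E (i + 1) = nE σ2 (E i) (y (J + i)) := fun i => rfl
  have hnn : ∀ i, n (J + (i + 1)) = n (J + i) + w (ε (J + i)) := fun i => c.nn (J + i)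
  have key : ∀ i, G (n (J + i)) (E i) ∧ E i ≤ es2 := by
    intro i
    induction i with
    | zero => exact ⟨hN4 _ (m3.trans (c.iv _).hN), le_rfl⟩
    | succ i ih =>
      obtain ⟨g1, g2⟩ := ih
      have g3 : y (J + i) ^ (2 - 3 * σ2) < E i := by
        by_contra hlt
        rw [not_lt] at hlt
        exact hno i (g.mono _ _ _ g1 hlt)
      have g4 := hst (n (J + i)) (n (J + (i + 1))) (ε (J + i)) (y (J + i)) (E i)
        (m2.trans (c.iv _).hN) (c.iv _).hS (hy _) ((hye _).trans k5) (c.iv _).sg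
        (hJ _ (Nat.le_add_right _ _)) ((c.iv _).he.trans hes) (c.iv _).hv
        (c.nn (J + i)).ge ((hnn i).le.trans (by omega)) g1 g3.le g2
      refine ⟨by rw [hE1]; exact g4, ?_⟩
      rw [hE1]
      have g5 : y (J + i) ^ (2 - 2 * σ2) ≤ y (J + i) ^ (2 - 3 * σ2) :=
        Real.rpow_le_rpow_of_exponent_ge (hy _)
          ((hye _).trans (hes.trans (h.es1.trans (by norm_num)))) (by linarith)
      have g6 : 0 < E i := (Real.rpow_pos_of_pos (hy _) _).trans g3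
      exact max_le (by linarith) (by linarith)
  have hlog : ∀ i, Real.log (y (J + i)) ≤ Real.log (y (J + (i + 1))) + 1 / 10 := fun i =>
    hone e N t k3 (n (J + i)) (n (J + (i + 1))) (ε (J + i)) (y (J + i)) _ (c.iv _)
      (c.nn (J + i)).ge ((hnn i).le.trans (by omega)) (c.V (J + i))
  set R : ℝ := es2 / y (J + 0) ^ (2 - 3 * σ2) with hR
  have hP0 : 0 < y (J + 0) ^ (2 - 3 * σ2) := Real.rpow_pos_of_pos (hy _) _
  have hR0 : 0 ≤ R := div_nonneg g.e0.le hP0.le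
  obtain ⟨i, hi⟩ : ∃ i : ℕ, (5 / 8 : ℝ) ^ i * R ≤ 1 := by
    have h1 : Tendsto (fun J : ℕ => (5 / 8 : ℝ) ^ J * R) atTop (𝓝 (0 * R)) :=
      (tendsto_pow_atTop_nhds_zero_of_lt_one (by norm_num) (by norm_num)).mul_const _
    rw [zero_mul] at h1
    have h2 := h1.eventually (gt_mem_nhds one_pos)
    obtain ⟨J, hJ⟩ := h2.exists
    exact ⟨J, hJ.le⟩
  have h1 := ratio_iter6 (σ := σ2) (R0 := R) (E := E) (ys := fun i => y (J + i)) hs0 hs1
    (fun i => hy _) (fun i => hpow1 _ (hy _).le ((hye _).trans k4)) hlog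
    (by rw [hR, div_mul_cancel₀ _ hP0.ne']; exact hE0.le) hE1 i
  rw [max_eq_right hi, one_mul] at h1
  exact hno i (g.mono _ _ _ (key i).1 h1)

/-- **T3 with a second state** -/
theorem T3_plus {A q2 qx : ℝ} {Sl : ℕ → ℝ → ℝ → ℝ → Prop}
    (h : Ind6 S x w κ B σ p p1 v1 es c1 N0) (st : Start5 S σ c1)
    (hx : Tendsto x atTop (𝓝 0)) (g : Snd G S w σ σ2 es c1 es2)
    (h1 : 1 < (2 - 3 * σ) * p1) (h2 : 1 < (2 - 3 * σ) * v1) (hA : 0 < A)
    (hqx0 : 0 < qx) (hqx : qx ≤ (2 - 4 * σ) * p)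
    (hP : SLP7 (SP S G σ σ2) x w σ es c1 A q2 qx N0 Sl) :
    ∃ (y ε xs : ℕ → ℝ) (c r q : ℝ) (N : ℕ), N0 ≤ N ∧ Fl x y κ c r q N ∧ 1 < r ∧
      T3 xs y κ c r q (2 * B) A (fun n => w (ε n)) N ∧
      (∀ n, N ≤ n → |xs n - x n| ≤ y n ^ q2) ∧ (∀ n, N ≤ n → |x n| ≤ y n ^ qx) ∧
      (∀ n, N ≤ n → Sl n (ε n) (y n) (xs n)) ∧
      ∀ n, N ≤ n → Hst (SP S G σ σ2) σ es c1 N0 n (ε n) (y n) ∧ ε n ≤ y n ^ (2 - 3 * σ) ∧
        y n ≤ 1 := by
  obtain ⟨N1, hN1, hI⟩ := h.plus hx g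
  obtain ⟨y, ε, xs, c', r, q, N, a1, a2, a3, a4, a5, a6, a7, a8⟩ :=
    T3_of_ind67 hI (h.plus_start hx g st) hx h1 h2 hA hqx0 hqx (hP.mono hN1)
  exact ⟨y, ε, xs, c', r, q, N, hN1.trans a1, a2, a3, a4, a5, a6, a7, fun n hn =>
    ⟨hst_mono hN1 (a8 n hn).1, (a8 n hn).2⟩⟩

end Vale.Agent.P159.H801
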