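import Vale.Agent.P159.H801.Plus1
import Vale.Agent.P159.H801.SFlow

/-!
P159 (helper801), MASTER: two sets of parameters `P`, `P'`.  The second state `Good P' b`
(exponent `sg'` much smaller than the exponent `x1` of the tori of `P`) is driven by the locked
states of `P`: instance of `Snd`.
-/

open Filter Topology Finset

namespace Vale.Agent.P159.H801

open Vale.Agent.P159.H972 (Par Good GP YBn StepP' StartP tn tn_pos lg lg_anti yt_mass Par.Adm)
open Vale.Agent.P159.H264 (kap)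
open Vale.Agent.P159.H864 (yt)

/-- `lg` at a size multiplied by `2^(-d/c)` -/
lemma lg_shift {c f : ℝ} (hc : 0 < c) (hf : 0 < f) (d : ℕ) :
    lg c (f * (2 : ℝ) ^ (-((d : ℝ) / c))) ≤ lg c f + d := by
  unfold lg
  rw [Nat.ceil_le]
  have h2 : (0 : ℝ) < (2 : ℝ) ^ (-((d : ℝ) / c)) := by positivity
  have h3 : Real.logb 2 (1 / (f * (2 : ℝ) ^ (-((d : ℝ) / c)))) =
      Real.logb 2 (1 / f) + d / c := by
    rw [one_div, one_div, Real.logb_inv, Real.logb_inv, Real.logb_mul hf.ne' h2.ne',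
      Real.logb_rpow two_pos (by norm_num)]
    ring
  rw [h3, mul_add, mul_div_cancel₀ _ hc.ne']
  push_cast
  have := Nat.le_ceil (c * Real.logb 2 (1 / f))
  linarith

/-- `4^d 2^(-d/c) ≤ 1` -/
lemma four_shift {c : ℝ} (hc : 0 < c) (hc2 : c ≤ 1 / 2) (d : ℕ) :
    (4 : ℝ) ^ d * (2 : ℝ) ^ (-((d : ℝ) / c)) ≤ 1 := by
  have h1 : (4 : ℝ) ^ d = (2 : ℝ) ^ (2 * (d : ℝ)) := by
    rw [Real.rpow_mul two_pos.le, Real.rpow_natCast]
    norm_num
  rw [h1, ← Real.rpow_add two_pos]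
  apply Real.rpow_le_one_of_one_le_of_nonpos (by norm_num)
  have h2 : 2 * (d : ℝ) ≤ d / c := by
    rw [le_div_iff₀ hc]
    have : (0 : ℝ) ≤ d := Nat.cast_nonneg d
    nlinarith
  linarith

section shift

variable {P P' : Par} {b : ℝ} {n : ℕ} {ε Y : ℝ}

/-- the zero background number on all tori above the base torus -/
lemma yb_all {τ : ℝ} (hth : P.th ≤ P'.th) (hes : P'.es ≤ P.es)
    (hεs : ε ≤ P.es) (h1 : ε ≤ Y)
    (hY : ∀ e, ε ≤ e → e ≤ P.es → ∀ r, n + P.kE e ≤ r → yt (2 ^ r) b τ ≤ max Y e)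
    (d : ℕ) {e : ℝ} (he : 0 < e) (he' : e ≤ P'.es) {r : ℕ} (hr : n + d + P'.kE e ≤ r) :
    yt (2 ^ r) b τ ≤ max Y (e * (2 : ℝ) ^ (-((d : ℝ) / P.th))) := by
  set f : ℝ := e * (2 : ℝ) ^ (-((d : ℝ) / P.th)) with hf
  have hth0 := P.th0
  have h2 : (0 : ℝ) < (2 : ℝ) ^ (-((d : ℝ) / P.th)) := by positivity
  have hf0 : 0 < f := mul_pos he h2
  have hfe : f ≤ e := by
    have h3 : (2 : ℝ) ^ (-((d : ℝ) / P.th)) ≤ 1 := by
      apply Real.rpow_le_one_of_one_le_of_nonpos (by norm_num)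
      have : 0 ≤ (d : ℝ) / P.th := by positivity
      linarith
    calc f ≤ e * 1 := mul_le_mul_of_nonneg_left h3 he.le
      _ = e := mul_one e
  have h3 : P.kE f ≤ P'.kE e + d := by
    refine (lg_shift hth0 he d).trans ?_
    have h4 : lg P.th e ≤ P'.kE e := by
      show lg P.th e ≤ lg P'.th e
      unfold lg
      apply Nat.ceil_mono
      apply mul_le_mul_of_nonneg_right hth
      apply Real.logb_nonneg one_lt_two
      rw [le_div_iff₀ he, one_mul]
      exact he'.trans (P'.es1.trans (by norm_num))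
    omega
  rcases le_or_gt ε f with h5 | h5
  · exact hY f h5 (hfe.trans (he'.trans hes)) r (by omega)
  · have h6 : P.kE ε ≤ P.kE f := lg_anti hth0.le hf0 h5.le
    have h7 := hY ε le_rfl hεs r (by omega)
    rw [max_eq_left h1] at h7
    exact h7.trans (le_max_left _ _)

/-- **the zero background number of the second parameter, every size, every later level** -/
theorem ybn_shift (hb : 0 < b) (hth : P.th ≤ P'.th) (hth2 : P.th ≤ 1 / 2) (hes : P'.es ≤ P.es)
    (hεs : ε ≤ P.es) (h1 : ε ≤ Y) (hY : YBn P b n ε Y) (d : ℕ) {e : ℝ}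
    (he : 0 < e) : YBn P' b (n + d) e (4 ^ d * Y) := by
  have h4 : (0 : ℝ) < 4 ^ d := by positivity
  have hT : (4 : ℝ) ^ d * tn (n + d) = tn n := by
    unfold tn
    rw [pow_add]
    field_simp
  have key : ∀ (s : ℝ), 0 < s →
      (∀ e, ε ≤ e → e ≤ P.es → ∀ r, n + P.kE e ≤ r → yt (2 ^ r) b (s * tn n) ≤ max Y e) →
      ∀ e', e ≤ e' → e' ≤ P'.es → ∀ r, n + d + P'.kE e' ≤ r →
        yt (2 ^ r) b (s * tn (n + d)) ≤ max (4 ^ d * Y) e' := by
    intro s hs hYs e' he1 he2 r hr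
    have he'0 : 0 < e' := he.trans_le he1
    have h5 := yb_all hth hes hεs h1 hYs d he'0 he2 hr
    have h6 : s * tn (n + d) ≤ s * tn n := by
      apply mul_le_mul_of_nonneg_left _ hs.le
      rw [← hT]
      have h7 : (1 : ℝ) ≤ 4 ^ d := one_le_pow₀ (by norm_num)
      have h8 := tn_pos (n + d)
      nlinarith
    have h7 := yt_mass (N := 2 ^ r) hb (mul_pos hs (tn_pos (n + d))) h6
    have h8 : s * tn n / (s * tn (n + d)) = 4 ^ d := by
      rw [← hT]
      have := (tn_pos (n + d)).ne'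
      field_simp
    rw [h8] at h7
    refine h7.trans ((mul_le_mul_of_nonneg_left h5 h4.le).trans ?_)
    rw [mul_max_of_nonneg _ _ h4.le]
    refine max_le_max le_rfl ?_
    have h9 := mul_le_mul_of_nonneg_left (four_shift P.th0 hth2 d) he'0.le
    calc (4 : ℝ) ^ d * (e' * (2 : ℝ) ^ (-((d : ℝ) / P.th))) =
        e' * (4 ^ d * (2 : ℝ) ^ (-((d : ℝ) / P.th))) := by ring
      _ ≤ e' * 1 := h9
      _ = e' := mul_one _
  refine ⟨mul_pos h4 hY.1, ?_, ?_⟩
  · have h5 := key 1 one_pos (by simpa using hY.2.1)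
    simpa using h5
  · exact key 4 (by norm_num) hY.2.2

/-- monotonicity in the number -/
lemma ybn_mono {Y' : ℝ} (h : YBn P b n ε Y) (hY : Y ≤ Y') : YBn P b n ε Y' :=
  ⟨h.1.trans_le hY, fun e h1 h2 r hr => (h.2.1 e h1 h2 r hr).trans (max_le_max hY le_rfl),
    fun e h1 h2 r hr => (h.2.2 e h1 h2 r hr).trans (max_le_max hY le_rfl)⟩

/-- splitting of a length `L ≥ w` into steps between `w` and `2 w` -/
lemma split_induct {w : ℕ} (hw : 1 ≤ w) {T : ℕ → Prop} (h0 : T 0)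
    (h : ∀ d L, T d → w ≤ L → L ≤ 2 * w → T (d + L)) :
    ∀ k, T (k * w) ∧ (1 ≤ k → ∀ d, k * w ≤ d → d ≤ (k + 1) * w → T d) := by
  intro k
  induction k with
  | zero => exact ⟨by simpa using h0, fun hk => absurd hk (by norm_num)⟩
  | succ k ih =>
    obtain ⟨i1, -⟩ := ih
    refine ⟨?_, fun _ d hd1 hd2 => ?_⟩
    · have := h (k * w) w i1 le_rfl (by omega)
      rwa [← Nat.succ_mul] at this
    · have e1 : (k + 1) * w = k * w + w := Nat.succ_mul k w
      have e2 : (k + 1 + 1) * w = k * w + 2 * w := by ring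
      have h2 := h (k * w) (d - k * w) i1 (by omega) (by omega)
      rwa [Nat.add_sub_cancel' (by omega)] at h2

/-- **the step of the second state inside one window of the first one** -/
theorem substep {sg' : ℝ} {N0 : ℕ} (hb : 0 < b) (hth : P.th ≤ P'.th) (hth2 : P.th ≤ 1 / 2)
    (hes : P'.es ≤ P.es) (hsg : 0 ≤ sg') (st : StepP' P' b sg' N0) (hn : N0 ≤ n)
    (hεs : ε ≤ P.es) (h1 : ε ≤ Y) (hY : YBn P b n ε Y) {e : ℝ} (he0 : 0 < e)
    (hg : Good P' b n e) (he : e ≤ P'.es) (hw : P'.w e ≤ P.w ε)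
    (hYe : e ^ (-sg') * (4 ^ (4 * P.w ε) * Y) ^ 2 ≤ e) {m : ℕ} (hm1 : n + P.w ε ≤ m)
    (hm2 : m ≤ n + 4 * P.w ε) :
    Good P' b m (max (e / 2) (e ^ (-sg') * (4 ^ (4 * P.w ε) * Y) ^ 2)) := by
  set w' : ℕ := P'.w e with hw'
  have hw1 : 1 ≤ w' := H972.w1 he0 he
  set Z : ℝ := 4 ^ (4 * P.w ε) * Y with hZ
  have hY0 : 0 < Y := hY.1
  have he1 : e ≤ 1 := he.trans (P'.es1.trans (by norm_num))
  have hZ2 : Z ^ 2 ≤ e := by
    refine le_trans ?_ hYe
    have h2 : 1 ≤ e ^ (-sg') := Real.one_le_rpow_of_pos_of_le_one_of_nonpos he0 he1 (by linarith)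
    nlinarith [sq_nonneg Z]
  have hmax : max (e / 2) (e ^ (-sg') * Z ^ 2) ≤ e := max_le (by linarith) hYe
  have hstep : ∀ d L, d ≤ 4 * P.w ε → Good P' b (n + d) e → w' ≤ L → L ≤ 4 * w' →
      Good P' b (n + d + L) (max (e / 2) (e ^ (-sg') * Z ^ 2)) := by
    intro d L hd hG hL1 hL2
    have h2 : YBn P' b (n + d) e Z := by
      refine ybn_mono (ybn_shift hb hth hth2 hes hεs h1 hY d he0) ?_
      rw [hZ]
      gcongr
      norm_num
    exact st (n + d) (n + d + L) e Z (by omega) hG h2 hZ2 he (by omega) (by omega)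
  set T : ℕ → Prop := fun d => d ≤ 4 * P.w ε → Good P' b (n + d) e with hT
  have hind := split_induct (w := w') hw1 (T := T) (fun _ => by simpa using hg)
    (fun d L hd hL1 hL2 hdL => by
      have h2 := hstep d L (by omega) (hd (by omega)) hL1 (by omega)
      rw [add_assoc] at h2
      exact h2.mono hmax)
  obtain ⟨L, hL⟩ : ∃ L, m = n + L := ⟨m - n, by omega⟩
  subst hL
  have hLw : w' ≤ L := by omega
  -- the last step
  obtain ⟨j, hk2, hk3⟩ : ∃ j, (j + 1) * w' ≤ L ∧ L < (j + 1 + 1) * w' := by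
    have hk1 : 1 ≤ L / w' := (Nat.one_le_div_iff (by omega)).2 hLw
    have hk2 : L / w' * w' ≤ L := Nat.div_mul_le_self L w'
    have hk3 : L < (L / w' + 1) * w' := by
      have := Nat.lt_div_mul_add (a := L) (b := w') (by omega)
      rw [Nat.succ_mul]
      exact this
    refine ⟨L / w' - 1, ?_, ?_⟩
    · rwa [Nat.sub_add_cancel hk1]
    · rwa [Nat.sub_add_cancel hk1]
  have e1 : (j + 1) * w' = j * w' + w' := Nat.succ_mul j w'
  have e2 : (j + 1 + 1) * w' = j * w' + 2 * w' := by ring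
  have h3 := (hind j).1 (by omega)
  have h4 := hstep (j * w') (L - j * w') (by omega) h3 (by omega) (by omega)
  rwa [add_assoc, Nat.add_sub_cancel' (by omega)] at h4

end shift

section snd

variable {P P' : Par} {b σ σ2 c c1 sg' : ℝ} {VS : ℕ → ℝ → ℝ → Prop} {u : ℕ → ℝ}

/-- numbers of the second state at a locked state -/
lemma snd_num (hthp : 8 * P'.thp ≤ P.thp) (hsg : 0 ≤ sg') (hc : 0 ≤ c) (hσ0 : 0 < σ)
    (hσ1 : σ ≤ 1 / 4) (hs0 : 0 < σ2) {ε y e : ℝ} (hy : 0 < y) (hy1 : y ≤ 1)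
    (hlo : y ^ (2 - σ) ≤ ε) (hup : ε ≤ y ^ (2 - 3 * σ)) (hlo2 : y ^ (2 - 3 * σ2) ≤ e)
    (hd : 65536 * y ^ (2 * σ2 - 32 * P.thp - 4 * c - 2 * sg') ≤ 1) :
    ε ≤ ε ^ (-c) * y ∧ P'.w e ≤ P.w ε ∧
      e ^ (-sg') * (4 ^ (4 * P.w ε) * (ε ^ (-c) * y)) ^ 2 ≤ y ^ (2 - 2 * σ2) := by
  have hε : 0 < ε := (Real.rpow_pos_of_pos hy _).trans_le hlo
  have he : 0 < e := (Real.rpow_pos_of_pos hy _).trans_le hlo2
  have hthp0 := P.thp0
  have hthp0' := P'.thp0
  have hεy : ε ≤ y := by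
    refine hup.trans ?_
    conv_rhs => rw [← Real.rpow_one y]
    exact Real.rpow_le_rpow_of_exponent_ge hy hy1 (by linarith)
  have hε1 : ε ≤ 1 := hεy.trans hy1
  -- logarithms
  set L : ℝ := Real.logb 2 (1 / y) with hL
  have hL0 : 0 ≤ L := Real.logb_nonneg one_lt_two (by rw [le_div_iff₀ hy]; linarith)
  have hlogp : ∀ s : ℝ, Real.logb 2 (1 / y ^ s) = s * L := by
    intro s
    rw [hL, one_div, one_div, Real.logb_inv, Real.logb_inv, Real.logb_rpow_eq_mul_logb_of_pos hy]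
    ring
  have hle : Real.logb 2 (1 / e) ≤ 2 * L := by
    have h2 : Real.logb 2 (1 / e) ≤ Real.logb 2 (1 / y ^ (2 - 3 * σ2)) :=
      Real.logb_le_logb_of_le one_lt_two (by positivity)
        (one_div_le_one_div_of_le (Real.rpow_pos_of_pos hy _) hlo2)
    rw [hlogp] at h2
    nlinarith
  have hlε : Real.logb 2 (1 / ε) ≤ 2 * L := by
    have h2 : Real.logb 2 (1 / ε) ≤ Real.logb 2 (1 / y ^ (2 - σ)) :=
      Real.logb_le_logb_of_le one_lt_two (by positivity)
        (one_div_le_one_div_of_le (Real.rpow_pos_of_pos hy _) hlo)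
    rw [hlogp] at h2
    nlinarith
  have hlε' : L ≤ Real.logb 2 (1 / ε) := by
    have h2 : Real.logb 2 (1 / y) ≤ Real.logb 2 (1 / ε) :=
      Real.logb_le_logb_of_le one_lt_two (by positivity) (one_div_le_one_div_of_le hε hεy)
    exact h2
  refine ⟨?_, ?_, ?_⟩
  · have h2 : 1 ≤ ε ^ (-c) := Real.one_le_rpow_of_pos_of_le_one_of_nonpos hε hε1 (by linarith)
    nlinarith
  · show lg P'.thp e ≤ lg P.thp ε
    unfold lg
    apply Nat.ceil_mono
    have h2 : P'.thp * Real.logb 2 (1 / e) ≤ P'.thp * (2 * L) :=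
      mul_le_mul_of_nonneg_left hle hthp0'.le
    have h3 : P'.thp * (2 * L) ≤ P.thp * L := by nlinarith
    have h4 : P.thp * L ≤ P.thp * Real.logb 2 (1 / ε) := mul_le_mul_of_nonneg_left hlε' hthp0.le
    linarith
  · -- the window
    have hW : (P.w ε : ℝ) ≤ 2 * P.thp * L + 1 := by
      have h2 : (P.w ε : ℝ) ≤ P.thp * Real.logb 2 (1 / ε) + 1 :=
        (Nat.ceil_lt_add_one (mul_nonneg hthp0.le (hL0.trans hlε'))).le
      have h3 := mul_le_mul_of_nonneg_left hlε hthp0.le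
      linarith
    have h2L : (2 : ℝ) ^ L = y⁻¹ := by
      rw [hL, one_div, Real.rpow_logb two_pos (by norm_num) (by positivity)]
    have h4 : ((4 : ℝ) ^ (4 * P.w ε)) ^ 2 ≤ 65536 * y ^ (-(32 * P.thp)) := by
      have e1 : ((4 : ℝ) ^ (4 * P.w ε)) ^ 2 = (2 : ℝ) ^ (16 * (P.w ε : ℝ)) := by
        rw [show (4 : ℝ) = 2 ^ 2 by norm_num, ← pow_mul, ← pow_mul, ← Real.rpow_natCast]
        congr 1
        push_cast
        ring
      have e2 : (2 : ℝ) ^ (16 * (P.w ε : ℝ)) ≤ (2 : ℝ) ^ (16 * (2 * P.thp * L + 1)) :=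
        Real.rpow_le_rpow_of_exponent_le (by norm_num) (by linarith)
      have e3 : (2 : ℝ) ^ (16 * (2 * P.thp * L + 1)) = 65536 * y ^ (-(32 * P.thp)) := by
        have e4 : 16 * (2 * P.thp * L + 1) = L * (32 * P.thp) + 16 := by ring
        rw [e4, Real.rpow_add two_pos, Real.rpow_mul two_pos.le, h2L,
          show (16 : ℝ) = ((16 : ℕ) : ℝ) by norm_num, Real.rpow_natCast, Real.inv_rpow hy.le,
          ← Real.rpow_neg hy.le]
        norm_num
        ring
      rw [e1]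
      exact e2.trans e3.le
    have h5 : (ε ^ (-c)) ^ 2 ≤ y ^ (-(4 * c)) := by
      have e1 : (ε ^ (-c)) ^ 2 = ε ^ (-(2 * c)) := by
        rw [← Real.rpow_natCast, ← Real.rpow_mul hε.le]
        congr 1
        push_cast
        ring
      have e2 : y ^ (2 : ℝ) ≤ ε :=
        (Real.rpow_le_rpow_of_exponent_ge hy hy1 (by linarith)).trans hlo
      rw [e1]
      refine (Real.rpow_le_rpow_of_nonpos (Real.rpow_pos_of_pos hy _) e2 (by linarith)).trans ?_
      rw [← Real.rpow_mul hy.le]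
      apply le_of_eq
      congr 1
      ring
    have h6 : e ^ (-sg') ≤ y ^ (-(2 * sg')) := by
      have e2 : y ^ (2 : ℝ) ≤ e :=
        (Real.rpow_le_rpow_of_exponent_ge hy hy1 (by linarith)).trans hlo2
      refine (Real.rpow_le_rpow_of_nonpos (Real.rpow_pos_of_pos hy _) e2 (by linarith)).trans ?_
      rw [← Real.rpow_mul hy.le]
      apply le_of_eq
      congr 1
      ring
    have h7 : y ^ 2 = y ^ (2 : ℝ) := (Real.rpow_two y).symm
    calc e ^ (-sg') * (4 ^ (4 * P.w ε) * (ε ^ (-c) * y)) ^ 2 =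
        e ^ (-sg') * (((4 : ℝ) ^ (4 * P.w ε)) ^ 2 * ((ε ^ (-c)) ^ 2 * y ^ 2)) := by ring
      _ ≤ y ^ (-(2 * sg')) * ((65536 * y ^ (-(32 * P.thp))) * (y ^ (-(4 * c)) * y ^ 2)) := by
          gcongr
      _ = (65536 * y ^ (2 * σ2 - 32 * P.thp - 4 * c - 2 * sg')) * y ^ (2 - 2 * σ2) := by
          rw [h7]
          have e3 : y ^ (-(2 * sg')) * ((65536 * y ^ (-(32 * P.thp))) *
              (y ^ (-(4 * c)) * y ^ (2 : ℝ))) =
              65536 * (y ^ (-(2 * sg')) * y ^ (-(32 * P.thp)) * y ^ (-(4 * c)) *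
                y ^ (2 : ℝ)) := by ring
          have e4 : (65536 * y ^ (2 * σ2 - 32 * P.thp - 4 * c - 2 * sg')) * y ^ (2 - 2 * σ2) =
              65536 * (y ^ (2 * σ2 - 32 * P.thp - 4 * c - 2 * sg') * y ^ (2 - 2 * σ2)) := by ring
          rw [e3, e4, ← Real.rpow_add hy, ← Real.rpow_add hy, ← Real.rpow_add hy,
            ← Real.rpow_add hy]
          congr 2
          ring
      _ ≤ 1 * y ^ (2 - 2 * σ2) :=
          mul_le_mul_of_nonneg_right hd (Real.rpow_nonneg hy.le _)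
      _ = _ := one_mul _

/-- **the second state `Good P' b` is driven by the locked states of `P`** -/
theorem snd_of (hb : 0 < b) (hth : P.th ≤ P'.th) (hth2 : P.th ≤ 1 / 2)
    (hthp : 8 * P'.thp ≤ P.thp) (hes : P'.es ≤ P.es) (hsg : 0 ≤ sg') (hc : 0 ≤ c) (hσ0 : 0 < σ)
    (hσ1 : σ ≤ 1 / 4) (hs0 : 0 < σ2) (hs1 : σ2 ≤ 1 / 4)
    (hx : 32 * P.thp + 4 * c + 2 * sg' < 2 * σ2) (hst : StartP P' b)
    (hstep : ∀ᶠ N0 in atTop, StepP' P' b sg' N0) :
    Snd (Good P' b) (MS (Good P b) (YBn P b) VS u c) P.w σ σ2 P.es c1 P'.es := by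
  obtain ⟨N0, hN0⟩ := hstep.exists
  obtain ⟨d, hd, hpow⟩ := small_pow (a := 2 * σ2 - 32 * P.thp - 4 * c - 2 * sg')
    (c := 1 / 65536) (by linarith) (by norm_num)
  refine ⟨hs0, hs1, P'.es0, fun _ _ _ h1 h2 => h1.mono h2, fun e he hes' => ?_, N0, min d 1,
    lt_min hd one_pos, ?_⟩
  · obtain ⟨n0, h⟩ := hst.good he hes'
    exact eventually_atTop.2 ⟨n0, h⟩
  · intro n m ε y e hn hS hy hyd hlo hup hεs _ hm1 hm2 hG he1 he2
    have hy1 : y ≤ 1 := hyd.trans (min_le_right _ _)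
    have he : 0 < e := (Real.rpow_pos_of_pos hy _).trans_le he1
    have hp := hpow y hy.le (hyd.trans (min_le_left _ _))
    obtain ⟨a1, a2, a3⟩ := snd_num hthp hsg hc hσ0 hσ1 hs0 hy hy1 hlo hup he1 (by
        rw [le_div_iff₀ (by norm_num)] at hp
        linarith)
    have h5 : y ^ (2 - 2 * σ2) ≤ y ^ (2 - 3 * σ2) :=
      Real.rpow_le_rpow_of_exponent_ge hy hy1 (by linarith)
    have h6 := substep hb hth hth2 hes hsg hN0 hn hεs a1 hS.Y he hG he2 a2
      (a3.trans (h5.trans he1)) hm1 hm2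
    exact h6.mono (max_le_max le_rfl a3)

end snd

end Vale.Agent.P159.H801
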