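import Vale.Agent.P159.H801.Ind5

/-!
P159 (helper801): the sharp relation (P) with a sharp letter attached to the state
(form proposed by helper114): stability of the flow structures under a change of the letter `x`
of size `y^q2`, `q2 > 1`, and T3 for the sharp letters.
-/

open Filter Topology Finset

namespace Vale.Agent.P159.H801

variable {x x' y : ℕ → ℝ} {κ B c r q : ℝ} {N : ℕ} {w : ℕ → ℕ}

/-- `y (n+1) ≤ 2 y n` eventually -/
lemma Fl.y_dbl (h : Fl x y κ c r q N) : ∀ᶠ n in atTop, y (n + 1) ≤ 2 * y n := by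
  have hκ := h.κ0
  have h1 : Tendsto (fun n => κ * |x n|) atTop (𝓝 0) := by
    have := h.xt.abs.const_mul κ
    simpa using this
  have e1 := h1.eventually (gt_mem_nhds (show (0 : ℝ) < 1 / 4 by norm_num))
  have e2 := h.ev_pow (b := 1 + c) (e := 1 / 4) (by have := h.c0; linarith) (by norm_num)
  filter_upwards [e1, e2, eventually_ge_atTop N] with n a1 a2 hn
  have h2 := (abs_le.1 (h.V n hn)).2
  have h3 : -(κ * x n) ≤ κ * |x n| := by
    have := neg_abs_le (x n)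
    nlinarith
  have h4 : Real.log (y (n + 1)) ≤ Real.log (y n) + 1 / 2 := by linarith
  have h5 := Real.exp_le_exp.2 h4
  rw [Real.exp_add, Real.exp_log (h.y0 _), Real.exp_log (h.y0 _)] at h5
  have h7 : Real.exp (1 / 2) ≤ 2 := by
    have h8 := Real.add_one_le_exp (-(1 / 2 : ℝ))
    have h9 : Real.exp (1 / 2) * Real.exp (-(1 / 2)) = 1 := by
      rw [← Real.exp_add]; norm_num
    nlinarith [Real.exp_pos (1 / 2 : ℝ)]
  have h8 := mul_le_mul_of_nonneg_left h7 (h.y0 n).le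
  linarith

/-- **stability of the flow structure** under a small change of `x` -/
theorem Fl.change (h : Fl x y κ c r q N) {q2 c' r' q' : ℝ}
    (hx : ∀ n, N ≤ n → |x' n - x n| ≤ y n ^ q2)
    (hc0 : 0 < c') (hc1 : c' < c) (hc2 : 1 + c' < q2) (hr0 : 0 < r') (hr1 : r' < r)
    (hr2 : r' < q2) (hq0 : 0 < q') (hq1 : q' < q) (hq2 : q' < q2) :
    ∃ N', N ≤ N' ∧ Fl x' y κ c' r' q' N' := by
  have hκ := h.κ0
  have hq21 : 0 < q2 := by linarith
  have e0 := h.ev_one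
  have e1 := h.ev_pow (b := q - q') (e := 1 / 2) (by linarith) (by norm_num)
  have e2 := h.ev_pow (b := q2 - q') (e := 1 / 2) (by linarith) (by norm_num)
  have e3 := h.ev_pow (b := c - c') (e := 1 / 2) (by linarith) (by norm_num)
  have e4 := h.ev_pow (b := q2 - (1 + c')) (e := 1 / (2 * κ)) (by linarith) (by positivity)
  have e5 := h.ev_pow (b := r - r') (e := 1 / 2) (by linarith) (by norm_num)
  have h2q : (0 : ℝ) < 1 + 2 ^ q2 := by positivity
  have e6 := h.ev_pow (b := q2 - r') (e := 1 / (2 * (1 + 2 ^ q2))) (by linarith) (by positivity)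
  obtain ⟨N1, hN1⟩ := eventually_atTop.1
    (e0.and (e1.and (e2.and (e3.and (e4.and (e5.and (e6.and h.y_dbl)))))))
  refine ⟨max N N1, le_max_left _ _, ⟨h.κ0, hc0, hr0, hq0, by linarith [h.q1], h.y0, ?_, ?_, ?_,
    h.yt⟩⟩
  · intro n hn
    obtain ⟨f0, f1, f2, f3, f4, f5, f6, f7⟩ := hN1 n ((le_max_right _ _).trans hn)
    have hn' := (le_max_left _ _).trans hn
    have a1 := absorb (u := q) (v := q') (h.y0 n) f1
    have a2 := absorb (u := q2) (v := q') (h.y0 n) f2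
    have a3 := hx n hn'
    have a4 := h.xq n hn'
    have a5 := abs_add_le (x' n - x n) (x n)
    rw [sub_add_cancel] at a5
    linarith
  · intro n hn
    obtain ⟨f0, f1, f2, f3, f4, f5, f6, f7⟩ := hN1 n ((le_max_right _ _).trans hn)
    have hn' := (le_max_left _ _).trans hn
    have a1 := absorb (u := 1 + c) (v := 1 + c') (k := 1 / 2) (h.y0 n)
      (by rw [show 1 + c - (1 + c') = c - c' by ring]; exact f3)
    have a2 := absorb (u := q2) (v := 1 + c') (h.y0 n) f4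
    have a3 := hx n hn'
    have a4 := h.V n hn'
    have a5 : Real.log (y (n + 1)) - Real.log (y n) + κ * x' n =
        (Real.log (y (n + 1)) - Real.log (y n) + κ * x n) + κ * (x' n - x n) := by ring
    rw [a5]
    have a6 := abs_add_le (Real.log (y (n + 1)) - Real.log (y n) + κ * x n) (κ * (x' n - x n))
    rw [abs_mul, abs_of_pos hκ] at a6
    have a7 : κ * |x' n - x n| ≤ κ * (1 / (2 * κ) * y n ^ (1 + c')) :=
      mul_le_mul_of_nonneg_left (a3.trans a2) hκ.le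
    have a8 : κ * (1 / (2 * κ) * y n ^ (1 + c')) = 1 / 2 * y n ^ (1 + c') := by
      field_simp
    linarith
  · intro n hn
    obtain ⟨f0, f1, f2, f3, f4, f5, f6, f7⟩ := hN1 n ((le_max_right _ _).trans hn)
    have hn' := (le_max_left _ _).trans hn
    have a1 := absorb (u := r) (v := r') (h.y0 n) f5
    have a2 := absorb (u := q2) (v := r') (h.y0 n) f6
    have a3 := hx n hn'
    have a4 := hx (n + 1) (hn'.trans (Nat.le_succ _))
    have a5 := h.X n hn'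
    have a6 : y (n + 1) ^ q2 ≤ 2 ^ q2 * y n ^ q2 := by
      rw [← Real.mul_rpow (by norm_num) (h.y0 n).le]
      exact Real.rpow_le_rpow (h.y0 _).le f7 hq21.le
    have a7 : x' (n + 1) - x' n = (x' (n + 1) - x (n + 1)) - (x' n - x n) + (x (n + 1) - x n) := by
      ring
    rw [a7]
    have a8 := abs_add_le ((x' (n + 1) - x (n + 1)) - (x' n - x n)) (x (n + 1) - x n)
    have a9 := abs_sub (x' (n + 1) - x (n + 1)) (x' n - x n)
    have b1 : (1 + 2 ^ q2) * y n ^ q2 ≤ 1 / 2 * y n ^ r' := by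
      have b2 := mul_le_mul_of_nonneg_left a2 h2q.le
      have b3 : (1 + 2 ^ q2) * (1 / (2 * (1 + 2 ^ q2)) * y n ^ r') = 1 / 2 * y n ^ r' := by
        field_simp
      linarith
    linarith

/-- windows are stable -/
lemma Wn.mono {N' : ℕ} (h : Wn y w B N) (hN : N ≤ N') : Wn y w B N' :=
  ⟨h.B0, fun n hn => h.w1 n (hN.trans hn), fun n hn => h.wB n (hN.trans hn)⟩

/-- the hypotheses which accompany a state -/
structure Hst (S : ℕ → ℝ → ℝ → Prop) (σ es c1 : ℝ) (N0 n : ℕ) (ε y : ℝ) : Prop where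
  hN : N0 ≤ n
  hS : S n ε y
  sg : y ^ (2 - σ) ≤ ε
  he : ε ≤ es
  sh : ε ≤ y ^ (2 - 4 * σ)
  hv : Real.log (1 / y) ≤ ε ^ (-c1)

/-- **(P) with a sharp letter**: `Sl n ε y s` means that `s` is the sharp letter of the state -/
structure SLP (S : ℕ → ℝ → ℝ → Prop) (x : ℕ → ℝ) (w : ℝ → ℕ) (σ es c1 A q2 : ℝ) (N0 : ℕ)
    (Sl : ℕ → ℝ → ℝ → ℝ → Prop) : Prop where
  q21 : 1 < q2
  ex : ∃ e, 0 < e ∧ ∀ n ε y, Hst S σ es c1 N0 n ε y → y ≤ e → ∃ s, Sl n ε y s
  near : ∃ e, 0 < e ∧ ∀ n ε y s, Hst S σ es c1 N0 n ε y → y ≤ e → Sl n ε y s →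
    |s - x n| ≤ y ^ q2
  P : ∀ η, 0 < η → ∃ e, 0 < e ∧ ∀ n m ε ε' y y' s s', Hst S σ es c1 N0 n ε y →
    Hst S σ es c1 N0 m ε' y' → m = n + w ε → y ≤ e → y' ≤ e →
    |Real.log y' - Real.log y| ≤ 1 → Sl n ε y s → Sl m ε' y' s' →
    |s - s' - A * (w ε * y ^ 2)| ≤ η * (w ε * y ^ 2)

/-- **T3 for the sharp letters** -/
theorem T3_of_sl {S : ℕ → ℝ → ℝ → Prop} {w : ℝ → ℕ} {σ p p1 v1 es c1 A q2 : ℝ} {N0 : ℕ}
    {Sl : ℕ → ℝ → ℝ → ℝ → Prop}
    (h : Ind5 S x w κ B σ p p1 v1 es c1 N0) (st : Start5 S σ c1)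
    (hx : Tendsto x atTop (𝓝 0))
    (h1 : 1 < (2 - 3 * σ) * p1) (h2 : 1 < (2 - 3 * σ) * v1) (hA : 0 < A)
    (hP : SLP S x w σ es c1 A q2 N0 Sl) :
    ∃ (y ε xs : ℕ → ℝ) (c r q : ℝ) (N : ℕ), N0 ≤ N ∧ Fl x y κ c r q N ∧ 1 < r ∧
      T3 xs y κ c r q (2 * B) A (fun n => w (ε n)) N ∧
      (∀ n, N ≤ n → |xs n - x n| ≤ y n ^ q2) ∧ (∀ n, N ≤ n → Sl n (ε n) (y n) (xs n)) ∧
      ∀ n, N ≤ n → Hst S σ es c1 N0 n (ε n) (y n) ∧ y n ≤ 1 := by
  have hσ0 := h.σ0
  have hσ1 := h.σ1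
  have hp0 := h.p0
  have hq2 := hP.q21
  obtain ⟨c, hc, hc1, hc2⟩ := exists_room h1 h2
  have hq0 : 0 < min 1 ((2 - 4 * σ) * p) := lt_min one_pos (mul_pos (by linarith) hp0)
  obtain ⟨y, ε, N, hN, hfl, hwn, hG⟩ := fl_of_ind5 h st hx (c := c) (r := 1 + c)
    (q := min 1 ((2 - 4 * σ) * p)) hc (by linarith) hq0 (min_le_left _ _) (min_le_right _ _)
    hc1 hc2 hc1
  have hH : ∀ n, N ≤ n → Hst S σ es c1 N0 n (ε n) (y n) ∧ y n ≤ 1 := fun n hn => by
    obtain ⟨a1, a2, a3, a4, a5, a6⟩ := hG n hn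
    exact ⟨⟨hN.trans hn, a1, a2, a3, a4, a5⟩, a6⟩
  obtain ⟨e1, he1, hex⟩ := hP.ex
  obtain ⟨e2, he2, hnr⟩ := hP.near
  obtain ⟨N1, hN1⟩ := eventually_atTop.1 ((hfl.yt.eventually (gt_mem_nhds he1)).and
    (hfl.yt.eventually (gt_mem_nhds he2)))
  -- the letters
  have key : ∀ n, ∃ s : ℝ, max N N1 ≤ n → Sl n (ε n) (y n) s := by
    intro n
    by_cases hn : max N N1 ≤ n
    · obtain ⟨s, hs⟩ := hex n _ _ (hH n ((le_max_left _ _).trans hn)).1
        (hN1 n ((le_max_right _ _).trans hn)).1.le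
      exact ⟨s, fun _ => hs⟩
    · exact ⟨0, fun h => absurd h hn⟩
  choose xs hxs using key
  have hnear : ∀ n, max N N1 ≤ n → |xs n - x n| ≤ y n ^ q2 := fun n hn =>
    hnr n _ _ _ (hH n ((le_max_left _ _).trans hn)).1
      (hN1 n ((le_max_right _ _).trans hn)).2.le (hxs n hn)
  have hfl' : Fl x y κ c (1 + c) (min 1 ((2 - 4 * σ) * p)) (max N N1) :=
    ⟨hfl.κ0, hfl.c0, hfl.r0, hfl.q0, hfl.q1, hfl.y0,
      fun n hn => hfl.xq n ((le_max_left _ _).trans hn),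
      fun n hn => hfl.V n ((le_max_left _ _).trans hn),
      fun n hn => hfl.X n ((le_max_left _ _).trans hn), hfl.yt⟩
  -- smaller exponents
  set c' : ℝ := min c (q2 - 1) / 2 with hc'
  have hm0 : 0 < min c (q2 - 1) := lt_min hc (by linarith)
  have hm1 := min_le_left c (q2 - 1)
  have hm2 := min_le_right c (q2 - 1)
  set q' : ℝ := min 1 ((2 - 4 * σ) * p) / 2 with hq'
  have hq1' : min 1 ((2 - 4 * σ) * p) ≤ 1 := min_le_left _ _
  have hc'0 : 0 < c' := by rw [hc']; positivity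
  have hc'c : c' < c := by rw [hc']; linarith
  have hc'q : 1 + c' < q2 := by rw [hc']; linarith
  have hq'0 : 0 < q' := by rw [hq']; positivity
  have hq'q : q' < min 1 ((2 - 4 * σ) * p) := by rw [hq']; linarith
  have hq'2 : q' < q2 := by rw [hq']; linarith
  obtain ⟨N2, hN2, hflx⟩ := hfl'.change (x' := xs) (q2 := q2) (c' := c') (r' := 1 + c')
    (q' := q') hnear hc'0 hc'c hc'q (by linarith) (by linarith) hc'q hq'0 hq'q hq'2
  have hflo : Fl x y κ c' (1 + c') q' N2 := by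
    have hN2' : N ≤ N2 := (le_max_left _ _).trans hN2
    have hy1 : ∀ n, N2 ≤ n → y n ≤ 1 := fun n hn => (hH n (hN2'.trans hn)).2
    refine ⟨hfl.κ0, hc'0, by linarith, hq'0, by linarith, hfl.y0, ?_, ?_, ?_, hfl.yt⟩
    · intro n hn
      exact (hfl.xq n (hN2'.trans hn)).trans
        (Real.rpow_le_rpow_of_exponent_ge (hfl.y0 n) (hy1 n hn) hq'q.le)
    · intro n hn
      exact (hfl.V n (hN2'.trans hn)).trans
        (Real.rpow_le_rpow_of_exponent_ge (hfl.y0 n) (hy1 n hn) (by linarith))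
    · intro n hn
      exact (hfl.X n (hN2'.trans hn)).trans
        (Real.rpow_le_rpow_of_exponent_ge (hfl.y0 n) (hy1 n hn) (by linarith))
  have hNN2 : N ≤ N2 := (le_max_left _ _).trans hN2
  refine ⟨y, ε, xs, c', 1 + c', q', N2, hN.trans hNN2, hflo, by linarith,
    ⟨hflx, hwn.mono hNN2, by linarith, hA, fun η hη => ?_⟩,
    fun n hn => hnear n (hN2.trans hn), fun n hn => hxs n (hN2.trans hn),
    fun n hn => hH n (hNN2.trans hn)⟩
  -- the sharp relation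
  obtain ⟨e3, he3, hPe⟩ := hP.P η hη
  have hev := hfl.yt.eventually (gt_mem_nhds he3)
  obtain ⟨N4, hN4⟩ := eventually_atTop.1 (hev.and (hfl.var hwn one_pos))
  filter_upwards [eventually_ge_atTop (max N2 N4)] with n hn
  have hn2 : N2 ≤ n := (le_max_left _ _).trans hn
  have hn4 : N4 ≤ n := (le_max_right _ _).trans hn
  have hNn : N ≤ n := hNN2.trans hn2
  have hm1 : n ≤ n + w (ε n) := Nat.le_add_right _ _
  exact hPe n (n + w (ε n)) _ _ _ _ _ _ (hH n hNn).1 (hH _ (hNn.trans hm1)).1 rfl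
    (hN4 n hn4).1.le (hN4 _ (hn4.trans hm1)).1.le
    ((hN4 n hn4).2 _ hm1 (by omega))
    (hxs n (hN2.trans hn2)) (hxs _ ((hN2.trans hn2).trans hm1))

end Vale.Agent.P159.H801
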