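import Vale.Agent.P159.H801.Low3

/-!
P159 (helper801), seventh form of the sharp relation (requests of helper114): the sharp letter is
only used at states with `|x n| ≤ y^qx`, and (P) only over windows with a small variation of
`log y`.  This file: the sign argument.
-/

open Filter Topology Finset

namespace Vale.Agent.P159.H801

/-- **(P) with a sharp letter**, seventh form -/
structure SLP7 (S : ℕ → ℝ → ℝ → Prop) (x : ℕ → ℝ) (w : ℝ → ℕ) (σ es c1 A q2 qx : ℝ) (N0 : ℕ)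
    (Sl : ℕ → ℝ → ℝ → ℝ → Prop) : Prop where
  q21 : 1 < q2
  ex : ∃ e, 0 < e ∧ ∀ n ε y, Hst S σ es c1 N0 n ε y → y ≤ e → |x n| ≤ y ^ qx → ∃ s, Sl n ε y s
  near : ∃ e, 0 < e ∧ ∀ n ε y s, Hst S σ es c1 N0 n ε y → y ≤ e → |x n| ≤ y ^ qx →
    Sl n ε y s → |s - x n| ≤ y ^ q2
  P : ∀ η, 0 < η → ∃ e, 0 < e ∧ ∃ δ, 0 < δ ∧ ∀ n m ε ε' y y' s s', Hst S σ es c1 N0 n ε y →
    Hst S σ es c1 N0 m ε' y' → m = n + w ε → y ≤ e → y' ≤ e → |x n| ≤ y ^ qx →
    |x m| ≤ y' ^ qx → |Real.log y' - Real.log y| ≤ δ → Sl n ε y s → Sl m ε' y' s' →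
    |s - s' - A * (w ε * y ^ 2)| ≤ η * (w ε * y ^ 2)

/-- the former form implies this one -/
theorem SLP.to7 {S : ℕ → ℝ → ℝ → Prop} {x : ℕ → ℝ} {w : ℝ → ℕ} {σ es c1 A q2 : ℝ} (qx : ℝ)
    {N0 : ℕ} {Sl : ℕ → ℝ → ℝ → ℝ → Prop} (h : SLP S x w σ es c1 A q2 N0 Sl) :
    SLP7 S x w σ es c1 A q2 qx N0 Sl := by
  refine ⟨h.q21, ?_, ?_, ?_⟩
  · obtain ⟨e, he, H⟩ := h.ex
    exact ⟨e, he, fun n ε y h1 h2 _ => H n ε y h1 h2⟩
  · obtain ⟨e, he, H⟩ := h.near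
    exact ⟨e, he, fun n ε y s h1 h2 _ => H n ε y s h1 h2⟩
  · intro η hη
    obtain ⟨e, he, H⟩ := h.P η hη
    exact ⟨e, he, 1, one_pos, fun n m ε ε' y y' s s' h1 h2 h3 h4 h5 _ _ h6 =>
      H n m ε ε' y y' s s' h1 h2 h3 h4 h5 h6⟩

/-- smallness of `Y` in the sign argument -/
structure Sg7 (κ B q v p qx K Y : ℝ) : Prop where
  n1 : Y ^ (v - q) ≤ κ
  n2 : κ * (2 * B) * (Y ^ q * Real.log (1 / Y)) ≤ 1 / 2
  n3 : Y ^ (q - 2 * p) ≤ 1 / (4 * 3 ^ q)
  n4 : Y ^ q * Real.log (1 / Y) ≤ K / (2 * 3 ^ q)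
  n5 : Y ^ (1 / 2 : ℝ) * Real.log (1 / Y) ≤ K / 2
  n6 : Y ^ v ≤ 1 / 2
  n7 : Y ^ (1 - qx) ≤ 1 / 4
  n8 : Y ^ (q - qx) ≤ 1 / (4 * 3 ^ q)

/-- thresholds of the sign argument -/
lemma sign_small7 {κ B q v p qx K : ℝ} (hκ : 0 < κ) (hB : 0 < B) (hq : 1 < q) (hv : q < v)
    (hp : 2 * p < 1) (hqx : qx < 1) (hK : 0 < K) :
    ∃ e : ℝ, 0 < e ∧ e ≤ 1 ∧ ∀ Y : ℝ, 0 < Y → Y ≤ e → Sg7 κ B q v p qx K Y := by
  have h3 : (0 : ℝ) < 3 ^ q := by positivity
  obtain ⟨e1, he1, h1⟩ := small_pow (a := v - q) (by linarith) hκ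
  obtain ⟨e2, he2, h2⟩ := log_small (a := q) (c := 1 / 2 / (κ * (2 * B))) (by linarith)
    (by positivity)
  obtain ⟨e3, he3, h3⟩ := small_pow (a := q - 2 * p) (c := 1 / (4 * 3 ^ q)) (by linarith)
    (by positivity)
  obtain ⟨e4, he4, h4⟩ := log_small (a := q) (c := K / (2 * 3 ^ q)) (by linarith)
    (by positivity)
  obtain ⟨e5, he5, h5⟩ := log_small (a := 1 / 2) (c := K / 2) (by norm_num)
    (by positivity)
  obtain ⟨e6, he6, h6⟩ := small_pow (a := v) (c := 1 / 2) (by linarith) (by norm_num)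
  obtain ⟨e7, he7, h7⟩ := small_pow (a := 1 - qx) (c := 1 / 4) (by linarith) (by norm_num)
  obtain ⟨e8, he8, h8⟩ := small_pow (a := q - qx) (c := 1 / (4 * 3 ^ q)) (by linarith)
    (by positivity)
  refine ⟨min (min (min e1 e2) (min e3 e4)) (min (min (min e5 e6) (min e7 e8)) 1),
    by positivity, (min_le_right _ _).trans (min_le_right _ _), fun Y hY hYe => ?_⟩
  have k12 := hYe.trans ((min_le_left _ _).trans (min_le_left _ _))
  have k34 := hYe.trans ((min_le_left _ _).trans (min_le_right _ _))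
  have k58 := hYe.trans ((min_le_right _ _).trans (min_le_left _ _))
  have k56 := k58.trans (min_le_left _ _)
  have k78 := k58.trans (min_le_right _ _)
  have k2 := h2 Y hY (k12.trans (min_le_right _ _))
  rw [le_div_iff₀ (by positivity)] at k2
  exact ⟨h1 Y hY.le (k12.trans (min_le_left _ _)), by linarith,
    h3 Y hY.le (k34.trans (min_le_left _ _)), h4 Y hY (k34.trans (min_le_right _ _)),
    h5 Y hY (k56.trans (min_le_left _ _)), h6 Y hY.le (k56.trans (min_le_right _ _)),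
    h7 Y hY.le (k78.trans (min_le_left _ _)), h8 Y hY.le (k78.trans (min_le_right _ _))⟩

/-- monotonicity relative to the initial value -/
lemma sign_mono7 {κ B q v p qx K a0 Y0 Y Y' X W V : ℝ} (hκ : 0 < κ) (hq : 1 < q)
    (hY : 0 < Y) (hY' : 0 < Y') (hs : Sg7 κ B q v p qx K Y)
    (hbar : 2 * (3 * Y0) ^ q ≤ a0)
    (ha0 : 0 < a0) (i2 : Y0 ≤ Y) (hX : X ≤ -a0 + Y ^ q) (hW1 : 1 ≤ W)
    (hWB : W ≤ B * (2 * Real.log (1 / Y))) (hVe : V ≤ Y ^ v)
    (hV : |Real.log Y' - Real.log Y + κ * X * W| ≤ V) : Y0 ≤ Y' := by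
  have n1 := hs.n1
  have n2 := hs.n2
  have n6 := hs.n6
  have hyq : 0 < Y ^ q := Real.rpow_pos_of_pos hY _
  have hw0 : 0 < W := by linarith
  have h3 := (abs_le.1 hV).1
  rcases le_or_gt (Y ^ q) (a0 / 2) with hα | hβ
  · have h1 : X ≤ -(a0 / 2) := by linarith
    have h2 : V ≤ κ * (a0 / 2) := by
      have h3 : Y ^ v = Y ^ (v - q) * Y ^ q := by
        rw [← Real.rpow_add hY]; congr 1; ring
      rw [h3] at hVe
      exact hVe.trans (mul_le_mul n1 hα hyq.le hκ.le)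
    have h3 : κ * X * W ≤ -(κ * (a0 / 2)) := by
      have h4 : κ * X ≤ κ * (-(a0 / 2)) := mul_le_mul_of_nonneg_left h1 hκ.le
      have h5 : κ * X * W ≤ κ * (-(a0 / 2)) * W := mul_le_mul_of_nonneg_right h4 hw0.le
      have h6 : κ * (a0 / 2) * 1 ≤ κ * (a0 / 2) * W :=
        mul_le_mul_of_nonneg_left hW1 (by positivity)
      linarith
    have h5 : Real.log Y ≤ Real.log Y' := by linarith
    exact i2.trans ((Real.log_le_log_iff hY hY').1 h5)
  · have h1 : X ≤ Y ^ q := by linarith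
    have h2 : κ * X * W ≤ 1 / 2 := by
      have h4 : κ * X * W ≤ κ * Y ^ q * W :=
        mul_le_mul_of_nonneg_right (mul_le_mul_of_nonneg_left h1 hκ.le) hw0.le
      have h6 := mul_le_mul_of_nonneg_left hWB (show 0 ≤ κ * Y ^ q by positivity)
      have h7 : κ * Y ^ q * (B * (2 * Real.log (1 / Y))) =
          κ * (2 * B) * (Y ^ q * Real.log (1 / Y)) := by ring
      linarith
    have h4 : Real.log Y ≤ Real.log Y' + 1 := by linarith
    have h5 : Y ≤ 3 * Y' := by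
      have h6 := Real.exp_le_exp.2 h4
      rw [Real.exp_add, Real.exp_log hY, Real.exp_log hY'] at h6
      have h7 := mul_le_mul_of_nonneg_left (Real.exp_one_lt_three.le) hY'.le
      linarith
    have h6 : 3 * Y0 < Y := by
      by_contra hlt
      rw [not_lt] at hlt
      have h7 := Real.rpow_le_rpow hY.le hlt (show 0 ≤ q by linarith)
      linarith
    linarith

/-- the size of `X` at a jump -/
lemma sign_size7 {κ B p v1 ε Y Y' X W δ : ℝ} (hκ : 0 < κ) (hB : 0 < B) (hε : 0 < ε)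
    (hδ : 0 < δ)
    (hl0 : 0 ≤ Real.log (1 / Y)) (hup : X ≤ ε ^ p) (hW1 : 1 ≤ W)
    (hWB : W ≤ B * (2 * Real.log (1 / Y))) (hvar : |κ * ε ^ p * W| + ε ^ v1 ≤ δ / 10)
    (hV : |Real.log Y' - Real.log Y + κ * X * W| ≤ ε ^ v1)
    (hI : δ < |Real.log Y' - Real.log Y|) :
    X < 0 ∧ 0 < Real.log (1 / Y) ∧ 2 * (δ / (8 * κ * B)) ≤ -X * Real.log (1 / Y) := by
  have hw0 : 0 < W := by linarith
  have hv0 : 0 ≤ |κ * ε ^ p * W| := abs_nonneg _
  have h1 : δ / 2 ≤ |κ * X * W| := by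
    have h2 := abs_sub (Real.log Y' - Real.log Y + κ * X * W) (κ * X * W)
    rw [add_sub_cancel_right] at h2
    linarith
  have hneg : X < 0 := by
    by_contra hpos
    rw [not_lt] at hpos
    have h2 : |κ * X * W| ≤ |κ * ε ^ p * W| := by
      rw [abs_of_nonneg (by positivity), abs_of_nonneg
        (by have := Real.rpow_nonneg hε.le p; positivity)]
      exact mul_le_mul_of_nonneg_right (mul_le_mul_of_nonneg_left hup hκ.le) hw0.le
    have h4 : 0 ≤ ε ^ v1 := Real.rpow_nonneg hε.le _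
    linarith
  have hlj : 0 < Real.log (1 / Y) := by
    rcases hl0.lt_or_eq with h2 | h2
    · exact h2
    · exfalso
      rw [← h2, mul_zero, mul_zero] at hWB
      linarith
  refine ⟨hneg, hlj, ?_⟩
  have h3 : |κ * X * W| = κ * (-X) * W := by
    rw [abs_mul, abs_mul, abs_of_pos hκ, abs_of_neg hneg, abs_of_pos hw0]
  rw [h3] at h1
  have h5 := mul_le_mul_of_nonneg_left hWB
    (show 0 ≤ κ * (-X) from mul_nonneg hκ.le (by linarith))
  have h6 : 2 * (δ / (8 * κ * B)) = δ / 2 / (2 * κ * B) := by field_simp; norm_num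
  rw [h6, div_le_iff₀ (by positivity)]
  nlinarith

/-- the sharp letter after a jump -/
lemma sign_jump7 {κ B q v p p1 σ qx K ε ε' Y Y' X X' s' : ℝ}
    (hσ0 : 0 < σ) (hσ1 : σ ≤ 1 / 4) (hq : 1 < q) (hp1 : 1 < (2 - 3 * σ) * p1) (hp10 : 0 < p1)
    (hY : 0 < Y) (hY' : 0 < Y') (hY1 : Y ≤ 1) (hY1' : Y' ≤ 1) (hs : Sg7 κ B q v p qx K Y)
    (hε : 0 < ε) (hL : ε ≤ Y ^ (2 - 3 * σ)) (hlo' : Y' ^ (2 - σ) ≤ ε') (hre : ε' = nE σ ε Y)
    (hX : |X' - X| ≤ ε ^ p1) (hnear : |s' - X'| ≤ Y' ^ q) (hl : 0 < Real.log (1 / Y))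
    (h2 : 2 * K ≤ -X * Real.log (1 / Y)) :
    K ≤ -s' * Real.log (1 / Y) := by
  have n5 := hs.n5
  have h4 : ε ^ p1 ≤ Y ^ (1 / 2 : ℝ) := by
    have h5 : ε ^ p1 ≤ (Y ^ (2 - 3 * σ)) ^ p1 := Real.rpow_le_rpow hε.le hL hp10.le
    rw [← Real.rpow_mul hY.le] at h5
    exact h5.trans (Real.rpow_le_rpow_of_exponent_ge hY hY1 (by linarith))
  have h5 : Y' ≤ Y ^ (1 / 2 : ℝ) := by
    have h6 : Y' ^ (2 : ℝ) ≤ Y ^ (2 - 3 * σ) := by
      have h7 : Y' ^ (2 : ℝ) ≤ Y' ^ (2 - σ) :=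
        Real.rpow_le_rpow_of_exponent_ge hY' hY1' (by linarith)
      have h8 : ε' ≤ Y ^ (2 - 3 * σ) := by
        rw [hre]
        refine max_le ?_ ?_
        · linarith
        · exact Real.rpow_le_rpow_of_exponent_ge hY hY1 (by linarith)
      exact h7.trans (hlo'.trans h8)
    have h7 := Real.rpow_le_rpow (Real.rpow_nonneg hY'.le _) h6
      (show (0 : ℝ) ≤ 1 / 2 by norm_num)
    rw [← Real.rpow_mul hY'.le, ← Real.rpow_mul hY.le] at h7
    norm_num at h7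
    refine h7.trans (Real.rpow_le_rpow_of_exponent_ge hY hY1 ?_)
    linarith
  have h6 : Y' ^ q ≤ Y ^ (1 / 2 : ℝ) := by
    refine le_trans ?_ h5
    conv_rhs => rw [← Real.rpow_one Y']
    exact Real.rpow_le_rpow_of_exponent_ge hY' hY1' (by linarith)
  have h7 : s' ≤ X + 2 * Y ^ (1 / 2 : ℝ) := by
    have h8 := (abs_le.1 hnear).2
    have h9 := (abs_le.1 hX).2
    linarith
  have h8 : 2 * Y ^ (1 / 2 : ℝ) * Real.log (1 / Y) ≤ K := by linarith
  have h10 := mul_le_mul_of_nonneg_right h7 hl.le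
  linarith

/-- the barrier -/
lemma sign_bar7 {κ B q v p σ ε Y qx K : ℝ} (hσ0 : 0 < σ)
    (hp0 : 0 < p) (hq : 1 < q) (hY : 0 < Y) (hY1 : Y ≤ 1) (hs : Sg7 κ B q v p qx K Y)
    (hlo : Y ^ (2 - σ) ≤ ε) (hl : 0 < Real.log (1 / Y)) :
    Y ^ q ≤ ε ^ p / 2 ∧
      2 * (3 * Y) ^ q ≤ min (min (ε ^ p / 2) (K / Real.log (1 / Y))) (Y ^ qx / 2) := by
  have m3 := hs.n3
  have m4 := hs.n4
  have m8 := hs.n8
  have hε : 0 < ε := (Real.rpow_pos_of_pos hY _).trans_le hlo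
  have h3q : (0 : ℝ) < 3 ^ q := by positivity
  have hep0 : 0 < ε ^ p := Real.rpow_pos_of_pos hε _
  have hyep : Y ^ q ≤ 1 / (4 * 3 ^ q) * ε ^ p := by
    have h1 : Y ^ (2 * p) ≤ ε ^ p := by
      have h2 : (Y ^ (2 : ℝ)) ^ p ≤ ε ^ p := by
        refine Real.rpow_le_rpow (Real.rpow_nonneg hY.le _) ?_ hp0.le
        exact (Real.rpow_le_rpow_of_exponent_ge hY hY1 (by linarith)).trans hlo
      rwa [← Real.rpow_mul hY.le] at h2
    have h2 : Y ^ q = Y ^ (q - 2 * p) * Y ^ (2 * p) := by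
      rw [← Real.rpow_add hY]; congr 1; ring
    rw [h2]
    exact mul_le_mul m3 h1 (Real.rpow_nonneg hY.le _) (by positivity)
  have h3q1 : (1 : ℝ) ≤ 3 ^ q := Real.one_le_rpow (by norm_num) (by linarith)
  constructor
  · refine hyep.trans ?_
    rw [div_mul_eq_mul_div, one_mul]
    exact div_le_div_of_nonneg_left hep0.le (by norm_num) (by linarith)
  · rw [Real.mul_rpow (by norm_num) hY.le]
    refine le_min (le_min ?_ ?_) ?_
    · have h1 := mul_le_mul_of_nonneg_left hyep (show 0 ≤ 2 * (3 : ℝ) ^ q by positivity)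
      have h2 : 2 * (3 : ℝ) ^ q * (1 / (4 * 3 ^ q) * ε ^ p) = ε ^ p / 2 := by
        field_simp
        ring
      linarith
    · rw [le_div_iff₀ hl]
      have h1 := mul_le_mul_of_nonneg_left m4 (show 0 ≤ 2 * (3 : ℝ) ^ q by positivity)
      have h2 : 2 * (3 : ℝ) ^ q * (K / (2 * 3 ^ q)) = K := by
        field_simp
      linarith
    · have h1 : Y ^ q = Y ^ (q - qx) * Y ^ qx := by
        rw [← Real.rpow_add hY]; congr 1; ring
      have hyx : 0 < Y ^ qx := Real.rpow_pos_of_pos hY _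
      have h2 := mul_le_mul_of_nonneg_right m8 hyx.le
      have h3 := mul_le_mul_of_nonneg_left h2 (show 0 ≤ 2 * (3 : ℝ) ^ q by positivity)
      have h4 : 2 * (3 : ℝ) ^ q * (1 / (4 * 3 ^ q) * Y ^ qx) = Y ^ qx / 2 := by
        field_simp
        ring
      rw [h1]
      linarith

/-- the sharp letter after a state with `X < -Y^qx`, no jump -/
lemma sign_neg7 {κ B q v p p1 σ qx K ε Y Y' X X' s' : ℝ}
    (hq : 1 < q) (hp1 : 1 < (2 - 3 * σ) * p1) (hp10 : 0 < p1)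
    (hY : 0 < Y) (hY' : 0 < Y') (hY1 : Y ≤ 1) (hs : Sg7 κ B q v p qx K Y)
    (hε : 0 < ε) (hL : ε ≤ Y ^ (2 - 3 * σ))
    (hX : |X' - X| ≤ ε ^ p1) (hnear : |s' - X'| ≤ Y' ^ q)
    (hI : |Real.log Y' - Real.log Y| ≤ 1) (hneg : X < -(Y ^ qx)) : s' ≤ -(Y ^ qx / 2) := by
  have n7 := hs.n7
  have n8 := hs.n8
  have hyx : 0 < Y ^ qx := Real.rpow_pos_of_pos hY _
  have h1 : ε ^ p1 ≤ 1 / 4 * Y ^ qx := by
    have h5 : ε ^ p1 ≤ (Y ^ (2 - 3 * σ)) ^ p1 := Real.rpow_le_rpow hε.le hL hp10.le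
    rw [← Real.rpow_mul hY.le] at h5
    have h6 : Y ^ ((2 - 3 * σ) * p1) ≤ Y ^ (1 : ℝ) :=
      Real.rpow_le_rpow_of_exponent_ge hY hY1 hp1.le
    have h7 : Y ^ (1 : ℝ) = Y ^ (1 - qx) * Y ^ qx := by
      rw [← Real.rpow_add hY]; congr 1; ring
    have h8 := mul_le_mul_of_nonneg_right n7 hyx.le
    linarith
  have h2 : Y' ^ q ≤ 1 / 4 * Y ^ qx := by
    have h3 : Y' ≤ 3 * Y := by
      have h4 := (abs_le.1 hI).2
      have h5 : Real.log Y' ≤ Real.log Y + 1 := by linarith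
      have h6 := Real.exp_le_exp.2 h5
      rw [Real.exp_add, Real.exp_log hY, Real.exp_log hY'] at h6
      have h7 := mul_le_mul_of_nonneg_left (Real.exp_one_lt_three.le) hY.le
      linarith
    have h4 := Real.rpow_le_rpow hY'.le h3 (show 0 ≤ q by linarith)
    rw [Real.mul_rpow (by norm_num) hY.le] at h4
    have h5 : Y ^ q = Y ^ (q - qx) * Y ^ qx := by
      rw [← Real.rpow_add hY]; congr 1; ring
    have h6 := mul_le_mul_of_nonneg_right n8 hyx.le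
    have h7 := mul_le_mul_of_nonneg_left h6 (show (0 : ℝ) ≤ 3 ^ q by positivity)
    have h8 : (3 : ℝ) ^ q * (1 / (4 * 3 ^ q) * Y ^ qx) = 1 / 4 * Y ^ qx := by
      field_simp
    rw [h5] at h4
    linarith
  have h8 := (abs_le.1 hnear).2
  have h9 := (abs_le.1 hX).2
  linarith

end Vale.Agent.P159.H801
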