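import Vale.Agent.P159.H801.Sp3
import Vale.Agent.P159.H462.Q8
import Vale.Agent.P159.H114.Ry2

/-!
P159 (helper801), P#, **the torus change at a state** of the sharp relation: assembly of helper462's
`P6h` and helper114's numbers.
-/

open Filter Topology Finset MeasureTheory Matrix

namespace Vale.Agent.P159.H801

open Vale.Agent.P159.H972 (Par Good tn tn_pos Par.Adm)
open Vale.Agent.P159.H864 (yt MC)
open Vale.Agent.P159.TM.Spec (V)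
open Vale.Agent.P159.TM.SpecC (Tor wT)
open Vale.Agent.P159.H37 (gau)
open Vale.Agent.P159.H43 (omH)
open Vale.Agent.P159.H363 (acl pin Rcl)
open Vale.Agent.P159.H358 (cutm)
open Vale.Agent.P159.H114 (TB TV aT)
open Vale.Agent.P159.H114.Ry (Sz CWx p6_num)
open Vale.Agent.P159.H462 (P6t P6h WinHS aq aq_torus R6 E6 Dom oT)

lemma aT_eq {b : ℝ} {n r j : ℕ} (h : j ≤ r) [NeZero (2 ^ r / 2 ^ j)] :
    aT b n r j = aq (2 ^ r) (2 ^ j) b (tn n) := by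
  unfold H114.aT
  simp only [min_eq_left h]

/-- numbers of the base torus -/
structure Bn (P : Par) (y : ℝ) : Prop where
  a1 : 16 * y ^ (1 - 4 * P.th - P.x1 / 50) ≤ 1 / 4
  a2 : 8 * y ^ (9 / 10 * P.x1 - 2 * P.th - P.x1 / 50) ≤ 1

lemma bn_ex {P : Par} (hA : P.Adm) : ∃ E : ℝ, 0 < E ∧ ∀ y, 0 < y → y ≤ E → Bn P y := by
  have hx := hA.hx
  have hx1 := hA.x11
  have hx0 := P.x10
  have hth := P.th0
  have hthp := hA.hth
  obtain ⟨E1, hE1, h1⟩ := small_pow (a := 1 - 4 * P.th - P.x1 / 50) (c := 1 / 64) (by linarith)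
    (by norm_num)
  obtain ⟨E2, hE2, h2⟩ := small_pow (a := 9 / 10 * P.x1 - 2 * P.th - P.x1 / 50) (c := 1 / 8)
    (by linarith) (by norm_num)
  refine ⟨min E1 E2, lt_min hE1 hE2, fun y hy hyE => ⟨?_, ?_⟩⟩
  · have := h1 y hy.le (hyE.trans (min_le_left _ _))
    linarith
  · have := h2 y hy.le (hyE.trans (min_le_right _ _))
    linarith

section base

variable {P P' : Par} {b an : ℝ} {n : ℕ} {ε y e1 : ℝ} {r1 : ℕ}

/-- the activity on the base torus -/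
lemma Base.Yy (h : Base P P' b an (P.x1 / 100) n ε y e1 r1) :
    ε ^ (-(P.x1 / 100)) * y ≤ y ^ (1 - P.x1 / 50) := by
  have hy := h.y0
  have hx0 := P.x10
  have h3 : ε ^ (-(P.x1 / 100)) ≤ (y ^ (2 : ℝ)) ^ (-(P.x1 / 100)) :=
    Real.rpow_le_rpow_of_nonpos (Real.rpow_pos_of_pos hy _) (h.y2.trans h.e1ε) (by linarith)
  rw [← Real.rpow_mul hy.le] at h3
  calc ε ^ (-(P.x1 / 100)) * y ≤ y ^ (2 * -(P.x1 / 100)) * y :=
        mul_le_mul_of_nonneg_right h3 hy.le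
    _ = y ^ (2 * -(P.x1 / 100)) * y ^ (1 : ℝ) := by rw [Real.rpow_one]
    _ = y ^ (1 - P.x1 / 50) := by
        rw [← Real.rpow_add hy]
        congr 1
        ring

lemma Base.K2 (h : Base P P' b an (P.x1 / 100) n ε y e1 r1) (hB : Bn P y) :
    4 * ((2 ^ (r1 - n)) ^ 2 * (ε ^ (-(P.x1 / 100)) * y)) ≤ 1 := by
  have hy := h.y0
  have hε := h.ε0
  have h1 : ((2 : ℝ) ^ (r1 - n)) ^ 2 ≤ 4 * y ^ (-(4 * P.th)) := by
    refine (pow_le_pow_left₀ (by positivity) h.Ky 2).trans (le_of_eq ?_)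
    rw [mul_pow, ← Real.rpow_natCast (y ^ (-(2 * P.th))), ← Real.rpow_mul hy.le]
    have : -(2 * P.th) * ((2 : ℕ) : ℝ) = -(4 * P.th) := by
      push_cast
      ring
    rw [this]
    norm_num
  have h2 : ((2 : ℝ) ^ (r1 - n)) ^ 2 * (ε ^ (-(P.x1 / 100)) * y) ≤
      4 * y ^ (-(4 * P.th)) * y ^ (1 - P.x1 / 50) :=
    mul_le_mul h1 h.Yy (by positivity) (by positivity)
  rw [mul_assoc, ← Real.rpow_add hy] at h2
  have h3 : -(4 * P.th) + (1 - P.x1 / 50) = 1 - 4 * P.th - P.x1 / 50 := by ring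
  rw [h3] at h2
  have h4 := hB.a1
  linarith

/-- the product of the oscillation and of the density -/
lemma Base.oY (h : Base P P' b an (P.x1 / 100) n ε y e1 r1) (hB : Bn P y) {o : ℝ} (ho0 : 0 ≤ o)
    (ho : o ≤ y ^ (1 - P.x1 / 20)) :
    o * (4 * 2 ^ (r1 - n) * (ε ^ (-(P.x1 / 100)) * y)) ≤ y ^ (2 - P.x1) := by
  have hy := h.y0
  have hε := h.ε0
  have hx0 := P.x10
  have h1 : 4 * 2 ^ (r1 - n) * (ε ^ (-(P.x1 / 100)) * y) ≤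
      4 * (2 * y ^ (-(2 * P.th))) * y ^ (1 - P.x1 / 50) :=
    mul_le_mul (mul_le_mul_of_nonneg_left h.Ky (by norm_num)) h.Yy (by positivity)
      (by positivity)
  have h2 : o * (4 * 2 ^ (r1 - n) * (ε ^ (-(P.x1 / 100)) * y)) ≤
      y ^ (1 - P.x1 / 20) * (4 * (2 * y ^ (-(2 * P.th))) * y ^ (1 - P.x1 / 50)) :=
    mul_le_mul ho h1 (by positivity) (by positivity)
  have h3 : y ^ (1 - P.x1 / 20) * (4 * (2 * y ^ (-(2 * P.th))) * y ^ (1 - P.x1 / 50)) =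
      8 * (y ^ (1 - P.x1 / 20) * y ^ (-(2 * P.th)) * y ^ (1 - P.x1 / 50)) := by ring
  rw [h3, ← Real.rpow_add hy, ← Real.rpow_add hy] at h2
  refine h2.trans ?_
  have h4 : 1 - P.x1 / 20 + -(2 * P.th) + (1 - P.x1 / 50) =
      (9 / 10 * P.x1 - 2 * P.th - P.x1 / 50) + (2 - P.x1) + P.x1 / 20 := by ring
  rw [h4, Real.rpow_add hy, Real.rpow_add hy]
  have h5 : y ^ (P.x1 / 20) ≤ 1 := Real.rpow_le_one hy.le h.y1 (by linarith)
  have h6 : 0 < y ^ (2 - P.x1) := Real.rpow_pos_of_pos hy _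
  have h7 : 0 < y ^ (P.x1 / 20) := Real.rpow_pos_of_pos hy _
  have h8 := hB.a2
  have h9 : 0 < y ^ (9 / 10 * P.x1 - 2 * P.th - P.x1 / 50) := Real.rpow_pos_of_pos hy _
  calc 8 * (y ^ (9 / 10 * P.x1 - 2 * P.th - P.x1 / 50) * y ^ (2 - P.x1) * y ^ (P.x1 / 20))
      = (8 * y ^ (9 / 10 * P.x1 - 2 * P.th - P.x1 / 50)) * (y ^ (2 - P.x1) * y ^ (P.x1 / 20)) := by
        ring
    _ ≤ 1 * (y ^ (2 - P.x1) * 1) :=
        mul_le_mul h8 (mul_le_mul_of_nonneg_left h5 h6.le) (by positivity) (by norm_num)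
    _ = _ := by ring

end base

/-- **hypotheses of (P6) at a state** -/
theorem p6h_at {P P' : Par} {b an : ℝ} {n j r1 r r' D0 : ℕ} {ε y e1 C1 e0 Kρ η12 η23 : ℝ}
    [NeZero (2 ^ r1 / 2 ^ j)] [NeZero (2 ^ r / 2 ^ j)] [NeZero (2 ^ r' / 2 ^ j)] (hb : 0 < b)
    (hB : Base P P' b an (P.x1 / 100) n ε y e1 r1) (hN : Bn P y) (hjn : j ≤ n)
    (hS : Sz C1 b Kρ n j r1 D0 y)
    (t1 : P6t (2 ^ r1) (2 ^ r1) (2 ^ j) b (tn n) D0 (2 ^ (n - j)) (1 / b) e0 (y ^ (-CWx C1)))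
    (t2 : P6t (2 ^ r1) (2 ^ r) (2 ^ j) b (tn n) D0 (2 ^ (n - j)) (1 / b) e0 (y ^ (-CWx C1)))
    (t3 : P6t (2 ^ r1) (2 ^ r') (2 ^ j) b (tn n) D0 (2 ^ (n - j)) (1 / b) e0 (y ^ (-CWx C1)))
    (he0 : 0 ≤ e0)
    (typ : ∀ G : V (2 ^ r1 / 2 ^ j) → ℝ, tn n * ((2 ^ j : ℕ) : ℝ) ^ 2 * ∑ x, G x ^ 2 ≤ 1 →
      ∫ g, Rcl (2 ^ r1) (2 ^ j) b (tn n) (tn n)
        (pin (acl (2 ^ r1) (2 ^ j) b (tn n) (tn n)) *ᵥ g + G) ^ 2
          ∂(gau (V (2 ^ r1 / 2 ^ j))) ≤ (y ^ (2 - P.x1)) ^ 2)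
    (out : ∀ x : V (2 ^ r1 / 2 ^ j), ∫ g, ((acl (2 ^ r1) (2 ^ j) b (tn n) (tn n) *ᵥ
          cutm D0 x (pin (acl (2 ^ r1) (2 ^ j) b (tn n) (tn n)) *ᵥ g)) x -
        (acl (2 ^ r1) (2 ^ j) b (tn n) (tn n) *ᵥ
          (pin (acl (2 ^ r1) (2 ^ j) b (tn n) (tn n)) *ᵥ g)) x) ^ 2
          ∂(gau (V (2 ^ r1 / 2 ^ j))) ≤ (tn n * ((2 ^ j : ℕ) : ℝ) ^ 2 * y ^ (2 - P.x1)) ^ 2)
    (oT1 : oT (2 ^ r1) (2 ^ j) b (tn n) ≤ 1 / 2)
    (oH : omH (wT b (2 ^ r1)) (MC (2 ^ r1) (2 ^ j) (tn n) (tn n)) ≤ y ^ (2 - P.x1))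
    (h12 : WinHS (D0 + 2 ^ (n - j)) (acl (2 ^ r1) (2 ^ j) b (tn n) (tn n))
      (acl (2 ^ r) (2 ^ j) b (tn n) (tn n)) η12)
    (h23 : WinHS (D0 + 2 ^ (n - j)) (acl (2 ^ r) (2 ^ j) b (tn n) (tn n))
      (acl (2 ^ r') (2 ^ j) b (tn n) (tn n)) η23)
    (η12p : 0 < η12) (η12s : η12 ≤ 1 / 2) (η23p : 0 ≤ η23) (η23s : 8 * η23 ≤ 1) :
    P6h (2 ^ r1) (2 ^ r) (2 ^ r') (2 ^ j) b (tn n) D0 (2 ^ (n - j)) (1 / b) (y ^ (-CWx C1)) e0
      (y ^ (2 - P.x1)) (y ^ (2 - P.x1)) (4 * 2 ^ (r1 - n) * (ε ^ (-(P.x1 / 100)) * y))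
      (y ^ (2 - P.x1)) η12 η23 := by
  have hy := hB.y0
  have hε := hB.ε0
  have hnr : n ≤ r1 := by
    rw [hB.er1]
    omega
  have hν1 : tn n * ((2 ^ j : ℕ) : ℝ) ^ 2 ≤ 1 := by
    refine le_trans ?_ hS.νm
    have h1 : (1 : ℝ) ≤ ((2 ^ (n - j) : ℕ) : ℝ) ^ 2 := by
      have : (1 : ℝ) ≤ ((2 ^ (n - j) : ℕ) : ℝ) := by exact_mod_cast hS.m1
      exact one_le_pow₀ this
    have h2 : 0 ≤ tn n * ((2 ^ j : ℕ) : ℝ) ^ 2 := by
      have := tn_pos n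
      positivity
    exact le_mul_of_one_le_right h2 h1
  exact
    { hb := hb.le
      hT := tn_pos n
      W1 := hS.W1
      Wν := hS.Wν
      Wc := by
        rw [one_div, inv_inv]
        exact hS.Wc
      ν1 := hν1
      hm := hS.m1
      hνm := hS.νm
      t1 := t1
      t2 := t2
      t3 := t3
      he0 := he0
      typ := typ
      hδ := Real.rpow_nonneg hy.le _
      out := out
      hεA := Real.rpow_nonneg hy.le _
      oT1 := oT1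
      oH := oH
      uc := fun x => int_uc hb hnr (hjn.trans hnr) (hB.yt4 r1 le_rfl) (hB.K2 hN) x
      hYu := by positivity
      h12 := h12
      h23 := h23
      η12p := η12p
      η12s := η12s
      η23p := η23p
      η23s := η23s }

end Vale.Agent.P159.H801
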