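import Vale.Agent.P159.H801.Sp1
import Vale.Agent.P159.H316.Ini1

/-!
P159 (helper801), P#, **(U)**: the cell densities on the base torus, typical size, and the numbers
of the base torus which enter the size of the remainder.
-/

open Filter Topology Finset MeasureTheory Matrix

namespace Vale.Agent.P159.H801

open Vale.Agent.P159.H972 (Par tn tn_pos Par.Adm)
open Vale.Agent.P159.H864 (yt)
open Vale.Agent.P159.TM.Spec (V)
open Vale.Agent.P159.TM.SpecC (Tor wT)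
open Vale.Agent.P159.H37 (gau)
open Vale.Agent.P159.H363 (acl pin)

/-- **typical size of the cell densities** on one torus -/
theorem int_uc {b : ℝ} {n r s : ℕ} {Y : ℝ} (hb : 0 < b) (hr : n ≤ r) (hsr : s ≤ r)
    [NeZero (2 ^ r / 2 ^ s)] (hy : yt (2 ^ r) b (4 * tn n) ≤ Y)
    (hs : 4 * ((2 ^ (r - n)) ^ 2 * Y) ≤ 1) (x : V (2 ^ r / 2 ^ s)) :
    ∫ g, ‖H889.uc (2 ^ r) (2 ^ s) b (tn n) x
      (pin (acl (2 ^ r) (2 ^ s) b (tn n) (tn n)) *ᵥ g)‖ ^ 2 ∂(gau (V (2 ^ r / 2 ^ s))) ≤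
      (tn n * ((2 ^ s : ℕ) : ℝ) ^ 2 * (4 * 2 ^ (r - n) * Y)) ^ 2 := by
  have ht := tn_pos n
  have hl : 2 ^ s ∣ 2 ^ r := pow_dvd_pow _ hsr
  have h1 := H316.tn2_uc hb.le hl ht (ω := 2 * ((2 ^ (r - n)) ^ 2 * Y)) (by linarith)
    (H316.Om_tor hb hr hy hs) (A := acl (2 ^ r) (2 ^ s) b (tn n) (tn n)) (H363.ti_pin _) x
  have h2 := H889.tn2_sq ((H889.continuous_uc (N := 2 ^ r) (l := 2 ^ s) hb.le ht x).measurable)
    (fun F => H889.norm_uc_le hb.le ht hl x F) (acl (2 ^ r) (2 ^ s) b (tn n) (tn n))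
  rw [← h2]
  have h0 : 0 ≤ H889.tn2 (acl (2 ^ r) (2 ^ s) b (tn n) (tn n))
      (H889.uc (2 ^ r) (2 ^ s) b (tn n) x) := H889.tn2_nonneg _ _
  refine pow_le_pow_left₀ h0 (h1.trans (le_of_eq ?_)) 2
  rw [H43.tn_mul_sq hr, Real.sqrt_sq (by positivity)]
  field_simp
  ring

end Vale.Agent.P159.H801
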