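import Vale.Agent.P159.H801.Sp2
import Vale.Agent.P159.H114.Ry3
import Vale.Agent.P159.H846.Ra2
import Vale.Agent.P159.H197.Sb5
import Vale.Agent.P159.H767.Et3
import Vale.Agent.P159.H43.Chb3

/-!
P159 (helper801), P#, **the torus change at the states**, order of constants.
-/

open Filter Topology Finset MeasureTheory Matrix

namespace Vale.Agent.P159.H801

open Vale.Agent.P159.H972 (Par Good tn tn_pos Par.Adm)
open Vale.Agent.P159.H864 (yt MC)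
open Vale.Agent.P159.TM.Spec (V)
open Vale.Agent.P159.TM.SpecC (Tor wT)
open Vale.Agent.P159.H43 (omH CHB)
open Vale.Agent.P159.H114 (TB TV aT)
open Vale.Agent.P159.H114.Ry (Sz CWx p6_num p6t_ev win_ex)
open Vale.Agent.P159.H358 (Ls)
open Vale.Agent.P159.H462 (P6t P6h WinHS aq aq_torus R6 E6 Dom oT)
open Vale.Agent.P159.H889 (Cx)
open Vale.Agent.P159.H846.Two (Ev2 PQ)
open Vale.Agent.P159.H767 (Lv Sm1 lv_of_cx)

/-- the input of helper43: oscillations in the constant on the base torus -/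
def OscIn (b1 b2 : ℝ) (Q : ℕ) : Prop :=
  Ev b1 b2 (9 / 10) Q fun P _ => ∃ E : ℝ, 0 < E ∧ ∀ (P' : Par) (b an : ℝ) (n : ℕ) (ε y e1 : ℝ)
    (r1 j : ℕ) [NeZero (2 ^ r1 / 2 ^ j)], 0 < b → Base P P' b an (P.x1 / 100) n ε y e1 r1 →
    j ≤ r1 → y ≤ E → ε ≤ P.es → y ^ (39 / 20 : ℝ) ≤ ε → ε ≤ y ^ (9 / 5 : ℝ) →
    CHB P b n ε (y ^ (2 - P.x1 / 50) + y * ε ^ (2 : ℝ)) →
    oT (2 ^ r1) (2 ^ j) b (tn n) ≤ y ^ (1 - P.x1 / 20) ∧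
    oT (2 ^ r1) (2 ^ j) b (tn n) ≤ 1 / 2 ∧
    omH (wT b (2 ^ r1)) (MC (2 ^ r1) (2 ^ j) (tn n) (tn n)) ≤ y ^ (2 - P.x1 / 25)

/-- **the torus change at the states** -/
theorem tor_of {b b1 b2 K : ℝ} {Q : ℕ} (hb1 : 0 < b1) (h1 : b1 ≤ b) (h2 : b ≤ b2)
    (hOsc : OscIn b1 b2 Q) :
    Ev2 b1 b2 (9 / 10) Q fun P P' c1 => ∀ C1 : ℝ, 1 ≤ C1 → P.C0 ≤ C1 → C1 ≤ K * P.C0 →
      ∃ E : ℝ, 0 < E ∧ ∀ (an ε y : ℝ) (n j r1 : ℕ),
        Base P P' b an (P.x1 / 100) n ε y (y ^ (2 - P.x1 / 10)) r1 → Cx P b C1 c1 n j ε y →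
        ε ≤ y ^ (9 / 5 : ℝ) → 11 / 10 ≤ an → an ≤ 159 / 100 →
        CHB P b n ε (y ^ (2 - P.x1 / 50) + y * ε ^ (2 : ℝ)) → y ≤ E →
        ∀ r r', TB P n ε r → TB P n ε r' → |aT b n r j - aT b n r' j| ≤ y ^ (2 + P.x1) := by
  have hb : 0 < b := hb1.trans_le h1
  have hb2 : 0 < b2 := hb.trans_le h2
  obtain ⟨A01, hA01, hL⟩ := p6t_ev (b2 := b2) hb1 h1 hb2 (β := 81) (by norm_num)
  obtain ⟨A02, hA02, hO⟩ := H197.out_ev2 hb1 hb2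
  obtain ⟨A0, hA0d⟩ : ∃ A0, A0 = max A01 A02 := ⟨_, rfl⟩
  have hA1 : A01 ≤ A0 := hA0d ▸ le_max_left _ _
  have hA2 : A02 ≤ A0 := hA0d ▸ le_max_right _ _
  have hA0 : 1 ≤ A0 := hA01.trans hA1
  have e1 := H846.Two.Ev.to2 (hL A0 hA1 K Q)
  have e2 := hO (9 / 10) Q
  have e3 := H846.Ra.typ_ev (b2 := b2) hb1 h1 Q
  have e4 := H846.Two.Ev.to2 (H767.winHS_ev hb1 hb2 K (2 * A0 + 1) 0 (by linarith) le_rfl Q)
  have e5 := H846.Two.Ev.to2 (H767.sm1_ev (b1 := b1) (b2 := b2) K Q)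
  have e7 := H846.Two.Ev.to2 hOsc
  refine (((((e1.and e2).and e3).and e4).and e5).and e7).mono ?_
  rintro P P' c1 hQ hc1 ⟨⟨⟨⟨⟨g1, g2⟩, g3⟩, g4⟩, g5⟩, g7⟩ C1 hC1 hC0 hC1K
  obtain ⟨E1, hE1, -, g1⟩ := g1.2 C1 hC1 hC0 hC1K b
  obtain ⟨E2, hE2, -, g2⟩ := g2
  obtain ⟨E3, hE3, g3⟩ := g3 (CWx C1)
  obtain ⟨-, -, -, -, g5⟩ := g5
  obtain ⟨E5, hE5, g7⟩ := g7
  obtain ⟨E6, hE6, g8⟩ := bn_ex hQ.adm
  have hx0 := hQ.x1
  have hx1 := hQ.adm.x11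
  obtain ⟨E7, hE7, hE71, g9⟩ := p6_num (x1 := P.x1) (th := P.th) (c := P.x1) (KA := 1000)
    (KB := 10 ^ 10) (CW := CWx C1) (Kρ := 8 * A0 * C1 + 1) 16 hx0 hx1 P.th0 hx0.le le_rfl
    (by norm_num) (by norm_num) (by unfold H114.Ry.CWx; linarith) (by positivity)
  obtain ⟨E8, hE8, g10⟩ := small_pow (a := 3 * P.x1) (c := 1 / 8) (by linarith) (by norm_num)
  refine ⟨min (min E1 (min E2 E3)) (min (min E5 E6) (min E7 E8)), by positivity, ?_⟩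
  intro an ε y n j r1 hB hX hεy ha1 ha2 hCHB hy r r' hr hr'
  simp only [le_min_iff] at hy
  obtain ⟨⟨y1, y2, y3⟩, ⟨y5, y6⟩, y7, y8⟩ := hy
  have hy0 := hB.y0
  have hε0 := hB.ε0
  have hyle := hB.y1
  have hεle : ε ≤ y := hεy.trans (by
    calc y ^ (9 / 5 : ℝ) ≤ y ^ (1 : ℝ) :=
          Real.rpow_le_rpow_of_exponent_ge hy0 hyle (by norm_num)
      _ = y := Real.rpow_one y)
  have hS1 := g5 C1 hC1 hC1K ε hX.e0 hX.es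
  have hLv : Lv P C1 c1 n j ε y := lv_of_cx hX
  obtain ⟨hjn, hLs, he0, g1⟩ := g1 n j ε y hX y1 hεy
  have hns := hLv.ns hS1 hC1 hc1
  have hlam : (2 : ℝ) ^ j / 2 ^ n ≤ (ε * y) ^ C1 := hX.s2
  have hlamy : (2 : ℝ) ^ j / 2 ^ n ≤ y := (hLv.lam hS1 hC1).trans hεle
  obtain ⟨D0, hD1, hD2⟩ := win_ex hA0 hjn hLs
  have hnr1 : n ≤ r1 := by
    rw [hB.er1]
    omega
  have hrr1 : r1 ≤ r := hB.le r hr
  have hrr1' : r1 ≤ r' := hB.le r' hr'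
  have n1 : NeZero (2 ^ r1 / 2 ^ j) :=
    ⟨(Nat.div_pos (Nat.pow_le_pow_right two_pos (hjn.trans hnr1)) (by positivity)).ne'⟩
  have n2 : NeZero (2 ^ r / 2 ^ j) :=
    ⟨(Nat.div_pos (Nat.pow_le_pow_right two_pos ((hjn.trans hnr1).trans hrr1))
      (by positivity)).ne'⟩
  have n3 : NeZero (2 ^ r' / 2 ^ j) :=
    ⟨(Nat.div_pos (Nat.pow_le_pow_right two_pos ((hjn.trans hnr1).trans hrr1'))
      (by positivity)).ne'⟩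
  have hTT : ∀ s, TB P n ε s → P.TT n ε s := fun s hs => by
    refine ⟨hs.1.1, hs.1.2.trans ?_⟩
    have : (P.q0 - 2) * (4 * P.w ε) ≤ P.q0 * (4 * P.w ε) := Nat.mul_le_mul_right _ (by omega)
    omega
  -- inputs
  obtain ⟨hSz, t1⟩ := g1 D0 hD1 hD2 r1 r1 hB.tt hB.tt
  obtain ⟨-, t2⟩ := g1 D0 hD1 hD2 r1 r hB.tt (hTT r hr)
  obtain ⟨-, t3⟩ := g1 D0 hD1 hD2 r1 r' hB.tt (hTT r' hr')
  have hcast : ((n - j : ℕ) : ℝ) = (n : ℝ) - j := Nat.cast_sub hjn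
  have hnsR : ((n : ℝ) - j) ≤ ε ^ (-(2 * c1)) := by
    rw [← hcast]
    exact hns
  have hcell := hB.cell hQ.C0 hC0 hεle hlam
  have typ := g3 an (P.x1 / 100) n ε y _ r1 j hB y3 hεle ha1 ha2 le_rfl hcell.1 hX.ns hnsR hSz.WN
  have h2n : (0 : ℝ) < 2 ^ n := by positivity
  have hLse : Ls n j = ((n : ℝ) - j) * Real.log 2 := by
    unfold H358.Ls
    rw [hcast]
  rw [hLse] at hD1 hD2 hLs
  have hD3 : A02 * (((n : ℝ) - j) * Real.log 2) ≤ (2 ^ j / 2 ^ n : ℝ) * D0 := by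
    have h3 : A02 * (((n : ℝ) - j) * Real.log 2) ≤ A0 * (((n : ℝ) - j) * Real.log 2) :=
      mul_le_mul_of_nonneg_right hA2 (by linarith)
    refine h3.trans ?_
    rw [div_mul_eq_mul_div, le_div_iff₀ h2n, mul_comm ((2 : ℝ) ^ j)]
    exact hD1
  have hD4 : (D0 : ℝ) * (2 ^ j / 2 ^ n) ≤ 2 * A0 * (((n : ℝ) - j) * Real.log 2) := by
    rw [mul_div_assoc', div_le_iff₀ h2n]
    exact hD2
  have hD5 : ((2 ^ (n - j) : ℕ) : ℝ) * (2 ^ j / 2 ^ n) ≤ 1 := by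
    have h3 : (2 : ℝ) ^ (n - j) * 2 ^ j = 2 ^ n := by
      rw [← pow_add, Nat.sub_add_cancel hjn]
    push_cast
    rw [mul_div_assoc', h3, div_self h2n.ne']
  have hfit := hSz.fit
  have htn := tn_pos n
  obtain ⟨-, -, out⟩ := g2 b an n j r1 D0 ε y _ (tn n) hb hB rfl y2 le_rfl (by linarith) hjn hns
    hlamy hD3 (by have h2j := Nat.two_pow_pos (n - j); omega)
  obtain ⟨o1, o2, o3⟩ := g7 P' b an n ε y _ r1 j hb hB (hjn.trans hnr1) y5 hX.es hX.y1 hεy hCHB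
  -- windows
  have hDw := hLv.win hS1 hC1 hc1 (by linarith) hD4 hD5
  obtain ⟨-, -, -, w12, -, -, w16, -⟩ := g4 C1 hC1 hC1K b n j ε y hX.G hLv hX.vy (tn n) le_rfl
    (by linarith) r1 r hB.tt (hTT r hr) hrr1 (D0 + 2 ^ (n - j)) hDw
  have w23 : WinHS (D0 + 2 ^ (n - j)) (H363.acl (2 ^ r) (2 ^ j) b (tn n) (tn n))
      (H363.acl (2 ^ r') (2 ^ j) b (tn n) (tn n)) (ε ^ (3 * P.x1)) := by
    rcases le_total r r' with h3 | h3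
    · obtain ⟨-, -, -, -, -, -, -, w⟩ := g4 C1 hC1 hC1K b n j ε y hX.G hLv hX.vy (tn n) le_rfl
        (by linarith) r r' (hTT r hr) (hTT r' hr') h3 (D0 + 2 ^ (n - j)) hDw
      exact (w hr.2).1
    · obtain ⟨-, -, -, -, -, -, -, w⟩ := g4 C1 hC1 hC1K b n j ε y hX.G hLv hX.vy (tn n) le_rfl
        (by linarith) r' r (hTT r' hr') (hTT r hr) h3 (D0 + 2 ^ (n - j)) hDw
      exact (w hr'.2).2
  have hη23 : 8 * ε ^ (3 * P.x1) ≤ 1 := by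
    have h3 : ε ^ (3 * P.x1) ≤ y ^ (3 * P.x1) := Real.rpow_le_rpow hε0.le hεle (by linarith)
    have h4 := g10 y hy0.le y8
    linarith
  have hη12p : 0 < ε ^ P.th := Real.rpow_pos_of_pos hε0 _
  have hη23p : 0 ≤ ε ^ (3 * P.x1) := Real.rpow_nonneg hε0.le _
  have hδ0 : 0 ≤ y ^ (2 - P.x1) := Real.rpow_nonneg hy0.le _
  have h6h := p6h_at hb hB (g8 y hy0 y6) hjn hSz t1 t2 t3 (Real.exp_pos _).le typ out o2
    (o3.trans (Real.rpow_le_rpow_of_exponent_ge hy0 hyle (by linarith))) w12 w23 hη12p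
    (by linarith) hη23p hη23
  have hRR : R6 (2 ^ r1) (2 ^ j) b (tn n) (y ^ (2 - P.x1)) (y ^ (2 - P.x1))
      (4 * 2 ^ (r1 - n) * (ε ^ (-(P.x1 / 100)) * y)) (y ^ (2 - P.x1)) (y ^ (-CWx C1))
      (Real.exp (-(81 * Ls n j))) ≤
      17 * y ^ (2 - P.x1) + y ^ (-CWx C1) * Real.exp (-(81 * Ls n j)) := by
    have h3 := hB.oY (g8 y hy0 y6) (H462.oT_nonneg hb.le (pow_dvd_pow 2 (hjn.trans hnr1)) htn) o1
    unfold H462.R6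
    rw [mul_assoc 7]
    linarith
  obtain ⟨Λ, lam, hΛ, hlm, hfin⟩ := g9 y ε (y ^ (-CWx C1)) (Real.exp (-(81 * Ls n j)))
    (ε ^ P.th) (ε ^ (3 * P.x1)) (((D0 : ℝ) + (2 ^ (n - j) : ℕ)) / (2 ^ (n - j) : ℕ)) _ hy0 y7 hε0
    hεy (Real.rpow_nonneg hy0.le _) le_rfl (Real.exp_pos _).le
    (he0 P.x1 16 hx1 (by norm_num)) (H462.R6_nonneg h6h) hRR hη12p
    le_rfl hη23p le_rfl (by positivity) hSz.ρ
  rw [aT_eq ((hjn.trans hnr1).trans hrr1), aT_eq ((hjn.trans hnr1).trans hrr1')]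
  exact (aq_torus h6h hΛ hlm).trans hfin

end Vale.Agent.P159.H801
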