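import Vale.Agent.P159.H159.Sp5

/-!
P159 (helper801), P#, **the torus change at the states `SS`** of the sharp relation.
-/

open Filter Topology Finset MeasureTheory Matrix

namespace Vale.Agent.P159.H801

open Vale.Agent.P159.H972 (Par Good tn tn_pos Par.Adm)
open Vale.Agent.P159.H43 (CHB)
open Vale.Agent.P159.H114 (TB aT)
open Vale.Agent.P159.H889 (Cx)
open Vale.Agent.P159.H846.Two (Ev2 PQ)

/-- the conditions on the two sets of parameters, numbers of the final instance -/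
lemma cnd_ev {b1 b2 : ℝ} (Q : ℕ) : Ev2 b1 b2 (9 / 10) Q fun P P' _ =>
    Cnd P P' (P.x1 / 100) (1 / 20) (P.x1 / 30) (P.x1 / 100) ∧ P.x1 ≤ 1 / 2 := by
  have e3 := H846.Two.Ev2.x1_le (b1 := b1) (b2 := b2) (pf := 9 / 10) (Q := Q) (r := 1 / 2)
    (g := fun x => x) (by norm_num) (fun x hx => hx)
  have e4 := H846.Two.Ev2.order (b1 := b1) (b2 := b2) (pf := 9 / 10) (Q := Q)
    (g1 := fun x _ => x / 5000) (g2 := fun _ => 1 / 2) (g3 := fun _ => 0) (g4 := fun _ => 1)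
    (g5 := fun _ _ => 1) (fun x _ hx _ => by positivity) (fun _ _ => by norm_num)
    (fun _ _ => one_pos) (fun _ _ _ _ => one_pos)
  refine (e3.and e4).mono ?_
  rintro P P' c1 hQ hc1 ⟨g3, g4⟩
  obtain ⟨g5, g5'⟩ := g3
  obtain ⟨g6, g7, -⟩ := g4
  have hx1 := hQ.x1
  exact ⟨⟨hQ.th.ge, g7, by rw [hQ.thp]; linarith, hQ.es, by positivity, by positivity,
    by norm_num, by norm_num, by positivity, by linarith, by linarith⟩, by linarith⟩

/-- **the torus change at the states `SS`** of the sharp relation -/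
theorem tor_ss {b b1 b2 K : ℝ} {Q : ℕ} (hb1 : 0 < b1) (h1 : b1 ≤ b) (h2 : b ≤ b2) :
    Ev2 b1 b2 (9 / 10) Q fun P P' c1 => ∀ C1 : ℝ, 1 ≤ C1 → P.C0 ≤ C1 → C1 ≤ K * P.C0 →
      ∃ E : ℝ, 0 < E ∧ ∀ (VS : ℕ → ℝ → ℝ → Prop) (u a : ℕ → ℝ) (n j : ℕ) (ε y : ℝ), FLC P b a →
        SS P P' b VS u (P.x1 / 100) (1 / 20) (P.x1 / 30) c1 n ε y → Cx P b C1 c1 n j ε y →
        11 / 10 ≤ a n → a n ≤ 159 / 100 →
        CHB P b n ε (y ^ (2 - P.x1 / 50) + y * ε ^ (2 : ℝ)) → y ≤ E →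
        ∀ r r', TB P n ε r → TB P n ε r' → |aT b n r j - aT b n r' j| ≤ y ^ (2 + P.x1) := by
  refine ((H159.tor_ev (K := K) (Q := Q) hb1 h1 h2).and (cnd_ev Q)).mono ?_
  rintro P P' c1 hQ hc1 ⟨g1, hC, hx2⟩ C1 hC1 hC0 hC1K
  obtain ⟨E, hE, g1⟩ := g1 C1 hC1 hC0 hC1K
  refine ⟨E, hE, fun VS u a n j ε y ha hS hX ha1 ha2 hCHB hy r r' hr hr' => ?_⟩
  have hth := hQ.adm.hth
  have hx := hQ.adm.hx
  have hth0 := P.th0
  have hthp0 := P.thp0
  have hB := base_of_ss hC hQ.adm hQ.adm' hQ.th (by linarith) (hQ.epf'.trans hQ.epf.symm)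
    (by linarith) ha hS
  have e : 2 - 3 * (P.x1 / 30) = 2 - P.x1 / 10 := by ring
  rw [e] at hB
  refine g1 (a n) ε y n j _ hB hX (hS.up.trans ?_) ha1 ha2 hCHB hy r r' hr hr'
  exact Real.rpow_le_rpow_of_exponent_ge hB.y0 hB.y1 (by norm_num)

end Vale.Agent.P159.H801
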