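import Vale.Agent.P159.H801.Close
import Vale.Agent.P159.H264.Ode
import Mathlib.Analysis.Complex.ExponentialBounds

/-!
P159 (helper801), module WODE: from the one step relation (V), a crude one step bound of `x` and the
relation (P) on logarithmic windows to the integrated relations with summable errors.
-/

open Filter Topology Finset

namespace Vale.Agent.P159.H801

open Vale.Agent.P159.H264 (TT)

/-- the flow: one step relation (V), crude bounds of `x` -/
structure Fl (x y : ℕ → ℝ) (κ c r q : ℝ) (N : ℕ) : Prop where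
  κ0 : 0 < κ
  c0 : 0 < c
  r0 : 0 < r
  q0 : 0 < q
  q1 : q ≤ 1
  y0 : ∀ n, 0 < y n
  xq : ∀ n, N ≤ n → |x n| ≤ y n ^ q
  V : ∀ n, N ≤ n → |Real.log (y (n + 1)) - Real.log (y n) + κ * x n| ≤ y n ^ (1 + c)
  X : ∀ n, N ≤ n → |x (n + 1) - x n| ≤ y n ^ r
  yt : Tendsto y atTop (𝓝 0)

/-- windows of logarithmic length -/
structure Wn (y : ℕ → ℝ) (w : ℕ → ℕ) (B : ℝ) (N : ℕ) : Prop where
  B0 : 0 < B
  w1 : ∀ n, N ≤ n → 1 ≤ w n
  wB : ∀ n, N ≤ n → (w n : ℝ) ≤ B * Real.log (1 / y n)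

variable {x y : ℕ → ℝ} {κ c r q B : ℝ} {N : ℕ} {w : ℕ → ℕ}

lemma rp_cmp {a0 a1 s η : ℝ} (h0 : 0 < a0) (h1 : 0 < a1)
    (h : |Real.log a1 - Real.log a0| ≤ η) (hs : 0 ≤ s) : a0 ^ s ≤ Real.exp (s * η) * a1 ^ s := by
  rw [Real.rpow_def_of_pos h0, Real.rpow_def_of_pos h1, ← Real.exp_add]
  apply Real.exp_le_exp.2
  have h2 := (abs_le.1 h).1
  nlinarith

lemma exp_one_le : Real.exp 1 ≤ 3 := Real.exp_one_lt_three.le

lemma Fl.xt (h : Fl x y κ c r q N) : Tendsto x atTop (𝓝 0) := by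
  have h1 : Tendsto (fun n => y n ^ q) atTop (𝓝 (0 ^ q)) :=
    h.yt.rpow_const (Or.inr h.q0.le)
  rw [Real.zero_rpow h.q0.ne'] at h1
  refine squeeze_zero_norm' ?_ h1
  filter_upwards [eventually_ge_atTop N] with n hn
  exact h.xq n hn

lemma Fl.ev_pow (h : Fl x y κ c r q N) {b e : ℝ} (hb : 0 < b) (he : 0 < e) :
    ∀ᶠ n in atTop, y n ^ b ≤ e := by
  obtain ⟨e1, he1, h1⟩ := small_pow hb he
  filter_upwards [h.yt.eventually (gt_mem_nhds he1)] with n hn
  exact h1 _ (h.y0 n).le hn.le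

lemma Fl.ev_one (h : Fl x y κ c r q N) : ∀ᶠ n in atTop, y n ≤ 1 := by
  filter_upwards [h.yt.eventually (gt_mem_nhds one_pos)] with n hn using hn.le

lemma Fl.ev_w (h : Fl x y κ c r q N) (hw : Wn y w B N) {b e : ℝ} (hb : 0 < b) (he : 0 < e) :
    ∀ᶠ n in atTop, 4 * (w n : ℝ) * y n ^ b ≤ e := by
  have hB := hw.B0
  obtain ⟨e1, he1, h1⟩ := log_small (a := b) (c := e / (4 * B)) hb (by positivity)
  filter_upwards [h.yt.eventually (gt_mem_nhds he1), eventually_ge_atTop N] with n hn hN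
  have h2 := h1 _ (h.y0 n) hn.le
  have h3 := hw.wB n hN
  have h4 : 0 < y n ^ b := Real.rpow_pos_of_pos (h.y0 n) _
  rw [le_div_iff₀ (by positivity)] at h2
  calc 4 * (w n : ℝ) * y n ^ b ≤ 4 * (B * Real.log (1 / y n)) * y n ^ b := by
        apply mul_le_mul_of_nonneg_right _ h4.le
        linarith
    _ = y n ^ b * Real.log (1 / y n) * (4 * B) := by ring
    _ ≤ e := h2

/-- `y` varies little over a window -/
lemma Fl.var (h : Fl x y κ c r q N) (hw : Wn y w B N) {η : ℝ} (hη : 0 < η) :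
    ∀ᶠ n in atTop, ∀ k, n ≤ k → k ≤ n + 4 * w n → |Real.log (y k) - Real.log (y n)| ≤ η := by
  have hκ := h.κ0
  have hm : 0 < min η 1 := lt_min hη one_pos
  have e1 := h.ev_w hw (b := q) (e := min η 1 / (3 * (κ + 1))) h.q0 (by positivity)
  have e2 : ∀ᶠ n in atTop, ∀ k, n ≤ k → y k ≤ 1 := by
    obtain ⟨K, hK⟩ := eventually_atTop.1 h.ev_one
    filter_upwards [eventually_ge_atTop K] with n hn k hk
    exact hK k (hn.trans hk)
  filter_upwards [e1, e2, eventually_ge_atTop N] with n h1 h2 h3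
  set D : ℝ := 3 * (κ + 1) * y n ^ q with hD
  have hD0 : 0 < D := by have := h.y0 n; positivity
  have hDw : 4 * (w n : ℝ) * D ≤ min η 1 := by
    rw [le_div_iff₀ (by positivity)] at h1
    calc 4 * (w n : ℝ) * D = 4 * (w n : ℝ) * y n ^ q * (3 * (κ + 1)) := by rw [hD]; ring
      _ ≤ min η 1 := h1
  have key : ∀ i : ℕ, i ≤ 4 * w n → |Real.log (y (n + i)) - Real.log (y n)| ≤ i * D := by
    intro i
    induction i with
    | zero => intro _; simp
    | succ i ih =>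
      intro hi
      have h4 := ih (by omega)
      have h5 : (i : ℝ) * D ≤ min η 1 := by
        refine le_trans (mul_le_mul_of_nonneg_right ?_ hD0.le) hDw
        have : i ≤ 4 * w n := by omega
        exact_mod_cast this
      have h6 : y (n + i) ^ q ≤ 3 * y n ^ q := by
        have h7 : |Real.log (y n) - Real.log (y (n + i))| ≤ 1 := by
          rw [abs_sub_comm]
          exact (h4.trans h5).trans (min_le_right _ _)
        refine (rp_cmp (h.y0 _) (h.y0 n) h7 h.q0.le).trans ?_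
        refine mul_le_mul_of_nonneg_right ?_ (Real.rpow_nonneg (h.y0 n).le _)
        calc Real.exp (q * 1) ≤ Real.exp 1 := Real.exp_le_exp.2 (by linarith [h.q1])
          _ ≤ 3 := exp_one_le
      have h8 := h.V (n + i) (by omega)
      have h9 := h.xq (n + i) (by omega)
      have h10 : y (n + i) ^ (1 + c) ≤ y (n + i) ^ q :=
        Real.rpow_le_rpow_of_exponent_ge (h.y0 _) (h2 _ (by omega)) (by linarith [h.q1, h.c0])
      have h11 : |Real.log (y (n + i + 1)) - Real.log (y (n + i))| ≤ D := by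
        have h12 := abs_sub (Real.log (y (n + i + 1)) - Real.log (y (n + i)) + κ * x (n + i))
          (κ * x (n + i))
        rw [add_sub_cancel_right, abs_mul, abs_of_pos hκ] at h12
        have h13 := mul_le_mul_of_nonneg_left h9 hκ.le
        have h14 : κ * y (n + i) ^ q + y (n + i) ^ q ≤ D := by
          have := mul_le_mul_of_nonneg_left h6 (by linarith : 0 ≤ κ + 1)
          rw [hD]
          linarith
        linarith
      have h12 := abs_add_le (Real.log (y (n + i + 1)) - Real.log (y (n + i)))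
        (Real.log (y (n + i)) - Real.log (y n))
      rw [sub_add_sub_cancel] at h12
      push_cast
      rw [← add_assoc]
      linarith
  intro k hk1 hk2
  obtain ⟨i, rfl⟩ := Nat.exists_eq_add_of_le hk1
  have hi : i ≤ 4 * w n := by omega
  refine (key i hi).trans (le_trans (mul_le_mul_of_nonneg_right ?_ hD0.le)
    (hDw.trans (min_le_left _ _)))
  exact_mod_cast hi

/-- sums over windows -/
lemma Fl.wsum (h : Fl x y κ c r q N) (hw : Wn y w B N) {s η : ℝ} (hs : 0 ≤ s) (hη : 0 < η) :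
    ∀ᶠ n in atTop, ∀ m, n ≤ m → m ≤ n + 4 * w n →
      Real.exp (-(s * η)) * (((m : ℝ) - n) * y n ^ s) ≤ ∑ k ∈ Ico n m, y k ^ s ∧
      ∑ k ∈ Ico n m, y k ^ s ≤ Real.exp (s * η) * (((m : ℝ) - n) * y n ^ s) := by
  filter_upwards [h.var hw hη] with n h1 m hm1 hm2
  have hc : ∀ b : ℝ, ∑ _k ∈ Ico n m, b = ((m : ℝ) - n) * b := by
    intro b
    rw [sum_const, Nat.card_Ico, nsmul_eq_mul, Nat.cast_sub hm1]
  constructor
  · calc Real.exp (-(s * η)) * (((m : ℝ) - n) * y n ^ s)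
        = ∑ _k ∈ Ico n m, Real.exp (-(s * η)) * y n ^ s := by rw [hc]; ring
      _ ≤ ∑ k ∈ Ico n m, y k ^ s := by
        refine sum_le_sum fun k hk => ?_
        have hk' := mem_Ico.1 hk
        have h2 := rp_cmp (h.y0 n) (h.y0 k) (h1 k hk'.1 (by omega)) hs
        calc Real.exp (-(s * η)) * y n ^ s ≤ Real.exp (-(s * η)) * (Real.exp (s * η) * y k ^ s) :=
              mul_le_mul_of_nonneg_left h2 (Real.exp_pos _).le
          _ = y k ^ s := by rw [← mul_assoc, ← Real.exp_add]; simp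
  · calc ∑ k ∈ Ico n m, y k ^ s ≤ ∑ _k ∈ Ico n m, Real.exp (s * η) * y n ^ s := by
          refine sum_le_sum fun k hk => ?_
          have hk' := mem_Ico.1 hk
          refine rp_cmp (h.y0 k) (h.y0 n) ?_ hs
          rw [abs_sub_comm]
          exact h1 k hk'.1 (by omega)
      _ = Real.exp (s * η) * (((m : ℝ) - n) * y n ^ s) := by rw [hc]; ring

/-- window sums are small -/
lemma Fl.wsml (h : Fl x y κ c r q N) (hw : Wn y w B N) {b s : ℝ} (hb : 0 ≤ b) (hbs : b < s) :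
    ∀ᶠ n in atTop, ∀ k m, n ≤ k → k ≤ n + 4 * w n → n ≤ m → m ≤ n + 4 * w n →
      ∑ j ∈ Ico n k, y j ^ s ≤ y m ^ b := by
  have hs : 0 ≤ s := by linarith
  have e1 := h.ev_w hw (b := s - b) (e := Real.exp (-(s * 1)) * Real.exp (-(b * 1)))
    (by linarith) (by positivity)
  filter_upwards [h.var hw one_pos, h.wsum hw hs one_pos, e1]
    with n h1 h2 h3 k m hk1 hk2 hm1 hm2
  have h6 := (h2 k hk1 hk2).2
  have h7 : ((k : ℝ) - n) ≤ 4 * w n := by
    have : (k : ℝ) ≤ n + 4 * w n := by exact_mod_cast hk2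
    linarith
  have hyn := h.y0 n
  have h8 : y n ^ b ≤ Real.exp (b * 1) * y m ^ b := rp_cmp hyn (h.y0 m) (h1 m hm1 hm2) hb
  have h9 : y n ^ s = y n ^ (s - b) * y n ^ b := by
    rw [← Real.rpow_add hyn]; congr 1; ring
  have h10 : 0 ≤ y n ^ s := Real.rpow_nonneg hyn.le _
  calc ∑ j ∈ Ico n k, y j ^ s ≤ Real.exp (s * 1) * (((k : ℝ) - n) * y n ^ s) := h6
    _ ≤ Real.exp (s * 1) * (4 * w n * y n ^ s) :=
        mul_le_mul_of_nonneg_left (mul_le_mul_of_nonneg_right h7 h10) (Real.exp_pos _).le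
    _ = Real.exp (s * 1) * (4 * w n * y n ^ (s - b)) * y n ^ b := by rw [h9]; ring
    _ ≤ Real.exp (s * 1) * (Real.exp (-(s * 1)) * Real.exp (-(b * 1))) *
          (Real.exp (b * 1) * y m ^ b) :=
        mul_le_mul (mul_le_mul_of_nonneg_left h3 (Real.exp_pos _).le) h8
          (Real.rpow_nonneg hyn.le _) (by positivity)
    _ = (Real.exp (s * 1) * Real.exp (-(s * 1))) * (Real.exp (-(b * 1)) * Real.exp (b * 1)) *
          y m ^ b := by ring
    _ = y m ^ b := by rw [← Real.exp_add, ← Real.exp_add]; simp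

/-- `x` varies little over a window -/
lemma Fl.xvar (h : Fl x y κ c r q N) (hw : Wn y w B N) {b : ℝ} (hb : 0 ≤ b) (hbr : b < r) :
    ∀ᶠ n in atTop, ∀ k m, n ≤ k → k ≤ n + 4 * w n → n ≤ m → m ≤ n + 4 * w n →
      |x k - x n| ≤ y m ^ b := by
  filter_upwards [h.wsml hw hb hbr, eventually_ge_atTop N] with n h1 h4 k m hk1 hk2 hm1 hm2
  refine le_trans ?_ (h1 k m hk1 hk2 hm1 hm2)
  clear hk2
  induction k, hk1 using Nat.le_induction with
  | base => simp
  | succ k hk ih =>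
    rw [sum_Ico_succ_top hk]
    have h6 := h.X k (h4.trans hk)
    have h7 := abs_add_le (x (k + 1) - x k) (x k - x n)
    rw [sub_add_sub_cancel] at h7
    linarith

/-! ### chains of windows -/

/-- the chain of windows starting at `n` -/
def itw (w : ℕ → ℕ) (n j : ℕ) : ℕ := (fun k => k + w k)^[j] n

lemma itw_zero (w : ℕ → ℕ) (n : ℕ) : itw w n 0 = n := rfl

lemma itw_succ (w : ℕ → ℕ) (n j : ℕ) : itw w n (j + 1) = itw w n j + w (itw w n j) := by
  unfold itw
  rw [Function.iterate_succ_apply']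

lemma itw_ge (hw : ∀ n, N ≤ n → 1 ≤ w n) {n : ℕ} (hn : N ≤ n) (j : ℕ) : n + j ≤ itw w n j := by
  induction j with
  | zero => exact le_rfl
  | succ j ih =>
    rw [itw_succ]
    have := hw (itw w n j) (by omega)
    omega

lemma itw_tend (hw : ∀ n, N ≤ n → 1 ≤ w n) {n : ℕ} (hn : N ≤ n) :
    Tendsto (itw w n) atTop atTop :=
  tendsto_atTop_mono (fun j => (Nat.le_add_left j n).trans (itw_ge hw hn j)) tendsto_id

/-- a transitive relation propagates along chains -/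
lemma itw_rel {R : ℕ → ℕ → Prop} (hrefl : ∀ n, R n n) (htr : ∀ a b c, R a b → R b c → R a c)
    (hw : ∀ n, N ≤ n → 1 ≤ w n) (hR : ∀ n, N ≤ n → R n (n + w n)) {n : ℕ} (hn : N ≤ n) (j : ℕ) :
    R n (itw w n j) := by
  induction j with
  | zero => exact hrefl n
  | succ j ih =>
    rw [itw_succ]
    exact htr _ _ _ ih (hR _ (by have := itw_ge hw hn j; omega))

/-- last point of the chain before `M` -/
lemma itw_hit {R : ℕ → ℕ → Prop} (hrefl : ∀ n, R n n) (htr : ∀ a b c, R a b → R b c → R a c)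
    (hw : ∀ n, N ≤ n → 1 ≤ w n) (hR : ∀ n, N ≤ n → R n (n + w n)) {n M : ℕ} (hn : N ≤ n)
    (hM : n ≤ M) : ∃ m, n ≤ m ∧ m ≤ M ∧ M < m + w m ∧ R n m := by
  by_contra hcon
  push Not at hcon
  have key : ∀ j, itw w n j ≤ M := by
    intro j
    induction j with
    | zero => exact hM
    | succ j ih =>
      rw [itw_succ]
      by_contra hlt
      push Not at hlt
      exact hcon _ ((Nat.le_add_right _ _).trans (itw_ge hw hn j)) ih hlt
        (itw_rel hrefl htr hw hR hn j)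
  have h1 := itw_ge hw hn (M + 1)
  have h2 := key (M + 1)
  omega

/-- (P_low) at the windows in terms of sums -/
lemma Fl.low_win (h : Fl x y κ c r q N) (hw : Wn y w B N) {a c0 c1 : ℝ} (ha : 0 ≤ a)
    (hc1 : 0 < c1) (hc : c1 < c0)
    (hP : ∀ᶠ n in atTop, c0 * (w n * y n ^ a) ≤ x n - x (n + w n)) :
    ∀ᶠ n in atTop, c1 * ∑ k ∈ Ico n (n + w n), y k ^ a ≤ x n - x (n + w n) := by
  have hc0 : 0 < c0 := hc1.trans hc
  have hlog : 0 < Real.log (c0 / c1) := Real.log_pos (by rw [one_lt_div hc1]; exact hc)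
  filter_upwards [h.wsum hw (s := a) (η := Real.log (c0 / c1) / (a + 1)) ha (by positivity), hP]
    with n h1 h2
  have h3 := (h1 (n + w n) (Nat.le_add_right _ _) (by omega)).2
  have h4 : Real.exp (a * (Real.log (c0 / c1) / (a + 1))) ≤ c0 / c1 := by
    have h5 : a * (Real.log (c0 / c1) / (a + 1)) ≤ Real.log (c0 / c1) := by
      rw [mul_div_assoc', div_le_iff₀ (by linarith)]
      nlinarith
    calc _ ≤ Real.exp (Real.log (c0 / c1)) := Real.exp_le_exp.2 h5
      _ = c0 / c1 := Real.exp_log (by positivity)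
  have h5 : (((n + w n : ℕ) : ℝ) - n) * y n ^ a = w n * y n ^ a := by push_cast; ring
  rw [h5] at h3
  have h6 : 0 ≤ (w n : ℝ) * y n ^ a := by have := h.y0 n; positivity
  calc c1 * ∑ k ∈ Ico n (n + w n), y k ^ a
      ≤ c1 * (Real.exp (a * (Real.log (c0 / c1) / (a + 1))) * (w n * y n ^ a)) :=
        mul_le_mul_of_nonneg_left h3 hc1.le
    _ ≤ c1 * (c0 / c1 * (w n * y n ^ a)) :=
        mul_le_mul_of_nonneg_left (mul_le_mul_of_nonneg_right h4 h6) hc1.le
    _ = c0 * (w n * y n ^ a) := by rw [← mul_assoc, mul_div_cancel₀ _ hc1.ne']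
    _ ≤ _ := h2

/-- (P_up) at the windows in terms of sums -/
lemma Fl.up_win (h : Fl x y κ c r q N) (hw : Wn y w B N) {a c0 c1 : ℝ} (ha : 0 ≤ a)
    (hc0 : 0 < c0) (hc : c0 < c1)
    (hP : ∀ᶠ n in atTop, x n - x (n + w n) ≤ c0 * (w n * y n ^ a)) :
    ∀ᶠ n in atTop, x n - x (n + w n) ≤ c1 * ∑ k ∈ Ico n (n + w n), y k ^ a := by
  have hc1 : 0 < c1 := hc0.trans hc
  have hlog : 0 < Real.log (c1 / c0) := Real.log_pos (by rw [one_lt_div hc0]; exact hc)
  filter_upwards [h.wsum hw (s := a) (η := Real.log (c1 / c0) / (a + 1)) ha (by positivity), hP]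
    with n h1 h2
  have h3 := (h1 (n + w n) (Nat.le_add_right _ _) (by omega)).1
  have h4 : c0 / c1 ≤ Real.exp (-(a * (Real.log (c1 / c0) / (a + 1)))) := by
    have h5 : a * (Real.log (c1 / c0) / (a + 1)) ≤ Real.log (c1 / c0) := by
      rw [mul_div_assoc', div_le_iff₀ (by linarith)]
      nlinarith
    calc c0 / c1 = Real.exp (-Real.log (c1 / c0)) := by
          rw [Real.exp_neg, Real.exp_log (by positivity), inv_div]
      _ ≤ _ := Real.exp_le_exp.2 (by linarith)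
  have h5 : (((n + w n : ℕ) : ℝ) - n) * y n ^ a = w n * y n ^ a := by push_cast; ring
  rw [h5] at h3
  have h6 : 0 ≤ (w n : ℝ) * y n ^ a := by have := h.y0 n; positivity
  calc x n - x (n + w n) ≤ c0 * (w n * y n ^ a) := h2
    _ = c1 * (c0 / c1 * (w n * y n ^ a)) := by field_simp
    _ ≤ c1 * (Real.exp (-(a * (Real.log (c1 / c0) / (a + 1)))) * (w n * y n ^ a)) :=
        mul_le_mul_of_nonneg_left (mul_le_mul_of_nonneg_right h4 h6) hc1.le
    _ ≤ _ := mul_le_mul_of_nonneg_left h3 hc1.le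

/-- the maximum of a tail is attained -/
lemma max_tail (hy0 : ∀ n, 0 < y n) (hyt : Tendsto y atTop (𝓝 0)) (n : ℕ) :
    ∃ m, n ≤ m ∧ ∀ k, n ≤ k → y k ≤ y m := by
  obtain ⟨K, hK⟩ := eventually_atTop.1 (hyt.eventually (gt_mem_nhds (hy0 n)))
  obtain ⟨m, hm1, hm2⟩ := Finset.exists_max_image (Finset.Icc n (max n K)) y
    ⟨n, Finset.mem_Icc.2 ⟨le_rfl, le_max_left _ _⟩⟩
  have hm1' := Finset.mem_Icc.1 hm1
  refine ⟨m, hm1'.1, fun k hk => ?_⟩
  rcases le_total k (max n K) with h1 | h1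
  · exact hm2 k (Finset.mem_Icc.2 ⟨hk, h1⟩)
  · have h2 := hK k ((le_max_right _ _).trans h1)
    exact h2.le.trans (hm2 n (Finset.mem_Icc.2 ⟨le_rfl, le_max_left _ _⟩))

/-- sums over all `[n, M)` are bounded by `x n` -/
lemma sum_le_x {f : ℕ → ℝ} {N1 : ℕ} {c1 : ℝ} (hf : ∀ n, 0 ≤ f n) (hc1 : 0 < c1)
    (hw1 : ∀ n, N1 ≤ n → 1 ≤ w n) (hxt : Tendsto x atTop (𝓝 0))
    (hP : ∀ n, N1 ≤ n → c1 * ∑ k ∈ Ico n (n + w n), f k ≤ x n - x (n + w n)) {n M : ℕ}
    (hn : N1 ≤ n) : c1 * ∑ k ∈ Ico n M, f k ≤ x n := by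
  have hR : ∀ j, n ≤ itw w n j ∧ c1 * ∑ k ∈ Ico n (itw w n j), f k ≤ x n - x (itw w n j) := by
    intro j
    refine ⟨(Nat.le_add_right _ _).trans (itw_ge hw1 hn j), ?_⟩
    refine itw_rel (R := fun a b => a ≤ b ∧ c1 * ∑ k ∈ Ico a b, f k ≤ x a - x b)
      (fun a => ⟨le_rfl, by simp⟩) ?_ hw1 (fun a ha => ⟨Nat.le_add_right _ _, hP a ha⟩) hn j |>.2
    rintro a b d ⟨h1, h2⟩ ⟨h3, h4⟩
    refine ⟨h1.trans h3, ?_⟩
    rw [← sum_Ico_consecutive _ h1 h3, mul_add]
    linarith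
  have hlim : Tendsto (fun j => x n - x (itw w n j)) atTop (𝓝 (x n - 0)) :=
    tendsto_const_nhds.sub (hxt.comp (itw_tend hw1 hn))
  rw [sub_zero] at hlim
  refine ge_of_tendsto hlim ?_
  filter_upwards [(itw_tend hw1 hn).eventually (eventually_ge_atTop M)] with j hj
  refine le_trans (mul_le_mul_of_nonneg_left ?_ hc1.le) (hR j).2
  exact sum_le_sum_of_subset_of_nonneg (Ico_subset_Ico_right hj) fun k _ _ => hf k

/-- upper version -/
lemma x_le_sum {f : ℕ → ℝ} {N1 : ℕ} {c1 : ℝ} (hc1 : 0 < c1)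
    (hw1 : ∀ n, N1 ≤ n → 1 ≤ w n) (hxt : Tendsto x atTop (𝓝 0))
    (hP : ∀ n, N1 ≤ n → x n - x (n + w n) ≤ c1 * ∑ k ∈ Ico n (n + w n), f k) {n : ℕ} {z : ℝ}
    (hz : ∀ M, ∑ k ∈ Ico n M, f k ≤ z) (hn : N1 ≤ n) : x n ≤ c1 * z := by
  have hR : ∀ j, x n - x (itw w n j) ≤ c1 * ∑ k ∈ Ico n (itw w n j), f k := by
    intro j
    refine itw_rel (R := fun a b => a ≤ b ∧ x a - x b ≤ c1 * ∑ k ∈ Ico a b, f k)
      (fun a => ⟨le_rfl, by simp⟩) ?_ hw1 (fun a ha => ⟨Nat.le_add_right _ _, hP a ha⟩) hn j |>.2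
    rintro a b d ⟨h1, h2⟩ ⟨h3, h4⟩
    refine ⟨h1.trans h3, ?_⟩
    rw [← sum_Ico_consecutive _ h1 h3, mul_add]
    linarith
  have hlim : Tendsto (fun j => x n - x (itw w n j)) atTop (𝓝 (x n - 0)) :=
    tendsto_const_nhds.sub (hxt.comp (itw_tend hw1 hn))
  rw [sub_zero] at hlim
  refine le_of_tendsto hlim (Eventually.of_forall fun j => ?_)
  exact (hR j).trans (mul_le_mul_of_nonneg_left (hz _) hc1.le)

/-- the one step inequality for `y^a` -/
lemma Fl.y_step (h : Fl x y κ c r q N) {a : ℝ} (ha : 0 ≤ a) {m : ℕ} (hm : N ≤ m) :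
    y m ^ a - y (m + 1) ^ a ≤ a * (κ * x m + y m ^ (1 + c)) * y m ^ a := by
  have h1 := (abs_le.1 (h.V m hm)).1
  have hy := h.y0 m
  have hy1 := h.y0 (m + 1)
  have h2 : y (m + 1) ^ a = y m ^ a * Real.exp (a * (Real.log (y (m + 1)) - Real.log (y m))) := by
    rw [Real.rpow_def_of_pos hy1, Real.rpow_def_of_pos hy, ← Real.exp_add]
    congr 1
    ring
  have h3 := Real.add_one_le_exp (a * (Real.log (y (m + 1)) - Real.log (y m)))
  have h4 : 0 ≤ y m ^ a := Real.rpow_nonneg hy.le _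
  have h5 := mul_le_mul_of_nonneg_left h3 h4
  have h6 : a * (-(κ * x m) - y m ^ (1 + c)) ≤ a * (Real.log (y (m + 1)) - Real.log (y m)) :=
    mul_le_mul_of_nonneg_left (by linarith) ha
  have h7 := mul_le_mul_of_nonneg_left h6 h4
  rw [h2]
  linarith

/-- **lower bound of `x`**: (P_low) with exponent `a < 2 + 2c'` gives `y^a ≤ K x²` -/
theorem Fl.lower (h : Fl x y κ c r q N) (hw : Wn y w B N) {a c0 c' : ℝ} (ha : 0 < a)
    (hc' : 0 < c') (hcc : c' ≤ c) (hcr : 1 + c' < r) (ha2 : a < 2 + 2 * c') (hc0 : 0 < c0)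
    (hP : ∀ᶠ n in atTop, c0 * (w n * y n ^ a) ≤ x n - x (n + w n)) :
    ∃ K, 0 < K ∧ ∀ᶠ n in atTop, 0 < x n ∧ y n ^ a ≤ K * x n ^ 2 := by
  have hκ := h.κ0
  set K : ℝ := 2 * a / c0 * (6 * κ + 2) with hK
  have hK0 : 0 < K := by positivity
  refine ⟨K, hK0, ?_⟩
  have e1 := h.low_win hw (c1 := c0 / 2) ha.le (by positivity) (by linarith) hP
  have e2 := h.xvar hw (b := 1 + c') (by positivity) hcr
  have e3 := h.ev_pow (b := 2 + 2 * c' - a) (e := 1 / (2 * K)) (by linarith) (by positivity)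
  obtain ⟨N1, hN1⟩ := eventually_atTop.1
    (e1.and (e2.and (e3.and (h.ev_one.and (eventually_ge_atTop N)))))
  have hw1 : ∀ n, N1 ≤ n → 1 ≤ w n := fun n hn => hw.w1 n (hN1 n hn).2.2.2.2
  have hPs : ∀ n, N1 ≤ n → c0 / 2 * ∑ k ∈ Ico n (n + w n), y k ^ a ≤ x n - x (n + w n) :=
    fun n hn => (hN1 n hn).1
  have hf : ∀ n, 0 ≤ y n ^ a := fun n => Real.rpow_nonneg (h.y0 n).le _
  have hB : ∀ n M, N1 ≤ n → c0 / 2 * ∑ k ∈ Ico n M, y k ^ a ≤ x n := fun n M hn =>
    sum_le_x hf (by positivity) hw1 h.xt hPs hn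
  have hx0 : ∀ n, N1 ≤ n → 0 < x n := by
    intro n hn
    have h1 := hB n (n + 1) hn
    have h2 : ∑ k ∈ Ico n (n + 1), y k ^ a = y n ^ a := by simp
    rw [h2] at h1
    have h3 := Real.rpow_pos_of_pos (h.y0 n) a
    have h4 : 0 < c0 / 2 * y n ^ a := by positivity
    linarith
  -- near monotonicity
  have hC : ∀ n m, N1 ≤ n → n ≤ m → ∀ Y, (∀ k, n ≤ k → y k ≤ Y) → x m ≤ x n + Y ^ (1 + c') := by
    intro n m hn hm Y hY
    obtain ⟨i, hi1, hi2, hi3, hi4⟩ := itw_hit (R := fun a b => x b ≤ x a) (fun _ => le_rfl)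
      (fun _ _ _ h1 h2 => h2.trans h1) hw1
      (fun k hk => by
        have h1 := hPs k hk
        have h2 : 0 ≤ ∑ j ∈ Ico k (k + w k), y j ^ a := sum_nonneg fun j _ => hf j
        have h3 : 0 ≤ c0 / 2 * ∑ j ∈ Ico k (k + w k), y j ^ a := by positivity
        linarith) hn hm
    have h1 := (hN1 i (hn.trans hi1)).2.1 m i hi2 (by omega) le_rfl (by omega)
    have h2 := le_trans (le_abs_self _) h1
    have h3 : y i ^ (1 + c') ≤ Y ^ (1 + c') :=
      Real.rpow_le_rpow (h.y0 i).le (hY i hi1) (by positivity)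
    linarith
  -- the quadratic inequality
  have hD : ∀ n, N1 ≤ n → ∀ Y, 0 ≤ Y → Y ≤ 1 → (∀ k, n ≤ k → y k ≤ Y) →
      y n ^ a ≤ a * (κ * x n + (κ + 1) * Y ^ (1 + c')) * (2 / c0 * x n) := by
    intro n hn Y hY0 hY1 hY
    have hYp : 0 ≤ Y ^ (1 + c') := Real.rpow_nonneg hY0 _
    have hxn := hx0 n hn
    have h1 : ∀ M, n ≤ M → y n ^ a - y M ^ a ≤
        a * (κ * x n + (κ + 1) * Y ^ (1 + c')) * ∑ k ∈ Ico n M, y k ^ a := by
      intro M hM
      induction M, hM using Nat.le_induction with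
      | base => simp
      | succ M hM ih =>
        rw [sum_Ico_succ_top hM, mul_add]
        have h2 := h.y_step ha.le ((hN1 n hn).2.2.2.2.trans hM)
        have h3 := hC n M hn hM Y hY
        have h4 : y M ^ (1 + c) ≤ Y ^ (1 + c') := by
          have hM1 := hY M hM
          calc y M ^ (1 + c) ≤ y M ^ (1 + c') :=
                Real.rpow_le_rpow_of_exponent_ge (h.y0 M) (hM1.trans hY1) (by linarith)
            _ ≤ Y ^ (1 + c') := Real.rpow_le_rpow (h.y0 M).le hM1 (by positivity)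
        have h5 : a * (κ * x M + y M ^ (1 + c)) ≤ a * (κ * x n + (κ + 1) * Y ^ (1 + c')) := by
          apply mul_le_mul_of_nonneg_left _ ha.le
          have := mul_le_mul_of_nonneg_left h3 hκ.le
          linarith
        have h6 := mul_le_mul_of_nonneg_right h5 (hf M)
        linarith
    have hlim : Tendsto (fun M => y n ^ a - y M ^ a) atTop (𝓝 (y n ^ a - 0 ^ a)) :=
      tendsto_const_nhds.sub (h.yt.rpow_const (Or.inr ha.le))
    rw [Real.zero_rpow ha.ne', sub_zero] at hlim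
    refine le_of_tendsto hlim ?_
    filter_upwards [eventually_ge_atTop n] with M hM
    refine (h1 M hM).trans (mul_le_mul_of_nonneg_left ?_ (by positivity))
    have h2 := hB n M hn
    rw [div_mul_eq_mul_div, le_div_iff₀ hc0]
    linarith
  filter_upwards [eventually_ge_atTop N1] with n hn
  refine ⟨hx0 n hn, ?_⟩
  obtain ⟨m, hm1, hm2⟩ := max_tail h.y0 h.yt n
  have hmN := hn.trans hm1
  have hYm1 : y m ≤ 1 := (hN1 m hmN).2.2.2.1
  have hY0 := h.y0 m
  have hxn := hx0 n hn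
  have hxm := hx0 m hmN
  set P : ℝ := y m ^ (1 + c') with hPdef
  have hP0 : 0 < P := Real.rpow_pos_of_pos hY0 _
  have h1 := hD m hmN (y m) hY0.le hYm1 fun k hk => hm2 k (hm1.trans hk)
  have h2 := hC n m hn hm1 (y m) hm2
  have h3 : y m ^ a ≤ a * (κ * (x n + P) + (κ + 1) * P) * (2 / c0 * (x n + P)) := by
    refine h1.trans (mul_le_mul ?_ ?_ (by positivity) (by positivity))
    · apply mul_le_mul_of_nonneg_left _ ha.le
      have := mul_le_mul_of_nonneg_left h2 hκ.le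
      linarith
    · exact mul_le_mul_of_nonneg_left h2 (by positivity)
  have hle : y n ^ a ≤ y m ^ a := Real.rpow_le_rpow (h.y0 n).le (hm2 n le_rfl) ha.le
  refine hle.trans ?_
  rcases le_total P (x n) with h4 | h4
  · have h5 : a * (κ * (x n + P) + (κ + 1) * P) * (2 / c0 * (x n + P)) ≤
        a * ((3 * κ + 1) * x n) * (2 / c0 * (2 * x n)) := by
      apply mul_le_mul _ _ (by positivity) (by positivity)
      · apply mul_le_mul_of_nonneg_left _ ha.le
        nlinarith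
      · apply mul_le_mul_of_nonneg_left _ (by positivity)
        linarith
    refine h3.trans (h5.trans (le_of_eq ?_))
    rw [hK]
    ring
  · exfalso
    have h5 : a * (κ * (x n + P) + (κ + 1) * P) * (2 / c0 * (x n + P)) ≤
        a * ((3 * κ + 1) * P) * (2 / c0 * (2 * P)) := by
      apply mul_le_mul _ _ (by positivity) (by positivity)
      · apply mul_le_mul_of_nonneg_left _ ha.le
        nlinarith
      · apply mul_le_mul_of_nonneg_left _ (by positivity)
        linarith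
    have h6 : a * ((3 * κ + 1) * P) * (2 / c0 * (2 * P)) = K * P ^ 2 := by
      rw [hK]; ring
    have h7 : P ^ 2 = y m ^ (2 + 2 * c' - a) * y m ^ a := by
      rw [hPdef, ← Real.rpow_natCast, ← Real.rpow_mul hY0.le, ← Real.rpow_add hY0]
      congr 1
      push_cast
      ring
    have h8 := (hN1 m hmN).2.2.1
    have h9 : 0 < y m ^ a := Real.rpow_pos_of_pos hY0 _
    have h10 : K * P ^ 2 ≤ 1 / 2 * y m ^ a := by
      rw [h7, ← mul_assoc]
      apply mul_le_mul_of_nonneg_right _ h9.le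
      rw [le_div_iff₀ (by positivity)] at h8
      linarith
    linarith

/-! ### decay and summability -/

/-- `y^(a/2) ≤ C / (n+1)` -/
theorem Fl.decay (h : Fl x y κ c r q N) {a K : ℝ} (ha : 0 < a) (ha2 : a < 2 + 2 * c)
    (hK : 0 < K) (hL : ∀ᶠ n in atTop, 0 < x n ∧ y n ^ a ≤ K * x n ^ 2) :
    ∃ C, 0 < C ∧ ∀ n : ℕ, y n ^ (a / 2) ≤ C / (n + 1) := by
  have hκ := h.κ0
  have hsK : 0 < Real.sqrt K := Real.sqrt_pos.2 hK
  set d : ℝ := a / 2 * (κ / Real.sqrt K / 2) with hd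
  have hd0 : 0 < d := by positivity
  have e1 := h.ev_pow (b := 1 + c - a / 2) (e := κ / Real.sqrt K / 2) (by linarith)
    (by positivity)
  obtain ⟨N1, hN1⟩ := eventually_atTop.1 (hL.and (e1.and (eventually_ge_atTop N)))
  -- growth of `y^(-a/2)`
  have hv : ∀ n, N1 ≤ n → y n ^ (-(a / 2)) + d ≤ y (n + 1) ^ (-(a / 2)) := by
    intro n hn
    obtain ⟨⟨h1, h2⟩, h3, h4⟩ := hN1 n hn
    have hy := h.y0 n
    have hy1 := h.y0 (n + 1)
    have h5 : y n ^ (a / 2) ≤ Real.sqrt K * x n := by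
      have h6 : (y n ^ (a / 2)) ^ 2 ≤ (Real.sqrt K * x n) ^ 2 := by
        rw [mul_pow, Real.sq_sqrt hK.le, ← Real.rpow_natCast, ← Real.rpow_mul hy.le]
        convert h2 using 2
        push_cast
        ring
      exact le_of_sq_le_sq h6 (by positivity)
    have h6 : y n ^ (1 + c) ≤ κ / Real.sqrt K / 2 * y n ^ (a / 2) := by
      have h7 : y n ^ (1 + c) = y n ^ (1 + c - a / 2) * y n ^ (a / 2) := by
        rw [← Real.rpow_add hy]; congr 1; ring
      rw [h7]
      exact mul_le_mul_of_nonneg_right h3 (Real.rpow_nonneg hy.le _)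
    have h7 := (abs_le.1 (h.V n h4)).2
    have h8 : κ / Real.sqrt K * y n ^ (a / 2) ≤ κ * x n := by
      rw [div_mul_eq_mul_div, div_le_iff₀ hsK]
      have := mul_le_mul_of_nonneg_left h5 hκ.le
      linarith
    have h9 : Real.log (y (n + 1)) - Real.log (y n) ≤ -(κ / Real.sqrt K / 2 * y n ^ (a / 2)) := by
      linarith
    have h10 : y (n + 1) ^ (-(a / 2)) =
        y n ^ (-(a / 2)) * Real.exp (-(a / 2) * (Real.log (y (n + 1)) - Real.log (y n))) := by
      rw [Real.rpow_def_of_pos hy1, Real.rpow_def_of_pos hy, ← Real.exp_add]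
      congr 1
      ring
    have h11 : d * y n ^ (a / 2) ≤ -(a / 2) * (Real.log (y (n + 1)) - Real.log (y n)) := by
      have := mul_le_mul_of_nonneg_left h9 (show 0 ≤ a / 2 by positivity)
      rw [hd]
      linarith
    have h12 := Real.add_one_le_exp (-(a / 2) * (Real.log (y (n + 1)) - Real.log (y n)))
    have h13 : y n ^ (-(a / 2)) * y n ^ (a / 2) = 1 := by
      rw [← Real.rpow_add hy]; simp
    have h14 : 0 < y n ^ (-(a / 2)) := Real.rpow_pos_of_pos hy _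
    rw [h10]
    have h15 : y n ^ (-(a / 2)) * (d * y n ^ (a / 2) + 1) ≤ y n ^ (-(a / 2)) *
        Real.exp (-(a / 2) * (Real.log (y (n + 1)) - Real.log (y n))) :=
      mul_le_mul_of_nonneg_left (by linarith) h14.le
    calc y n ^ (-(a / 2)) + d = y n ^ (-(a / 2)) * (d * y n ^ (a / 2) + 1) := by
          rw [mul_add, mul_one, mul_left_comm, h13]; ring
      _ ≤ _ := h15
  have hv2 : ∀ i : ℕ, i * d ≤ y (N1 + i) ^ (-(a / 2)) := by
    intro i
    induction i with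
    | zero => simpa using Real.rpow_nonneg (h.y0 N1).le _
    | succ i ih =>
      have := hv (N1 + i) (Nat.le_add_right _ _)
      push_cast
      rw [← add_assoc]
      linarith
  have hbd : ∀ᶠ n : ℕ in atTop, y n ^ (a / 2) * (n + 1) ≤ 2 / d := by
    filter_upwards [eventually_ge_atTop (2 * N1 + 1)] with n hn
    obtain ⟨i, rfl⟩ := Nat.exists_eq_add_of_le (show N1 ≤ n by omega)
    have h1 := hv2 i
    have hy := h.y0 (N1 + i)
    have h2 : (((N1 + i : ℕ) : ℝ) + 1) ≤ 2 * i := by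
      have : N1 + i + 1 ≤ 2 * i := by omega
      exact_mod_cast this
    have h3 : y (N1 + i) ^ (a / 2) * y (N1 + i) ^ (-(a / 2)) = 1 := by
      rw [← Real.rpow_add hy]; simp
    have h4 : 0 < y (N1 + i) ^ (a / 2) := Real.rpow_pos_of_pos hy _
    rw [le_div_iff₀ hd0]
    have h5 := mul_le_mul_of_nonneg_left h1 h4.le
    have h6 : y (N1 + i) ^ (a / 2) * (((N1 + i : ℕ) : ℝ) + 1) ≤ y (N1 + i) ^ (a / 2) * (2 * i) :=
      mul_le_mul_of_nonneg_left h2 h4.le
    have h7 := mul_le_mul_of_nonneg_right h6 hd0.le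
    calc _ ≤ y (N1 + i) ^ (a / 2) * (2 * i) * d := h7
      _ = 2 * (y (N1 + i) ^ (a / 2) * (i * d)) := by ring
      _ ≤ 2 * 1 := by linarith
      _ = 2 := by ring
  obtain ⟨C, hC⟩ := (isBoundedUnder_of_eventually_le hbd).bddAbove_range
  refine ⟨max C 1, lt_of_lt_of_le one_pos (le_max_right _ _), fun n => ?_⟩
  rw [le_div_iff₀ (by positivity)]
  exact (hC ⟨n, rfl⟩).trans (le_max_left _ _)

theorem summ_pow (hy0 : ∀ n, 0 < y n) {a C s : ℝ} (ha : 0 < a) (hC : 0 < C)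
    (hD : ∀ n : ℕ, y n ^ (a / 2) ≤ C / (n + 1)) (hs : a / 2 < s) :
    Summable fun n => y n ^ s := by
  have hs0 : 0 < s := by linarith [half_pos ha]
  have h1 : ∀ n : ℕ, y n ^ s ≤ C ^ (2 * s / a) * (1 / ((n : ℝ) + 1) ^ (2 * s / a)) := by
    intro n
    have h2 : y n ^ s = (y n ^ (a / 2)) ^ (2 * s / a) := by
      rw [← Real.rpow_mul (hy0 n).le]
      congr 1
      field_simp
    rw [h2]
    have h3 : (y n ^ (a / 2)) ^ (2 * s / a) ≤ (C / (n + 1)) ^ (2 * s / a) :=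
      Real.rpow_le_rpow (Real.rpow_nonneg (hy0 n).le _) (hD n) (by positivity)
    rw [Real.div_rpow hC.le (by positivity)] at h3
    rw [mul_one_div]
    exact h3
  refine Summable.of_nonneg_of_le (fun n => Real.rpow_nonneg (hy0 n).le _) h1
    (Summable.mul_left _ ?_)
  have h3 : Summable fun n : ℕ => 1 / (n : ℝ) ^ (2 * s / a) :=
    Real.summable_one_div_nat_rpow.2 (by rw [one_lt_div ha]; linarith)
  have h4 := (summable_nat_add_iff 1).2 h3
  simpa using h4

/-- a sequence with summable increments converges -/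
lemma tend_of_inc {g e : ℕ → ℝ} (he : Summable e)
    (h : ∀ᶠ n in atTop, |g (n + 1) - g n| ≤ e n) : ∃ l, Tendsto g atTop (𝓝 l) := by
  have h1 : Summable fun n => g (n + 1) - g n :=
    Summable.of_norm_bounded_eventually_nat he h
  have h2 := h1.hasSum.tendsto_sum_nat
  refine ⟨∑' n, (g (n + 1) - g n) + g 0, ?_⟩
  have h3 := h2.add_const (g 0)
  refine h3.congr fun n => ?_
  rw [Finset.sum_range_sub]
  ring

/-- (V) summed: `log y_n + κ T_n` converges -/
theorem Fl.logT (h : Fl x y κ c r q N) (hs : Summable fun n => y n ^ (1 + c)) :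
    ∃ l, Tendsto (fun n => Real.log (y n) + κ * TT x n) atTop (𝓝 l) := by
  refine tend_of_inc hs ?_
  filter_upwards [eventually_ge_atTop N] with n hn
  have h1 := h.V n hn
  have h2 : Real.log (y (n + 1)) + κ * TT x (n + 1) - (Real.log (y n) + κ * TT x n) =
      Real.log (y (n + 1)) - Real.log (y n) + κ * x n := by
    rw [Vale.Agent.P159.H264.TT_succ]; ring
  rw [h2]
  exact h1

/-- `y_n ≍ e^{-κ T_n}` -/
theorem Fl.yT (h : Fl x y κ c r q N) (hs : Summable fun n => y n ^ (1 + c)) :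
    ∃ K, 0 < K ∧ ∀ n, y n ≤ K * Real.exp (-(κ * TT x n)) ∧
      K⁻¹ * Real.exp (-(κ * TT x n)) ≤ y n := by
  obtain ⟨l, hl⟩ := h.logT hs
  have hu := hl.isBoundedUnder_le.bddAbove_range
  have hb := hl.isBoundedUnder_ge.bddBelow_range
  obtain ⟨C1, hC1⟩ := hu
  obtain ⟨C2, hC2⟩ := hb
  refine ⟨Real.exp (max C1 (-C2)), Real.exp_pos _, fun n => ⟨?_, ?_⟩⟩
  · have h1 : Real.log (y n) + κ * TT x n ≤ C1 := hC1 ⟨n, rfl⟩
    have h2 : Real.log (y n) ≤ max C1 (-C2) + -(κ * TT x n) := by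
      have := le_max_left C1 (-C2)
      linarith
    rw [← Real.exp_add]
    calc y n = Real.exp (Real.log (y n)) := (Real.exp_log (h.y0 n)).symm
      _ ≤ _ := Real.exp_le_exp.2 h2
  · have h1 : C2 ≤ Real.log (y n) + κ * TT x n := hC2 ⟨n, rfl⟩
    have h2 : -max C1 (-C2) + -(κ * TT x n) ≤ Real.log (y n) := by
      have := le_max_right C1 (-C2)
      linarith
    rw [← Real.exp_neg, ← Real.exp_add]
    calc _ ≤ Real.exp (Real.log (y n)) := Real.exp_le_exp.2 h2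
      _ = y n := Real.exp_log (h.y0 n)

/-! ### integrated (P) -/

/-- extension of an integrated lower bound to all `n ≤ M` -/
lemma ext_low (hy0 : ∀ n, 0 < y n) {f : ℕ → ℝ} (hf : ∀ n, 0 ≤ f n) {c1 C1 b : ℝ} {N1 : ℕ}
    (hc1 : 0 < c1) (hC1 : 0 < C1)
    (h : ∀ n M, N1 ≤ n → n ≤ M → c1 * ∑ k ∈ Ico n M, f k - C1 * y M ^ b ≤ x n - x M) :
    ∃ C, 0 < C ∧ ∀ n M, n ≤ M →
      c1 * ∑ k ∈ Ico n M, f k - C * y n ^ b - C * y M ^ b ≤ x n - x M := by
  set D : ℝ := c1 * ∑ k ∈ range N1, f k + ∑ k ∈ range (N1 + 1), |x k| with hD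
  have hS0 : 0 ≤ ∑ k ∈ range N1, f k := sum_nonneg fun k _ => hf k
  have hX0 : 0 ≤ ∑ k ∈ range (N1 + 1), |x k| := sum_nonneg fun k _ => abs_nonneg _
  have hD0 : 0 ≤ D := by positivity
  have hyb : ∀ n, 0 < y n ^ b := fun n => Real.rpow_pos_of_pos (hy0 n) _
  set C : ℝ := C1 + ∑ j ∈ range N1, D / y j ^ b with hC
  have hCs : 0 ≤ ∑ j ∈ range N1, D / y j ^ b :=
    sum_nonneg fun j _ => div_nonneg hD0 (hyb j).le
  have hCC : C1 ≤ C := by linarith
  have hFD : ∀ n, n < N1 → D ≤ C * y n ^ b := by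
    intro n hn
    have h1 : D / y n ^ b ≤ ∑ j ∈ range N1, D / y j ^ b :=
      single_le_sum (f := fun j => D / y j ^ b) (fun j _ => div_nonneg hD0 (hyb j).le)
        (mem_range.2 hn)
    have h2 : D / y n ^ b ≤ C := by linarith
    rwa [div_le_iff₀ (hyb n)] at h2
  have hxk : ∀ k, k ≤ N1 → |x k| ≤ ∑ k ∈ range (N1 + 1), |x k| := fun k hk =>
    single_le_sum (f := fun j => |x j|) (fun j _ => abs_nonneg _) (mem_range.2 (by omega))
  refine ⟨C, by linarith, fun n M hnM => ?_⟩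
  have hFn : 0 ≤ C * y n ^ b := mul_nonneg (by linarith) (hyb n).le
  have hFM : C1 * y M ^ b ≤ C * y M ^ b := mul_le_mul_of_nonneg_right hCC (hyb M).le
  rcases le_or_gt N1 n with hn | hn
  · have := h n M hn hnM
    linarith
  rcases le_or_gt N1 M with hM | hM
  · have h1 := h N1 M le_rfl hM
    have h2 : ∑ k ∈ Ico n M, f k = ∑ k ∈ Ico n N1, f k + ∑ k ∈ Ico N1 M, f k :=
      (sum_Ico_consecutive _ hn.le hM).symm
    have h3 : ∑ k ∈ Ico n N1, f k ≤ ∑ k ∈ range N1, f k := by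
      refine sum_le_sum_of_subset_of_nonneg ?_ fun k _ _ => hf k
      intro k hk
      exact mem_range.2 (mem_Ico.1 hk).2
    have h4 := hFD n hn
    have h5 := mul_le_mul_of_nonneg_left h3 hc1.le
    have h7 := hxk n hn.le
    have h8 := hxk N1 le_rfl
    have h9 : |x n| + |x N1| ≤ ∑ k ∈ range (N1 + 1), |x k| := by
      rw [sum_range_succ]
      have : |x n| ≤ ∑ k ∈ range N1, |x k| :=
        single_le_sum (f := fun j => |x j|) (fun j _ => abs_nonneg _) (mem_range.2 hn)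
      linarith
    have h10 := neg_abs_le (x n)
    have h11 := le_abs_self (x N1)
    rw [h2, mul_add]
    linarith
  · have h3 : ∑ k ∈ Ico n M, f k ≤ ∑ k ∈ range N1, f k := by
      refine sum_le_sum_of_subset_of_nonneg ?_ fun k _ _ => hf k
      intro k hk
      have := (mem_Ico.1 hk).2
      exact mem_range.2 (by omega)
    have h4 := hFD n hn
    have h5 := hFD M hM
    have h6 := mul_le_mul_of_nonneg_left h3 hc1.le
    have h7 := hxk n hn.le
    have h8 := hxk M hM.le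
    have h10 := neg_abs_le (x n)
    have h11 := le_abs_self (x M)
    have h12 : 0 ≤ c1 * ∑ k ∈ range N1, f k := by positivity
    linarith

/-- extension of an integrated upper bound to all `n ≤ M` -/
lemma ext_up (hy0 : ∀ n, 0 < y n) {f : ℕ → ℝ} (hf : ∀ n, 0 ≤ f n) {c1 C1 b : ℝ} {N1 : ℕ}
    (hc1 : 0 < c1) (hC1 : 0 < C1)
    (h : ∀ n M, N1 ≤ n → n ≤ M → x n - x M ≤ c1 * ∑ k ∈ Ico n M, f k + C1 * y M ^ b) :
    ∃ C, 0 < C ∧ ∀ n M, n ≤ M →
      x n - x M ≤ c1 * ∑ k ∈ Ico n M, f k + C * y n ^ b + C * y M ^ b := by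
  set D : ℝ := ∑ k ∈ range (N1 + 1), |x k| with hD
  have hD0 : 0 ≤ D := sum_nonneg fun k _ => abs_nonneg _
  have hyb : ∀ n, 0 < y n ^ b := fun n => Real.rpow_pos_of_pos (hy0 n) _
  set C : ℝ := C1 + ∑ j ∈ range N1, D / y j ^ b with hC
  have hCs : 0 ≤ ∑ j ∈ range N1, D / y j ^ b :=
    sum_nonneg fun j _ => div_nonneg hD0 (hyb j).le
  have hCC : C1 ≤ C := by linarith
  have hFD : ∀ n, n < N1 → D ≤ C * y n ^ b := by
    intro n hn
    have h1 : D / y n ^ b ≤ ∑ j ∈ range N1, D / y j ^ b :=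
      single_le_sum (f := fun j => D / y j ^ b) (fun j _ => div_nonneg hD0 (hyb j).le)
        (mem_range.2 hn)
    have h2 : D / y n ^ b ≤ C := by linarith
    rwa [div_le_iff₀ (hyb n)] at h2
  have hxk : ∀ k, k ≤ N1 → |x k| ≤ D := fun k hk =>
    single_le_sum (f := fun j => |x j|) (fun j _ => abs_nonneg _) (mem_range.2 (by omega))
  refine ⟨C, by linarith, fun n M hnM => ?_⟩
  have hFn : 0 ≤ C * y n ^ b := mul_nonneg (by linarith) (hyb n).le
  have hFM : C1 * y M ^ b ≤ C * y M ^ b := mul_le_mul_of_nonneg_right hCC (hyb M).le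
  rcases le_or_gt N1 n with hn | hn
  · have := h n M hn hnM
    linarith
  have h9 : |x n| + |x N1| ≤ D := by
    rw [hD, sum_range_succ]
    have : |x n| ≤ ∑ k ∈ range N1, |x k| :=
      single_le_sum (f := fun j => |x j|) (fun j _ => abs_nonneg _) (mem_range.2 hn)
    linarith
  rcases le_or_gt N1 M with hM | hM
  · have h1 := h N1 M le_rfl hM
    have h2 : ∑ k ∈ Ico n M, f k = ∑ k ∈ Ico n N1, f k + ∑ k ∈ Ico N1 M, f k :=
      (sum_Ico_consecutive _ hn.le hM).symm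
    have h3 : 0 ≤ ∑ k ∈ Ico n N1, f k := sum_nonneg fun k _ => hf k
    have h4 := hFD n hn
    have h5 := mul_nonneg hc1.le h3
    have h10 := le_abs_self (x n)
    have h11 := neg_abs_le (x N1)
    rw [h2, mul_add]
    linarith
  · have h3 : 0 ≤ ∑ k ∈ Ico n M, f k := sum_nonneg fun k _ => hf k
    have h4 := hFD n hn
    have h5 := hFD M hM
    have h6 := mul_nonneg hc1.le h3
    have h7 := hxk M hM.le
    have h8 := hxk n hn.le
    have h10 := le_abs_self (x n)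
    have h11 := neg_abs_le (x M)
    linarith

/-- integrated (P_low) -/
theorem Fl.int_low (h : Fl x y κ c r q N) (hw : Wn y w B N) {a b c0 c1 : ℝ}
    (hb : 0 ≤ b) (hbr : b < r) (hba : b < a) (hc1 : 0 < c1) (hc : c1 < c0)
    (hP : ∀ᶠ n in atTop, c0 * (w n * y n ^ a) ≤ x n - x (n + w n)) :
    ∃ C, 0 < C ∧ ∀ n M, n ≤ M →
      c1 * ∑ k ∈ Ico n M, y k ^ a - C * y n ^ b - C * y M ^ b ≤ x n - x M := by
  have hf : ∀ n, 0 ≤ y n ^ a := fun n => Real.rpow_nonneg (h.y0 n).le _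
  obtain ⟨N1, hN1⟩ := eventually_atTop.1 ((h.low_win hw (by linarith) hc1 hc hP).and
    ((h.xvar hw hb hbr).and ((h.wsml hw hb hba).and (eventually_ge_atTop N))))
  refine ext_low h.y0 hf (C1 := c1 + 1) (N1 := N1) hc1 (by positivity) fun n M hn hM => ?_
  obtain ⟨i, hi1, hi2, hi3, hi4⟩ := itw_hit
    (R := fun a1 b1 => a1 ≤ b1 ∧ c1 * ∑ k ∈ Ico a1 b1, y k ^ a ≤ x a1 - x b1)
    (fun _ => ⟨le_rfl, by simp⟩)
    (by
      rintro a1 b1 d1 ⟨h1, h2⟩ ⟨h3, h4⟩
      refine ⟨h1.trans h3, ?_⟩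
      rw [← sum_Ico_consecutive _ h1 h3, mul_add]
      linarith) (N := N1) (fun k hk => hw.w1 k (hN1 k hk).2.2.2)
    (fun k hk => ⟨Nat.le_add_right _ _, (hN1 k hk).1⟩) hn hM
  obtain ⟨-, h2, h3, -⟩ := hN1 i (hn.trans hi1)
  have h4 := h2 M M hi2 (by omega) hi2 (by omega)
  have h5 := h3 M M hi2 (by omega) hi2 (by omega)
  have h6 := le_abs_self (x M - x i)
  have h7 := mul_le_mul_of_nonneg_left h5 hc1.le
  rw [← sum_Ico_consecutive _ hi1 hi2, mul_add]
  linarith [hi4.2]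

/-- integrated (P_up) -/
theorem Fl.int_up (h : Fl x y κ c r q N) (hw : Wn y w B N) {a b c0 c1 : ℝ} (ha : 0 ≤ a)
    (hb : 0 ≤ b) (hbr : b < r) (hc0 : 0 < c0) (hc : c0 < c1)
    (hP : ∀ᶠ n in atTop, x n - x (n + w n) ≤ c0 * (w n * y n ^ a)) :
    ∃ C, 0 < C ∧ ∀ n M, n ≤ M →
      x n - x M ≤ c1 * ∑ k ∈ Ico n M, y k ^ a + C * y n ^ b + C * y M ^ b := by
  have hc1 : 0 < c1 := hc0.trans hc
  have hf : ∀ n, 0 ≤ y n ^ a := fun n => Real.rpow_nonneg (h.y0 n).le _
  obtain ⟨N1, hN1⟩ := eventually_atTop.1 ((h.up_win hw ha hc0 hc hP).and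
    ((h.xvar hw hb hbr).and (eventually_ge_atTop N)))
  refine ext_up h.y0 hf (C1 := 1) (N1 := N1) hc1 one_pos fun n M hn hM => ?_
  obtain ⟨i, hi1, hi2, hi3, hi4⟩ := itw_hit
    (R := fun a1 b1 => a1 ≤ b1 ∧ x a1 - x b1 ≤ c1 * ∑ k ∈ Ico a1 b1, y k ^ a)
    (fun _ => ⟨le_rfl, by simp⟩)
    (by
      rintro a1 b1 d1 ⟨h1, h2⟩ ⟨h3, h4⟩
      refine ⟨h1.trans h3, ?_⟩
      rw [← sum_Ico_consecutive _ h1 h3, mul_add]
      linarith) (N := N1) (fun k hk => hw.w1 k (hN1 k hk).2.2)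
    (fun k hk => ⟨Nat.le_add_right _ _, (hN1 k hk).1⟩) hn hM
  obtain ⟨-, h2, -⟩ := hN1 i (hn.trans hi1)
  have h4 := h2 M M hi2 (by omega) hi2 (by omega)
  have h6 := neg_abs_le (x M - x i)
  have h7 : 0 ≤ ∑ k ∈ Ico i M, y k ^ a := sum_nonneg fun k _ => hf k
  have h8 := mul_nonneg hc1.le h7
  rw [← sum_Ico_consecutive _ hi1 hi2, mul_add]
  linarith [hi4.2]

end Vale.Agent.P159.H801
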