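import Vale.Agent.P159.H801.Wode2
import Vale.Agent.P159.H801.Wode3

/-!
P159 (helper801), module WODE: assembly of T1 and T2 for windowed (P), no monotonicity of `x`.
-/

open Filter Topology Finset

namespace Vale.Agent.P159.H801

open Vale.Agent.P159.H264 (TT kap kap_pos TT_diff_lim rem_summable sum_inv_eq)

variable {x y : ℕ → ℝ} {κ c r q B c0 C0 a : ℝ} {N : ℕ} {w : ℕ → ℕ}

lemma abs_bd_of_tend {f : ℕ → ℝ} {l : ℝ} (h : Tendsto f atTop (𝓝 l)) : ∃ K, ∀ n, |f n| ≤ K := by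
  obtain ⟨U, hU⟩ := h.isBoundedUnder_le.bddAbove_range
  obtain ⟨L, hL⟩ := h.isBoundedUnder_ge.bddBelow_range
  refine ⟨max U (-L), fun n => abs_le.2 ⟨?_, ?_⟩⟩
  · have h1 : L ≤ f n := hL ⟨n, rfl⟩
    have h2 := le_max_right U (-L)
    linarith
  · exact (hU ⟨n, rfl⟩).trans (le_max_left _ _)

/-- the determinant part with a bounded error -/
theorem det_bd {p : ℕ → ℝ} (hx0 : Tendsto x atTop (𝓝 0)) (hx2 : Summable fun n => x n ^ 2)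
    (hxq : Summable fun n => |p n - x n|) :
    ∃ K, ∀ n : ℕ, |Real.log 2 / (2 * Real.pi) * ∑ i ∈ range n, 1 / (2 / Real.pi + p i) -
      Real.log 2 / 4 * n + kap / 8 * TT x n| ≤ K := by
  have hpi := Real.pi_pos
  have h1 := (TT_diff_lim hxq).const_mul (kap / 8)
  have h3 := ((rem_summable hx0 hx2 hxq).hasSum.tendsto_sum_nat).const_mul
    (Real.log 2 / (2 * Real.pi))
  have h4 := h3.sub h1
  obtain ⟨K, hK⟩ := abs_bd_of_tend h4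
  refine ⟨K, fun n => ?_⟩
  refine le_trans (le_of_eq ?_) (hK n)
  congr 1
  rw [sum_inv_eq, kap]
  field_simp
  ring

/-- (P_up) with exponent `r` is contained in `Fl` -/
lemma Fl.int_X (h : Fl x y κ c r q N) {n M : ℕ} (hn : N ≤ n) (hM : n ≤ M) :
    x n - x M ≤ ∑ k ∈ Ico n M, y k ^ r := by
  induction M, hM using Nat.le_induction with
  | base => simp
  | succ M hM ih =>
    rw [sum_Ico_succ_top hM]
    have h1 := (abs_le.1 (h.X M (hn.trans hM))).1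
    linarith

/-- exponent `c'` -/
lemma exists_c' (hc : 0 < c) (hr : 1 < r) (ha2 : a < 2 + 2 * c) (har : a < 2 * r) :
    ∃ c', 0 < c' ∧ c' ≤ c ∧ 1 + c' < r ∧ a < 2 + 2 * c' := by
  have h1 : max (a / 2 - 1) 0 < min c (r - 1) :=
    max_lt (lt_min (by linarith) (by linarith)) (lt_min hc (by linarith))
  have h2 := le_max_left (a / 2 - 1) 0
  have h3 := le_max_right (a / 2 - 1) 0
  have h4 := min_le_left c (r - 1)
  have h5 := min_le_right c (r - 1)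
  exact ⟨(max (a / 2 - 1) 0 + min c (r - 1)) / 2, by linarith, by linarith, by linarith,
    by linarith⟩

/-- **T1** for fixed exponents `a` (P_low) and `r` (P_up) -/
theorem Fl.T1 (h : Fl x y κ c r q N) (hw : Wn y w B N) (ha : 0 < a) (ha2 : a < 2 + 2 * c)
    (har : a < 2 * r) (hr1 : 1 < r) (hr2 : r ≤ 2) (hc0 : 0 < c0)
    (hP : ∀ᶠ n in atTop, c0 * (w n * y n ^ a) ≤ x n - x (n + w n)) :
    (∃ K, ∀ n : ℕ, 2 / a * Real.log ((n : ℝ) + 1) - K ≤ κ * TT x n ∧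
      κ * TT x n ≤ 2 / r * Real.log ((n : ℝ) + 1) + K) ∧ (Summable fun n => x n ^ 2) ∧
      ∀ s : ℝ, a / 2 < s → Summable fun n => y n ^ s := by
  obtain ⟨c', hc', hcc, hcr, hac⟩ := exists_c' h.c0 hr1 ha2 har
  obtain ⟨K, hK, hL⟩ := h.lower hw ha hc' hcc hcr hac hc0 hP
  obtain ⟨C1, hC1, h1⟩ := h.decay ha ha2 hK hL
  obtain ⟨K', hK', hU⟩ := h.upper (a := a) (b := r) (b' := r) (C1 := 1) (N1 := N) h.r0
    (by linarith) (by linarith) h.r0 hK one_pos hL (by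
      intro n M hn hM
      have h2 := h.int_X hn hM
      have h3 := Real.rpow_nonneg (h.y0 n).le r
      have h4 := Real.rpow_nonneg (h.y0 M).le r
      linarith)
  obtain ⟨C2, hC2, h2⟩ := h.growth h.r0 hr2 hK' hU
  exact ⟨h.T_two ha h.r0 hC1 hC2 (by linarith) h1 h2, h.x_sq ha har hC1 h1 hU,
    fun s hs => summ_pow h.y0 ha hC1 h1 hs⟩

/-- integrated (P_up) with constant slack -/
lemma Fl.T2_up (h : Fl x y κ c r q N) (hw : Wn y w B N) (hr1 : 1 < r) (hC0 : 0 < C0)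
    (hP' : ∀ᶠ n in atTop, x n - x (n + w n) ≤ C0 * (w n * y n ^ (2 : ℝ))) :
    ∃ C1, 0 < C1 ∧ ∀ n M, N ≤ n → n ≤ M →
      x n - x M ≤ C1 * ∑ k ∈ Ico n M, y k ^ (2 : ℝ) + C1 * y n ^ ((1 + r) / 2) +
        C1 * y M ^ ((1 + r) / 2) := by
  obtain ⟨C3, hC3, h3⟩ := h.int_up hw (a := 2) (b := (1 + r) / 2) (c1 := 2 * C0) (by norm_num)
    (by linarith) (by linarith) hC0 (by linarith) hP'
  refine ⟨2 * C0 + C3, by positivity, fun n M _ hM => ?_⟩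
  have h4 := h3 n M hM
  have h5 := Real.rpow_nonneg (h.y0 n).le ((1 + r) / 2)
  have h6 := Real.rpow_nonneg (h.y0 M).le ((1 + r) / 2)
  have h7 : 0 ≤ ∑ k ∈ Ico n M, y k ^ (2 : ℝ) :=
    sum_nonneg fun k _ => Real.rpow_nonneg (h.y0 k).le _
  have h8 := mul_nonneg hC3.le h7
  have h9 := mul_nonneg hC0.le h5
  have h10 := mul_nonneg hC0.le h6
  rw [add_mul, add_mul, add_mul]
  linarith

/-- the two-sided bounds of T2 -/
lemma Fl.T2_bd (h : Fl x y κ c r q N) (hw : Wn y w B N) (hr1 : 1 < r) (hc0 : 0 < c0)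
    (hC0 : 0 < C0)
    (hP : ∀ᶠ n in atTop, c0 * (w n * y n ^ (2 : ℝ)) ≤ x n - x (n + w n))
    (hP' : ∀ᶠ n in atTop, x n - x (n + w n) ≤ C0 * (w n * y n ^ (2 : ℝ))) :
    ∃ C1 C2 K, 0 < C1 ∧ 0 < C2 ∧ (∀ n : ℕ, y n ^ ((2 : ℝ) / 2) ≤ C1 / (n + 1)) ∧
      (∀ n : ℕ, C2 / (n + 1) ≤ y n ^ ((2 : ℝ) / 2)) ∧
      ∀ᶠ n in atTop, x n ^ 2 ≤ K * y n ^ (2 : ℝ) := by
  have hc := h.c0
  have h1c : (2 : ℝ) / 2 < 1 + c := by linarith
  have h1r : (2 : ℝ) / 2 < (1 + r) / 2 := by linarith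
  obtain ⟨c', hc', hcc, hcr, hac⟩ := exists_c' (a := 2) hc hr1 (by linarith) (by linarith)
  obtain ⟨K, hK, hL⟩ := h.lower hw (a := 2) two_pos hc' hcc hcr hac hc0 hP
  obtain ⟨C1, hC1, h1⟩ := h.decay (a := 2) two_pos (by linarith) hK hL
  obtain ⟨C3, hC3, h3⟩ := h.T2_up hw hr1 hC0 hP'
  obtain ⟨K', hK', hU⟩ := h.upper (a := 2) (b := 2) (b' := (1 + r) / 2) two_pos h1r h1c
    (by linarith) hK hC3 hL h3
  obtain ⟨C2, hC2, h2⟩ := h.growth (b := 2) two_pos le_rfl hK' hU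
  exact ⟨C1, C2, K', hC1, hC2, h1, h2, hU⟩

/-- **T2** -/
theorem Fl.T2 (h : Fl x y κ c r q N) (hw : Wn y w B N) (hr1 : 1 < r) (hc0 : 0 < c0)
    (hC0 : 0 < C0)
    (hP : ∀ᶠ n in atTop, c0 * (w n * y n ^ 2) ≤ x n - x (n + w n))
    (hP' : ∀ᶠ n in atTop, x n - x (n + w n) ≤ C0 * (w n * y n ^ 2)) :
    (∃ K, ∀ n : ℕ, |κ * TT x n - Real.log ((n : ℝ) + 1)| ≤ K) ∧ (Summable fun n => x n ^ 2) ∧
      ∀ s : ℝ, 1 < s → Summable fun n => y n ^ s := by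
  have hP2 : ∀ᶠ n in atTop, c0 * (w n * y n ^ (2 : ℝ)) ≤ x n - x (n + w n) :=
    hP.mono fun n hn => by rw [rpow2]; exact hn
  have hP2' : ∀ᶠ n in atTop, x n - x (n + w n) ≤ C0 * (w n * y n ^ (2 : ℝ)) :=
    hP'.mono fun n hn => by rw [rpow2]; exact hn
  obtain ⟨C1, C2, K, hC1, hC2, h1, h2, hU⟩ := h.T2_bd hw hr1 hc0 hC0 hP2 hP2'
  have h1c : (2 : ℝ) / 2 < 1 + c := by linarith [h.c0]
  obtain ⟨K3, hK3⟩ := h.T_two (a := 2) (b := 2) two_pos two_pos hC1 hC2 h1c h1 h2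
  rw [div_self (two_ne_zero' ℝ)] at hK3
  have hs1 : ∀ s : ℝ, 1 < s → (2 : ℝ) / 2 < s := fun s hs => by
    rw [div_self (two_ne_zero' ℝ)]; exact hs
  refine ⟨⟨K3, fun n => ?_⟩, h.x_sq (a := 2) two_pos (by norm_num) hC1 h1 hU,
    fun s hs => summ_pow (a := 2) h.y0 two_pos hC1 h1 (hs1 s hs)⟩
  obtain ⟨h4, h5⟩ := hK3 n
  rw [one_mul] at h4 h5
  exact abs_le.2 ⟨by linarith, by linarith⟩

/-- **T2, dyadic amplitude** -/
theorem L_of_T2 {p L : ℕ → ℝ} (hx0 : Tendsto x atTop (𝓝 0)) (hx2 : Summable fun n => x n ^ 2)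
    (hxq : Summable fun n => |p n - x n|) {K1 K2 : ℝ}
    (hT : ∀ n : ℕ, |kap * TT x n - Real.log ((n : ℝ) + 1)| ≤ K1)
    (hS : ∀ n : ℕ, |L n + Real.log 2 / (2 * Real.pi) *
      ∑ i ∈ range n, 1 / (2 / Real.pi + p i)| ≤ K2) :
    ∃ K, ∀ n : ℕ, |L n + Real.log 2 / 4 * n - 1 / 8 * Real.log ((n : ℝ) + 1)| ≤ K := by
  obtain ⟨K3, hK3⟩ := det_bd hx0 hx2 hxq
  refine ⟨K2 + K3 + K1 / 8, fun n => abs_le.2 ⟨?_, ?_⟩⟩
  · have h1 := (abs_le.1 (hT n)).1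
    have h2 := (abs_le.1 (hS n)).1
    have h3 := (abs_le.1 (hK3 n)).2
    linarith
  · have h1 := (abs_le.1 (hT n)).2
    have h2 := (abs_le.1 (hS n)).2
    have h3 := (abs_le.1 (hK3 n)).1
    linarith

/-- **T1, dyadic amplitude** -/
theorem L_of_T1 {p L : ℕ → ℝ} (hx0 : Tendsto x atTop (𝓝 0)) (hx2 : Summable fun n => x n ^ 2)
    (hxq : Summable fun n => |p n - x n|)
    (hT : ∀ ε, 0 < ε → ∃ K, ∀ n : ℕ, |kap * TT x n - Real.log ((n : ℝ) + 1)| ≤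
      ε * Real.log ((n : ℝ) + 1) + K)
    (hS : ∀ ε, 0 < ε → ∃ K, ∀ n : ℕ, |L n + Real.log 2 / (2 * Real.pi) *
      ∑ i ∈ range n, 1 / (2 / Real.pi + p i)| ≤ ε * Real.log ((n : ℝ) + 1) + K)
    {ε : ℝ} (hε : 0 < ε) :
    ∃ K, ∀ n : ℕ, |L n + Real.log 2 / 4 * n - 1 / 8 * Real.log ((n : ℝ) + 1)| ≤
      ε * Real.log ((n : ℝ) + 1) + K := by
  obtain ⟨K3, hK3⟩ := det_bd hx0 hx2 hxq
  obtain ⟨K1, hK1⟩ := hT (4 * ε) (by positivity)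
  obtain ⟨K2, hK2⟩ := hS (ε / 2) (by positivity)
  refine ⟨K2 + K3 + K1 / 8, fun n => abs_le.2 ⟨?_, ?_⟩⟩
  · have h1 := (abs_le.1 (hK1 n)).1
    have h2 := (abs_le.1 (hK2 n)).1
    have h3 := (abs_le.1 (hK3 n)).2
    linarith
  · have h1 := (abs_le.1 (hK1 n)).2
    have h2 := (abs_le.1 (hK2 n)).2
    have h3 := (abs_le.1 (hK3 n)).1
    linarith

/-- T1 for every `ε` from the fixed exponent form -/
theorem T1_eps {T : ℕ → ℝ} (h : ∀ δ, 0 < δ → δ < 1 → ∃ a r, 0 < a ∧ a ≤ 2 + δ ∧ 2 - δ ≤ r ∧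
      ∃ K, ∀ n : ℕ, 2 / a * Real.log ((n : ℝ) + 1) - K ≤ κ * T n ∧
      κ * T n ≤ 2 / r * Real.log ((n : ℝ) + 1) + K) {ε : ℝ} (hε : 0 < ε) :
    ∃ K, ∀ n : ℕ, |κ * T n - Real.log ((n : ℝ) + 1)| ≤ ε * Real.log ((n : ℝ) + 1) + K := by
  have hm : 0 < min ε 1 := lt_min hε one_pos
  obtain ⟨a, r, ha, ha2, hr, K, hK⟩ := h (min ε 1 / 2) (by positivity)
    (by have := min_le_right ε 1; linarith)
  have hm1 := min_le_left ε 1
  have hm2 := min_le_right ε 1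
  refine ⟨K, fun n => ?_⟩
  have hl : 0 ≤ Real.log ((n : ℝ) + 1) := Vale.Agent.P159.H264.log_nn n
  obtain ⟨h1, h2⟩ := hK n
  have h3 : 1 - ε ≤ 2 / a := by
    rw [le_div_iff₀ ha]
    rcases le_total (1 - ε) 0 with h4 | h4
    · have := mul_nonneg (neg_nonneg.2 h4) ha.le
      linarith
    · have h5 := mul_le_mul_of_nonneg_left ha2 h4
      nlinarith
  have h4 : 2 / r ≤ 1 + ε := by
    have hr0 : 0 < r := by linarith
    rw [div_le_iff₀ hr0]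
    have h5 := mul_le_mul_of_nonneg_left hr (show 0 ≤ 1 + min ε 1 by linarith)
    have h6 : (1 + min ε 1) * r ≤ (1 + ε) * r := mul_le_mul_of_nonneg_right (by linarith) hr0.le
    nlinarith
  have h5 := mul_le_mul_of_nonneg_right h3 hl
  have h6 := mul_le_mul_of_nonneg_right h4 hl
  refine abs_le.2 ⟨by linarith, by linarith⟩

/-- all distances from dyadic ones, T2 -/
theorem all_T2 {f : ℕ → ℝ} (hf : ∀ n, 1 ≤ n → 0 < f n)
    (hanti : ∀ m n, 1 ≤ m → m ≤ n → f n ≤ f m) {K : ℝ}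
    (h : ∀ n : ℕ, |Real.log (f (2 ^ n)) + Real.log 2 / 4 * n -
      1 / 8 * Real.log ((n : ℝ) + 1)| ≤ K) :
    ∃ C1 C2 : ℝ, 0 < C1 ∧ 0 < C2 ∧ ∀ r : ℕ, 1 ≤ r →
      C1 * (r : ℝ) ^ (-(1 / 4) : ℝ) * (1 + Real.log r) ^ (1 / 8 : ℝ) ≤ f r ∧
      f r ≤ C2 * (r : ℝ) ^ (-(1 / 4) : ℝ) * (1 + Real.log r) ^ (1 / 8 : ℝ) := by
  obtain ⟨C1, hC1, h1⟩ := Vale.Agent.P159.H264.all_of_dyadic_low hf hanti (p := 1 / 8) (K := K)
    (fun n => by have := (abs_le.1 (h n)).1; linarith) (by norm_num)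
  obtain ⟨C2, hC2, h2⟩ := Vale.Agent.P159.H264.all_of_dyadic_up hf hanti (p := 1 / 8) (K := K)
    (fun n => by have := (abs_le.1 (h n)).2; linarith) (by norm_num)
  exact ⟨C1, C2, hC1, hC2, fun r hr => ⟨h1 r hr, h2 r hr⟩⟩

/-- all distances from dyadic ones, T1 -/
theorem all_T1 {f : ℕ → ℝ} (hf : ∀ n, 1 ≤ n → 0 < f n)
    (hanti : ∀ m n, 1 ≤ m → m ≤ n → f n ≤ f m)
    (h : ∀ ε, 0 < ε → ∃ K, ∀ n : ℕ, |Real.log (f (2 ^ n)) + Real.log 2 / 4 * n -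
      1 / 8 * Real.log ((n : ℝ) + 1)| ≤ ε * Real.log ((n : ℝ) + 1) + K) {ε : ℝ} (hε : 0 < ε)
    (hε8 : ε ≤ 1 / 8) :
    ∃ C1 C2 : ℝ, 0 < C1 ∧ 0 < C2 ∧ ∀ r : ℕ, 1 ≤ r →
      C1 * (r : ℝ) ^ (-(1 / 4) : ℝ) * (1 + Real.log r) ^ (1 / 8 - ε) ≤ f r ∧
      f r ≤ C2 * (r : ℝ) ^ (-(1 / 4) : ℝ) * (1 + Real.log r) ^ (1 / 8 + ε) := by
  obtain ⟨K, hK⟩ := h ε hε
  obtain ⟨C1, hC1, h1⟩ := Vale.Agent.P159.H264.all_of_dyadic_low hf hanti (p := 1 / 8 - ε)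
    (K := K) (fun n => by have := (abs_le.1 (hK n)).1; linarith) (by linarith)
  obtain ⟨C2, hC2, h2⟩ := Vale.Agent.P159.H264.all_of_dyadic_up hf hanti (p := 1 / 8 + ε)
    (K := K) (fun n => by have := (abs_le.1 (hK n)).2; linarith) (by linarith)
  exact ⟨C1, C2, hC1, hC2, fun r hr => ⟨h1 r hr, h2 r hr⟩⟩

end Vale.Agent.P159.H801
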