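import Vale.Agent.P159.H801.Wode
import Vale.Agent.P159.H264.Asm4

/-!
P159 (helper801), module WODE, parts T1 and T2: two-sided power bounds of `y`, `x` and `κ T_n` for a
flow `Fl` with integrated or windowed (P).  No monotonicity of `x` is used.
-/

open Filter Topology Finset

namespace Vale.Agent.P159.H801

open Vale.Agent.P159.H264 (TT kap)

variable {x y : ℕ → ℝ} {κ c r q B : ℝ} {N : ℕ} {w : ℕ → ℕ}

/-- `y^s = o(x)` for `s > a/2` -/
lemma Fl.small_x (h : Fl x y κ c r q N) {a K s e : ℝ} (hK : 0 < K)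
    (hL : ∀ᶠ n in atTop, 0 < x n ∧ y n ^ a ≤ K * x n ^ 2) (hs : a / 2 < s) (he : 0 < e) :
    ∀ᶠ n in atTop, y n ^ s ≤ e * x n := by
  have hsK : 0 < Real.sqrt K := Real.sqrt_pos.2 hK
  filter_upwards [hL, h.ev_pow (b := s - a / 2) (e := e / Real.sqrt K) (by linarith)
    (by positivity)] with n h1 h2
  have hy := h.y0 n
  have h5 : y n ^ (a / 2) ≤ Real.sqrt K * x n := by
    have h6 : (y n ^ (a / 2)) ^ 2 ≤ (Real.sqrt K * x n) ^ 2 := by
      rw [mul_pow, Real.sq_sqrt hK.le, ← Real.rpow_natCast, ← Real.rpow_mul hy.le]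
      convert h1.2 using 2
      push_cast
      ring
    exact le_of_sq_le_sq h6 (by have := h1.1; positivity)
  calc y n ^ s = y n ^ (s - a / 2) * y n ^ (a / 2) := by
        rw [← Real.rpow_add hy]; congr 1; ring
    _ ≤ e / Real.sqrt K * (Real.sqrt K * x n) :=
        mul_le_mul h2 h5 (Real.rpow_nonneg hy.le _) (by positivity)
    _ = e * x n := by field_simp

/-- **upper bound of `x`**: `x² ≤ K' y^b` from an integrated (P_up) with exponent `b` -/
theorem Fl.upper (h : Fl x y κ c r q N) {a b b' K C1 : ℝ} {N1 : ℕ} (hb : 0 < b)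
    (hb' : a / 2 < b') (hac : a / 2 < 1 + c) (hb0 : 0 < b') (hK : 0 < K) (hC1 : 0 < C1)
    (hL : ∀ᶠ n in atTop, 0 < x n ∧ y n ^ a ≤ K * x n ^ 2)
    (hU : ∀ n M, N1 ≤ n → n ≤ M →
      x n - x M ≤ C1 * ∑ k ∈ Ico n M, y k ^ b + C1 * y n ^ b' + C1 * y M ^ b') :
    ∃ K', 0 < K' ∧ ∀ᶠ n in atTop, x n ^ 2 ≤ K' * y n ^ b := by
  have hκ := h.κ0
  set K' : ℝ := 64 * C1 / (b * κ) with hK'
  have hK'0 : 0 < K' := by positivity
  refine ⟨K', hK'0, ?_⟩
  have e1 := h.small_x hK hL hac (e := κ / 2) (by positivity)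
  have e2 := h.small_x hK hL hb' (e := 1 / (8 * C1)) (by positivity)
  have e3 : ∀ᶠ n in atTop, x n ≤ 8 / (b * κ) := by
    filter_upwards [h.xt.eventually (gt_mem_nhds (show 0 < 8 / (b * κ) by positivity))]
      with n hn using hn.le
  obtain ⟨N2, hN2⟩ := eventually_atTop.1 (e1.and (e2.and (e3.and (hL.and
    ((eventually_ge_atTop N).and (eventually_ge_atTop N1))))))
  filter_upwards [eventually_ge_atTop N2] with n hn
  by_contra hcon
  push Not at hcon
  obtain ⟨f1, f2, f3, ⟨hx0, -⟩, f5, f6⟩ := hN2 n hn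
  have hyb : ∀ k, 0 < y k ^ b := fun k => Real.rpow_pos_of_pos (h.y0 k) _
  have hX0 : 0 < b * κ * x n / 8 := by positivity
  have hX1 : b * κ * x n / 8 ≤ 1 := by
    rw [le_div_iff₀ (by positivity)] at f3
    rw [div_le_one (by norm_num)]
    linarith
  have hex := one_sub_exp hX0.le hX1
  -- induction
  have key : ∀ M, n ≤ M → (∀ k, n ≤ k → k ≤ M → x n / 2 ≤ x k) ∧
      b * κ * x n / 8 / 2 * ∑ k ∈ Ico n M, y k ^ b ≤ y n ^ b - y M ^ b := by
    intro M hM
    induction M, hM using Nat.le_induction with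
    | base =>
      refine ⟨fun k h1 h2 => ?_, by simp⟩
      obtain rfl := le_antisymm h1 h2
      linarith
    | succ M hM ih =>
      obtain ⟨i1, i2⟩ := ih
      have hMN := hN2 M (hn.trans hM)
      have hV := (abs_le.1 (h.V M hMN.2.2.2.2.1)).2
      have hxM := i1 M hM le_rfl
      have h1 : Real.log (y (M + 1)) - Real.log (y M) ≤ -(κ * x n / 4) := by
        have h2 := hMN.1
        have h3 := mul_le_mul_of_nonneg_left hxM hκ.le
        linarith
      have h2 : y (M + 1) ^ b ≤ y M ^ b * Real.exp (-(b * κ * x n / 8)) := by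
        rw [Real.rpow_def_of_pos (h.y0 (M + 1)), Real.rpow_def_of_pos (h.y0 M), ← Real.exp_add]
        apply Real.exp_le_exp.2
        have h3 := mul_le_mul_of_nonneg_left h1 hb.le
        have h4 : 0 < b * κ * x n := by positivity
        linarith
      have h3 : b * κ * x n / 8 / 2 * y M ^ b ≤ y M ^ b - y (M + 1) ^ b := by
        have := mul_le_mul_of_nonneg_left hex (hyb M).le
        linarith
      have i2' : b * κ * x n / 8 / 2 * ∑ k ∈ Ico n (M + 1), y k ^ b ≤
          y n ^ b - y (M + 1) ^ b := by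
        rw [sum_Ico_succ_top hM, mul_add]
        linarith
      refine ⟨fun k h4 h5 => ?_, i2'⟩
      rcases Nat.lt_or_ge k (M + 1) with h6 | h6
      · exact i1 k h4 (by omega)
      obtain rfl := le_antisymm h5 h6
      have h7 := hU n (M + 1) f6 (by omega)
      have h8 : ∑ k ∈ Ico n (M + 1), y k ^ b ≤ 16 / (b * κ * x n) * y n ^ b := by
        have h9 : b * κ * x n / 8 / 2 * ∑ k ∈ Ico n (M + 1), y k ^ b ≤ y n ^ b := by
          linarith [hyb (M + 1)]
        rw [div_mul_eq_mul_div, le_div_iff₀ (by positivity)]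
        linarith
      have h9 : 16 / (b * κ * x n) * y n ^ b ≤ x n / (4 * C1) := by
        have h10 : y n ^ b ≤ x n ^ 2 / K' := by
          rw [le_div_iff₀ hK'0]; linarith
        calc 16 / (b * κ * x n) * y n ^ b ≤ 16 / (b * κ * x n) * (x n ^ 2 / K') :=
              mul_le_mul_of_nonneg_left h10 (by positivity)
          _ = x n / (4 * C1) := by rw [hK']; field_simp; norm_num
      have h10 : C1 * ∑ k ∈ Ico n (M + 1), y k ^ b ≤ x n / 4 := by
        have := mul_le_mul_of_nonneg_left (h8.trans h9) hC1.le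
        calc _ ≤ C1 * (x n / (4 * C1)) := this
          _ = x n / 4 := by field_simp
      have h11 : C1 * y n ^ b' ≤ x n / 8 := by
        have := mul_le_mul_of_nonneg_left f2 hC1.le
        calc _ ≤ C1 * (1 / (8 * C1) * x n) := this
          _ = x n / 8 := by field_simp
      have h12 : y (M + 1) ^ b' ≤ y n ^ b' := by
        have h13 : y (M + 1) ^ b ≤ y n ^ b := by
          have : 0 ≤ b * κ * x n / 8 / 2 * ∑ k ∈ Ico n (M + 1), y k ^ b :=
            mul_nonneg (by positivity) (sum_nonneg fun k _ => (hyb k).le)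
          linarith
        have h14 : y (M + 1) ≤ y n := by
          by_contra h15
          push Not at h15
          have := Real.rpow_lt_rpow (h.y0 n).le h15 hb
          linarith
        exact Real.rpow_le_rpow (h.y0 _).le h14 hb0.le
      have h13 := mul_le_mul_of_nonneg_left h12 hC1.le
      linarith
  have hlim : x n / 2 ≤ 0 := by
    refine ge_of_tendsto h.xt ?_
    filter_upwards [eventually_ge_atTop n] with M hM
    exact (key M hM).1 M hM le_rfl
  linarith

/-- lower bound of `y` -/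
theorem Fl.growth (h : Fl x y κ c r q N) {b K : ℝ} (hb : 0 < b) (hb2 : b ≤ 2) (hK : 0 < K)
    (hU : ∀ᶠ n in atTop, x n ^ 2 ≤ K * y n ^ b) :
    ∃ C, 0 < C ∧ ∀ n : ℕ, C / (n + 1) ≤ y n ^ (b / 2) := by
  have hκ := h.κ0
  have hsK : 0 < Real.sqrt K := Real.sqrt_pos.2 hK
  set d : ℝ := b / 2 * (κ * Real.sqrt K + 1) with hd
  have hd0 : 0 < d := by positivity
  obtain ⟨N1, hN1⟩ := eventually_atTop.1 (hU.and (h.ev_one.and ((h.ev_pow (b := b / 2)
    (e := 1 / d) (by positivity) (by positivity)).and (eventually_ge_atTop N))))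
  have hv : ∀ n, N1 ≤ n → y (n + 1) ^ (-(b / 2)) ≤ y n ^ (-(b / 2)) + 2 * d := by
    intro n hn
    obtain ⟨h1, h2, h3, h4⟩ := hN1 n hn
    have hy := h.y0 n
    have hy1 := h.y0 (n + 1)
    have h5 : |x n| ≤ Real.sqrt K * y n ^ (b / 2) := by
      have h6 : |x n| ^ 2 ≤ (Real.sqrt K * y n ^ (b / 2)) ^ 2 := by
        rw [mul_pow, Real.sq_sqrt hK.le, ← Real.rpow_natCast (y n ^ (b / 2)), ← Real.rpow_mul hy.le,
          sq_abs]
        convert h1 using 3
        push_cast
        ring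
      exact le_of_sq_le_sq h6 (by positivity)
    have h6 : y n ^ (1 + c) ≤ y n ^ (b / 2) :=
      Real.rpow_le_rpow_of_exponent_ge hy h2 (by linarith [h.c0])
    have h7 := (abs_le.1 (h.V n h4)).1
    have h8 : -((κ * Real.sqrt K + 1) * y n ^ (b / 2)) ≤
        Real.log (y (n + 1)) - Real.log (y n) := by
      have h9 : κ * x n ≤ κ * (Real.sqrt K * y n ^ (b / 2)) :=
        mul_le_mul_of_nonneg_left ((le_abs_self _).trans h5) hκ.le
      linarith
    have h10 : y (n + 1) ^ (-(b / 2)) =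
        y n ^ (-(b / 2)) * Real.exp (-(b / 2) * (Real.log (y (n + 1)) - Real.log (y n))) := by
      rw [Real.rpow_def_of_pos hy1, Real.rpow_def_of_pos hy, ← Real.exp_add]
      congr 1
      ring
    have h11 : -(b / 2) * (Real.log (y (n + 1)) - Real.log (y n)) ≤ d * y n ^ (b / 2) := by
      have := mul_le_mul_of_nonneg_left h8 (show 0 ≤ b / 2 by positivity)
      rw [hd]
      linarith
    have h12 : d * y n ^ (b / 2) ≤ 1 := by
      have := mul_le_mul_of_nonneg_left h3 hd0.le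
      calc _ ≤ d * (1 / d) := this
        _ = 1 := by field_simp
    have h13 : y n ^ (-(b / 2)) * y n ^ (b / 2) = 1 := by
      rw [← Real.rpow_add hy]; simp
    have h14 : 0 < y n ^ (-(b / 2)) := Real.rpow_pos_of_pos hy _
    have h15 : 0 ≤ d * y n ^ (b / 2) := by positivity
    have h16 : Real.exp (d * y n ^ (b / 2)) ≤ 1 + 2 * (d * y n ^ (b / 2)) := by
      have := Real.abs_exp_sub_one_le (x := d * y n ^ (b / 2)) (by
        rw [abs_of_nonneg h15]; exact h12)
      rw [abs_of_nonneg h15] at this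
      linarith [le_abs_self (Real.exp (d * y n ^ (b / 2)) - 1)]
    rw [h10]
    calc y n ^ (-(b / 2)) * Real.exp (-(b / 2) * (Real.log (y (n + 1)) - Real.log (y n)))
        ≤ y n ^ (-(b / 2)) * (1 + 2 * (d * y n ^ (b / 2))) :=
          mul_le_mul_of_nonneg_left ((Real.exp_le_exp.2 h11).trans h16) h14.le
      _ = y n ^ (-(b / 2)) + 2 * d * (y n ^ (-(b / 2)) * y n ^ (b / 2)) := by ring
      _ = y n ^ (-(b / 2)) + 2 * d := by rw [h13]; ring
  have hv2 : ∀ i : ℕ, y (N1 + i) ^ (-(b / 2)) ≤ y N1 ^ (-(b / 2)) + i * (2 * d) := by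
    intro i
    induction i with
    | zero => simp
    | succ i ih =>
      have := hv (N1 + i) (Nat.le_add_right _ _)
      push_cast
      rw [← add_assoc]
      linarith
  have hbd : ∀ᶠ n : ℕ in atTop, y n ^ (-(b / 2)) / (n + 1) ≤ y N1 ^ (-(b / 2)) + 2 * d := by
    filter_upwards [eventually_ge_atTop N1] with n hn
    obtain ⟨i, rfl⟩ := Nat.exists_eq_add_of_le hn
    have h1 := hv2 i
    have h2 : 0 < y N1 ^ (-(b / 2)) := Real.rpow_pos_of_pos (h.y0 _) _
    rw [div_le_iff₀ (by positivity)]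
    refine h1.trans ?_
    have h3 : (1 : ℝ) ≤ ((N1 + i : ℕ) : ℝ) + 1 := by
      have : (0 : ℝ) ≤ ((N1 + i : ℕ) : ℝ) := Nat.cast_nonneg _
      linarith
    have h4 : (i : ℝ) ≤ ((N1 + i : ℕ) : ℝ) + 1 := by
      push_cast
      have : (0 : ℝ) ≤ (N1 : ℝ) := Nat.cast_nonneg _
      linarith
    have h5 := mul_le_mul_of_nonneg_left h3 h2.le
    have h6 := mul_le_mul_of_nonneg_right h4 (show 0 ≤ 2 * d by positivity)
    linarith
  obtain ⟨C, hC⟩ := (isBoundedUnder_of_eventually_le hbd).bddAbove_range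
  have hC1 : 0 < max C 1 := lt_of_lt_of_le one_pos (le_max_right _ _)
  refine ⟨1 / max C 1, by positivity, fun n => ?_⟩
  have h1 : y n ^ (-(b / 2)) / (n + 1) ≤ max C 1 := (hC ⟨n, rfl⟩).trans (le_max_left _ _)
  have hy := h.y0 n
  rw [div_le_iff₀ (by positivity)] at h1
  have h2 : 0 < y n ^ (b / 2) := Real.rpow_pos_of_pos hy _
  have h3 : y n ^ (-(b / 2)) * y n ^ (b / 2) = 1 := by
    rw [← Real.rpow_add hy]; simp
  have h4 := mul_le_mul_of_nonneg_right h1 h2.le
  rw [h3] at h4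
  rw [div_div, div_le_iff₀ (by positivity)]
  linarith

/-- `κ T_n` versus `log (n+1)`, exponents `a ≥ b` -/
theorem Fl.T_two (h : Fl x y κ c r q N) {a b C1 C2 : ℝ} (ha : 0 < a) (hb : 0 < b)
    (hC1 : 0 < C1) (hC2 : 0 < C2) (hac : a / 2 < 1 + c)
    (h1 : ∀ n : ℕ, y n ^ (a / 2) ≤ C1 / (n + 1)) (h2 : ∀ n : ℕ, C2 / (n + 1) ≤ y n ^ (b / 2)) :
    ∃ K, ∀ n : ℕ, 2 / a * Real.log ((n : ℝ) + 1) - K ≤ κ * TT x n ∧
      κ * TT x n ≤ 2 / b * Real.log ((n : ℝ) + 1) + K := by
  obtain ⟨l, hl⟩ := h.logT (summ_pow h.y0 ha hC1 h1 hac)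
  obtain ⟨U, hU⟩ := hl.isBoundedUnder_le.bddAbove_range
  obtain ⟨L, hL⟩ := hl.isBoundedUnder_ge.bddBelow_range
  refine ⟨max (2 / a * Real.log C1 - L) (U - 2 / b * Real.log C2), fun n => ⟨?_, ?_⟩⟩
  · have h3 : L ≤ Real.log (y n) + κ * TT x n := hL ⟨n, rfl⟩
    have h4 := Real.log_le_log (Real.rpow_pos_of_pos (h.y0 n) _) (h1 n)
    rw [Real.log_rpow (h.y0 n), Real.log_div hC1.ne' (by positivity)] at h4
    have h5 : Real.log (y n) ≤ 2 / a * (Real.log C1 - Real.log ((n : ℝ) + 1)) := by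
      have := mul_le_mul_of_nonneg_left h4 (show 0 ≤ 2 / a by positivity)
      calc Real.log (y n) = 2 / a * (a / 2 * Real.log (y n)) := by field_simp
        _ ≤ _ := this
    have := le_max_left (2 / a * Real.log C1 - L) (U - 2 / b * Real.log C2)
    linarith
  · have h3 : Real.log (y n) + κ * TT x n ≤ U := hU ⟨n, rfl⟩
    have h4 := Real.log_le_log (by positivity) (h2 n)
    rw [Real.log_rpow (h.y0 n), Real.log_div hC2.ne' (by positivity)] at h4
    have h5 : 2 / b * (Real.log C2 - Real.log ((n : ℝ) + 1)) ≤ Real.log (y n) := by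
      have := mul_le_mul_of_nonneg_left h4 (show 0 ≤ 2 / b by positivity)
      calc _ ≤ 2 / b * (b / 2 * Real.log (y n)) := this
        _ = Real.log (y n) := by field_simp
    have := le_max_right (2 / a * Real.log C1 - L) (U - 2 / b * Real.log C2)
    linarith

/-- `∑ x² < ∞` -/
theorem Fl.x_sq (h : Fl x y κ c r q N) {a b C1 K : ℝ} (ha : 0 < a) (hab : a < 2 * b)
    (hC1 : 0 < C1) (h1 : ∀ n : ℕ, y n ^ (a / 2) ≤ C1 / (n + 1))
    (hU : ∀ᶠ n in atTop, x n ^ 2 ≤ K * y n ^ b) : Summable fun n => x n ^ 2 := by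
  refine Summable.of_norm_bounded_eventually_nat
    ((summ_pow h.y0 ha hC1 h1 (s := b) (by linarith)).mul_left K) ?_
  filter_upwards [hU] with n hn
  rw [Real.norm_eq_abs, abs_of_nonneg (sq_nonneg _)]
  exact hn

end Vale.Agent.P159.H801
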